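import Vale.Agent.P137.Defs

/-!
Approximation of `|f|` by nonnegative smooth potentials.

Proof notes.  Mollify: `fk = φk ⋆ f` is smooth with gradient `φk ⋆ v`, converging in `L¹`.
For `η > 0` let `sqrt (fk² + η²) - η`; its gradient `fk / sqrt (fk² + η²) • vk` converges as
`k → ∞` along an a.e. convergent subsequence, then as `η → 0` to `sign f • v` (dominated
convergence).  Translations are continuous in `L¹`.
-/

namespace Vale.Agent.P137

open MeasureTheory Metric Filter Topology Set
open scoped ENNReal RealInnerProductSpace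

variable {d : ℕ}

/-! ### Translations -/

section shift

variable {F : Type*} [NormedAddCommGroup F] [NormedSpace ℝ F]

omit [NormedSpace ℝ F] in
private theorem shift_le_add {u w : EE d → F} (hu : AEStronglyMeasurable u)
    (hw : AEStronglyMeasurable w) (h : EE d) :
    ∫⁻ x, ‖u (x + h) - u x‖ₑ ≤ (∫⁻ x, ‖w (x + h) - w x‖ₑ) + 2 * ∫⁻ x, ‖u x - w x‖ₑ := by
  have hsub : AEMeasurable (fun x => ‖u x - w x‖ₑ) := (hu.sub hw).enorm
  have hsubh : AEMeasurable (fun x => ‖u (x + h) - w (x + h)‖ₑ) :=
    hsub.comp_quasiMeasurePreserving (measurePreserving_add_right volume h).quasiMeasurePreserving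
  calc ∫⁻ x, ‖u (x + h) - u x‖ₑ
      ≤ ∫⁻ x, (‖u (x + h) - w (x + h)‖ₑ + ‖w (x + h) - w x‖ₑ + ‖u x - w x‖ₑ) := by
        refine lintegral_mono fun x => ?_
        rw [← ofReal_norm, ← ofReal_norm, ← ofReal_norm, ← ofReal_norm,
          ← ENNReal.ofReal_add (norm_nonneg _) (norm_nonneg _),
          ← ENNReal.ofReal_add (add_nonneg (norm_nonneg _) (norm_nonneg _)) (norm_nonneg _),
          norm_sub_rev (u x) (w x)]
        refine ENNReal.ofReal_le_ofReal ?_
        linarith [norm_sub_le_norm_sub_add_norm_sub (u (x + h)) (w (x + h)) (u x),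
          norm_sub_le_norm_sub_add_norm_sub (w (x + h)) (w x) (u x)]
    _ = _ := by
        rw [lintegral_add_right' _ hsub, lintegral_add_left' hsubh,
          lintegral_add_right_eq_self (fun x => ‖u x - w x‖ₑ) h]
        ring

/-- Translations are continuous in `L¹`. -/
private theorem exists_shift_small {w : EE d → F} (hw : Integrable w) {ε : ℝ≥0∞} (hε : 0 < ε) :
    ∃ δ > (0 : ℝ), ∀ h : EE d, ‖h‖ ≤ δ → ∫⁻ x, ‖w (x + h) - w x‖ₑ ≤ ε := by
  have hε4 : ε / 4 ≠ 0 := by simp [hε.ne']
  obtain ⟨g, hgs, hwg, hgc, hgi⟩ := hw.exists_hasCompactSupport_lintegral_sub_le hε4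
  set K := Metric.cthickening 1 (tsupport g)
  have hK : IsCompact K := hgs.isCompact.cthickening
  obtain ⟨η, hη, hηε⟩ : ∃ η : ℝ, 0 < η ∧ ENNReal.ofReal η * volume K ≤ ε / 4 := by
    rcases eq_or_ne ε ⊤ with rfl | hεt
    · exact ⟨1, one_pos, by simp [ENNReal.top_div_of_ne_top]⟩
    set e := (ε / 4).toReal
    have he : 0 < e := ENNReal.toReal_pos hε4 (ENNReal.div_lt_top hεt (by norm_num)).ne
    refine ⟨e / ((volume K).toReal + 1), by positivity, ?_⟩
    rw [← ENNReal.ofReal_toReal hK.measure_lt_top.ne, ← ENNReal.ofReal_mul (by positivity),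
      ← ENNReal.ofReal_toReal (ENNReal.div_lt_top hεt (by norm_num : (4 : ℝ≥0∞) ≠ 0)).ne]
    refine ENNReal.ofReal_le_ofReal ?_
    show _ ≤ e
    rw [div_mul_eq_mul_div, div_le_iff₀ (by positivity)]
    simp only [ENNReal.toReal_ofReal ENNReal.toReal_nonneg]
    nlinarith [ENNReal.toReal_nonneg (a := volume K)]
  obtain ⟨δ, hδ, hδg⟩ := Metric.uniformContinuous_iff.1
    (hgs.uniformContinuous_of_continuous hgc) η hη
  refine ⟨min (δ / 2) 1, by positivity, fun h hh => ?_⟩
  refine (shift_le_add hw.1 hgi.1 h).trans ?_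
  have hpt : ∀ x, ‖g (x + h) - g x‖ₑ ≤ K.indicator (fun _ => ENNReal.ofReal η) x := by
    intro x
    by_cases hx : x ∈ K
    · rw [indicator_of_mem hx, ← ofReal_norm, ← dist_eq_norm]
      refine ENNReal.ofReal_le_ofReal (hδg ?_).le
      rw [dist_eq_norm, add_sub_cancel_left]
      linarith [hh.trans (min_le_left (δ / 2) 1)]
    · have h1 : g x = 0 := image_eq_zero_of_notMem_tsupport fun hm =>
        hx (self_subset_cthickening _ hm)
      have h2 : g (x + h) = 0 := image_eq_zero_of_notMem_tsupport fun hm =>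
        hx (mem_cthickening_of_dist_le x _ 1 _ hm (by
          rw [dist_eq_norm, sub_add_cancel_left, norm_neg]; exact hh.trans (min_le_right _ _)))
      simp [h1, h2]
  calc (∫⁻ x, ‖g (x + h) - g x‖ₑ) + 2 * ∫⁻ x, ‖w x - g x‖ₑ
      ≤ ε / 4 + 2 * (ε / 4) := by
        refine add_le_add ((lintegral_mono hpt).trans ?_) (mul_le_mul' le_rfl hwg)
        rw [lintegral_indicator_const hK.measurableSet]
        exact hηε
    _ ≤ 4 * (ε / 4) := by
        rw [show (4 : ℝ≥0∞) * (ε / 4) = ε / 4 + 2 * (ε / 4) + ε / 4 by ring]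
        exact le_self_add
    _ = ε := ENNReal.mul_div_cancel (by norm_num) (by norm_num)

end shift

theorem omega_tendsto {w : EE d → EE d} (hw : Integrable w) :
    Tendsto (fun s : ℝ => omega w s) (𝓝[>] 0) (𝓝 0) := by
  refine ENNReal.tendsto_nhds_zero.2 fun ε hε => ?_
  obtain ⟨δ, hδ, h⟩ := exists_shift_small hw hε
  filter_upwards [Ioo_mem_nhdsGT hδ] with s hs
  exact iSup₂_le fun u hu => h u (hu.trans hs.2.le)

theorem omega_le_add {u w : EE d → EE d} (hu : Integrable u) (hw : Integrable w) (s : ℝ) :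
    omega u s ≤ omega w s + 2 * ∫⁻ x, ‖u x - w x‖ₑ :=
  iSup₂_le fun h hh => (shift_le_add hu.1 hw.1 h).trans (add_le_add
    (le_iSup₂ (f := fun (h : EE d) (_ : ‖h‖ ≤ s) => ∫⁻ x, ‖w (x + h) - w x‖ₑ) h hh) le_rfl)

/-! ### Mollification -/

/-- the bumps -/
private noncomputable def bump (d k : ℕ) : ContDiffBump (0 : EE d) where
  rIn := 1 / ((k : ℝ) + 1) / 2
  rOut := 1 / ((k : ℝ) + 1)
  rIn_pos := by positivity
  rIn_lt_rOut := half_lt_self (by positivity)

/-- the mollifiers -/
private noncomputable def mol (d k : ℕ) : EE d → ℝ := (bump d k).normed volume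

section moll

variable {F : Type*} [NormedAddCommGroup F] [NormedSpace ℝ F]

/-- mollification -/
private noncomputable def mconv (k : ℕ) (w : EE d → F) : EE d → F :=
  convolution (mol d k) w (ContinuousLinearMap.lsmul ℝ ℝ) volume

private theorem mol_integrable (k : ℕ) : Integrable (mol d k) := (bump d k).integrable_normed

private theorem mol_smooth (k : ℕ) (n : ℕ∞) : ContDiff ℝ n (mol d k) := (bump d k).contDiff_normed

private theorem mol_supp (k : ℕ) : HasCompactSupport (mol d k) :=
  (bump d k).hasCompactSupport_normed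

private theorem mconv_integrable {w : EE d → F} (hw : Integrable w) (k : ℕ) :
    Integrable (mconv k w) :=
  (mol_integrable k).integrable_convolution _ hw

private theorem mconv_continuous {w : EE d → F} (hw : Integrable w) (k : ℕ) :
    Continuous (mconv k w) :=
  ((mol_supp k).contDiff_convolution_left (n := 0) _ (mol_smooth k 0)
    hw.locallyIntegrable).continuous

private theorem mconv_tendsto [CompleteSpace F] {w : EE d → F} (hw : Integrable w) :
    Tendsto (fun k => ∫⁻ x, ‖mconv k w x - w x‖ₑ) atTop (𝓝 0) := by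
  refine ENNReal.tendsto_nhds_zero.2 fun ε hε => ?_
  obtain ⟨δ, hδ, hsh⟩ := exists_shift_small hw hε
  have hlim : Tendsto (fun k : ℕ => 1 / ((k : ℝ) + 1)) atTop (𝓝 0) :=
    tendsto_one_div_add_atTop_nhds_zero_nat
  filter_upwards [hlim.eventually_le_const hδ] with k hk
  set ψ := mol d k
  have hψ0 : ∀ t, 0 ≤ ψ t := (bump d k).nonneg_normed
  have hψc : Continuous ψ := (mol_smooth k 0).continuous
  have hψ1 : ∫ t, ψ t = 1 := (bump d k).integral_normed
  have hψi : Integrable ψ := mol_integrable k
  have hex : ∀ᵐ x : EE d, Integrable fun t => ψ t • w (x - t) :=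
    hψi.ae_convolution_exists (ContinuousLinearMap.lsmul ℝ ℝ) hw
  have hpt : ∀ᵐ x : EE d,
      ‖mconv k w x - w x‖ₑ ≤ ∫⁻ t, ‖ψ t‖ₑ * ‖w (x - t) - w x‖ₑ := by
    filter_upwards [hex] with x hx
    have e : mconv k w x - w x = ∫ t, ψ t • (w (x - t) - w x) := by
      simp only [mconv, convolution_def, ContinuousLinearMap.lsmul_apply, smul_sub]
      rw [integral_sub hx (hψi.smul_const (w x)), integral_smul_const, hψ1, one_smul]
    rw [e]
    refine (enorm_integral_le_lintegral_enorm _).trans (lintegral_mono fun t => ?_)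
    rw [enorm_smul]
  refine (lintegral_mono_ae hpt).trans ?_
  have hw1 : AEMeasurable (fun p : EE d × EE d => ‖ψ p.2‖ₑ * ‖w (p.1 - p.2) - w p.1‖ₑ)
      ((volume : Measure (EE d)).prod volume) :=
    (hψc.comp continuous_snd).enorm.aemeasurable.mul
      ((hw.1.comp_quasiMeasurePreserving
        (quasiMeasurePreserving_sub_of_right_invariant volume volume)).sub hw.1.comp_fst).enorm
  rw [lintegral_lintegral_swap hw1]
  calc ∫⁻ t, ∫⁻ x, ‖ψ t‖ₑ * ‖w (x - t) - w x‖ₑ ≤ ∫⁻ t, ‖ψ t‖ₑ * ε := by
        refine lintegral_mono fun t => ?_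
        rw [lintegral_const_mul' _ _ enorm_ne_top]
        rcases eq_or_ne (ψ t) 0 with h0 | h0
        · simp [h0]
        refine mul_le_mul' le_rfl ?_
        have ht : t ∈ Function.support ((bump d k).normed volume) := h0
        rw [(bump d k).support_normed_eq] at ht
        have hn : ‖t‖ < 1 / ((k : ℝ) + 1) := by simpa [bump] using ht
        simpa [sub_eq_add_neg] using hsh (-t) (by rw [norm_neg]; linarith)
    _ = (∫⁻ t, ‖ψ t‖ₑ) * ε := lintegral_mul_const'' _ hψc.enorm.aemeasurable
    _ = ε := by
        rw [lintegral_congr fun t => (Real.enorm_eq_ofReal (hψ0 t)),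
          ← ofReal_integral_eq_lintegral_ofReal hψi (Eventually.of_forall hψ0), hψ1]
        simp

end moll

variable {f : EE d → ℝ} {v : EE d → EE d}

private theorem mconv_apply (hv : Integrable v) (k : ℕ) (x : EE d) (i : Fin d) :
    mconv k v x i = ∫ t, mol d k t * v (x - t) i := by
  have hx : Integrable fun t => mol d k t • v (x - t) :=
    (mol_supp k).convolutionExists_left (ContinuousLinearMap.lsmul ℝ ℝ) (mol_smooth k 0).continuous
      hv.locallyIntegrable x
  simp only [mconv, convolution_def, ContinuousLinearMap.lsmul_apply]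
  exact ((EuclideanSpace.proj (𝕜 := ℝ) i).integral_comp_comm hx).symm.trans
    (integral_congr_ae (Eventually.of_forall fun t => by simp))

private theorem mconv_hasFDerivAt (hf : Integrable f) (hv : Integrable v)
    (hfv : HasWeakGrad f v) (k : ℕ) (x : EE d) :
    HasFDerivAt (mconv k f) (innerSL ℝ (mconv k v x)) x := by
  set ψ := mol d k
  have hψs : HasCompactSupport ψ := mol_supp k
  have hψd : Differentiable ℝ ψ := (mol_smooth k 1).differentiable one_ne_zero
  have h := hψs.hasFDerivAt_convolution_left (ContinuousLinearMap.lsmul ℝ ℝ)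
    (mol_smooth k 1) hf.locallyIntegrable x
  refine h.congr_fderiv ?_
  set L := convolution (fderiv ℝ ψ) f
    (ContinuousLinearMap.precompL (EE d) (ContinuousLinearMap.lsmul ℝ ℝ)) volume x
  have hi : Integrable fun t =>
      (ContinuousLinearMap.precompL (EE d) (ContinuousLinearMap.lsmul ℝ ℝ)) (fderiv ℝ ψ t)
        (f (x - t)) :=
    (hψs.fderiv ℝ).convolutionExists_left _
      ((mol_smooth k 1).continuous_fderiv one_ne_zero) hf.locallyIntegrable x
  refine ContinuousLinearMap.coe_injective
    ((EuclideanSpace.basisFun (Fin d) ℝ).toBasis.ext fun i => ?_)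
  simp only [OrthonormalBasis.coe_toBasis, EuclideanSpace.basisFun_apply,
    ContinuousLinearMap.coe_coe, innerSL_apply_apply, EuclideanSpace.inner_single_right, one_mul,
    conj_trivial]
  set e := EuclideanSpace.single i (1 : ℝ)
  have hL : L e = ∫ t, fderiv ℝ ψ t e * f (x - t) := by
    simp only [L, convolution_def]
    rw [ContinuousLinearMap.integral_apply hi]
    simp [ContinuousLinearMap.precompL_apply]
  rw [hL, mconv_apply hv]
  set φ : EE d → ℝ := fun y => ψ (x - y)
  have hφ : ContDiff ℝ ((⊤ : ℕ∞) : WithTop ℕ∞) φ :=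
    (mol_smooth k ⊤).comp (contDiff_const.sub contDiff_id)
  have hφs : HasCompactSupport φ := hψs.comp_homeomorph (Homeomorph.subLeft x)
  have hd : ∀ y, fderiv ℝ φ y e = -fderiv ℝ ψ (x - y) e := by
    intro y
    have h' := (hψd (x - y)).hasFDerivAt.comp y ((hasFDerivAt_id y).const_sub x)
    rw [show φ = ψ ∘ fun y => x - y from rfl, h'.fderiv]
    simp
  have hw := hfv φ hφ hφs i
  simp only [show EuclideanSpace.single i (1 : ℝ) = e from rfl, hd, mul_neg, integral_neg,
    neg_inj] at hw
  calc ∫ t, fderiv ℝ ψ t e * f (x - t) = ∫ y, fderiv ℝ ψ (x - y) e * f y := by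
        rw [← integral_sub_left_eq_self (fun t => fderiv ℝ ψ t e * f (x - t)) volume x]
        simp
    _ = ∫ y, v y i * φ y := by rw [← hw]; simp [mul_comm]
    _ = ∫ t, ψ t * v (x - t) i := by
        rw [← integral_sub_left_eq_self (fun t => ψ t * v (x - t) i) volume x]
        simp [φ, mul_comm]

/-! ### The regularised absolute value -/

private noncomputable def den (η t : ℝ) : ℝ := Real.sqrt (t ^ 2 + η ^ 2)

private noncomputable def qf (η t : ℝ) : ℝ := t / den η t

private theorem den_pos {η : ℝ} (hη : 0 < η) (t : ℝ) : 0 < den η t :=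
  Real.sqrt_pos.2 (by positivity)

private theorem den_sq (η t : ℝ) : den η t ^ 2 = t ^ 2 + η ^ 2 := Real.sq_sqrt (by positivity)

private theorem le_den (η t : ℝ) : |t| ≤ den η t :=
  Real.le_sqrt_of_sq_le (by rw [sq_abs]; nlinarith [sq_nonneg η])

private theorem abs_qf_le {η : ℝ} (hη : 0 < η) (t : ℝ) : |qf η t| ≤ 1 := by
  rw [qf, abs_div, abs_of_pos (den_pos hη t), div_le_one (den_pos hη t)]
  exact le_den η t

private theorem den_sub_le {η : ℝ} (hη : 0 < η) (s t : ℝ) : |den η s - den η t| ≤ |s - t| := by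
  have hs := den_pos hη s
  have ht := den_pos hη t
  have h1 : |s + t| ≤ den η s + den η t :=
    (abs_add_le s t).trans (add_le_add (le_den η s) (le_den η t))
  have e : (den η s - den η t) * (den η s + den η t) = (s - t) * (s + t) := by
    linear_combination den_sq η s - den_sq η t
  have h2 : |den η s - den η t| * (den η s + den η t) ≤ |s - t| * (den η s + den η t) := by
    rw [← abs_of_pos (add_pos hs ht), ← abs_mul, e, abs_mul, abs_of_pos (add_pos hs ht)]
    exact mul_le_mul_of_nonneg_left h1 (abs_nonneg _)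
  exact le_of_mul_le_mul_right h2 (add_pos hs ht)

private theorem qf_sub_le {η : ℝ} (hη : 0 < η) (s t : ℝ) :
    |qf η s - qf η t| ≤ 2 / η * |s - t| := by
  have hs := den_pos hη s
  have ht := den_pos hη t
  have hse : η ≤ den η s := Real.le_sqrt_of_sq_le (by nlinarith [sq_nonneg s])
  have e : qf η s - qf η t = ((s - t) + qf η t * (den η t - den η s)) / den η s := by
    simp only [qf]; field_simp; ring
  rw [e, abs_div, abs_of_pos hs, div_mul_eq_mul_div]
  refine div_le_div₀ (by positivity) ?_ hη hse
  refine (abs_add_le _ _).trans ?_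
  rw [abs_mul, two_mul]
  refine add_le_add le_rfl ((mul_le_mul (abs_qf_le hη t) (den_sub_le hη t s) (abs_nonneg _)
    zero_le_one).trans_eq ?_)
  rw [one_mul, abs_sub_comm]

private theorem hasDerivAt_den {η : ℝ} (hη : 0 < η) (t : ℝ) :
    HasDerivAt (den η) (qf η t) t := by
  have h := ((hasDerivAt_pow 2 t).add_const (η ^ 2)).sqrt (by positivity)
  refine h.congr_deriv ?_
  simp only [qf, den]
  push_cast
  field_simp

private theorem continuous_qf {η : ℝ} (hη : 0 < η) : Continuous (qf η) :=
  continuous_id.div (Real.continuous_sqrt.comp (by fun_prop)) fun t => (den_pos hη t).ne'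

private theorem sign_limit {η : ℕ → ℝ} (h : Tendsto η atTop (𝓝 0)) (t : ℝ)
    (ht : t ≠ 0) : Tendsto (fun n => qf (η n) t) atTop (𝓝 (t / |t|)) := by
  have h1 : Tendsto (fun n => den (η n) t) atTop (𝓝 |t|) := by
    have h2 : Tendsto (fun n => t ^ 2 + η n ^ 2) atTop (𝓝 (t ^ 2)) := by
      simpa using (h.pow 2).const_add (t ^ 2)
    simpa [den, Real.sqrt_sq_eq_abs] using h2.sqrt
  exact tendsto_const_nhds.div h1 (abs_ne_zero.2 ht)

theorem exists_pot_seq {f : EE d → ℝ} {v : EE d → EE d} (hf : Integrable f) (hv : Integrable v)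
    (hfv : HasWeakGrad f v) :
    ∃ (g : ℕ → EE d → ℝ) (u : ℕ → EE d → EE d) (w : EE d → EE d),
      (∀ k, IsPot (g k) (u k)) ∧ (∀ k x, 0 ≤ g k x) ∧ Integrable w ∧
      (∫⁻ x, ‖w x‖ₑ ≤ ∫⁻ x, ‖v x‖ₑ) ∧
      Tendsto (fun k => ∫⁻ x, ‖|f x| - g k x‖ₑ) atTop (𝓝 0) ∧
      Tendsto (fun k => ∫⁻ x, ‖u k x - w x‖ₑ) atTop (𝓝 0) := by
  set η : ℕ → ℝ := fun n => 1 / ((n : ℝ) + 1) with hηdef
  have hη : ∀ n, 0 < η n := fun n => by simp only [hηdef]; positivity
  have hηlim : Tendsto η atTop (𝓝 0) := tendsto_one_div_add_atTop_nhds_zero_nat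
  have hK : ∀ n, ∃ k, ∫⁻ x, ‖mconv k f x - f x‖ₑ ≤ ENNReal.ofReal (η n ^ 3) ∧
      ∫⁻ x, ‖mconv k v x - v x‖ₑ ≤ ENNReal.ofReal (η n) := fun n =>
    (((mconv_tendsto hf).eventually_le_const (ENNReal.ofReal_pos.2 (pow_pos (hη n) 3))).and
      ((mconv_tendsto hv).eventually_le_const (ENNReal.ofReal_pos.2 (hη n)))).exists
  choose K hKf hKv using hK
  set a : ℕ → EE d → ℝ := fun n => mconv (K n) f
  set b : ℕ → EE d → EE d := fun n => mconv (K n) v
  set sg : ℝ → ℝ := fun t => if t = 0 then 0 else t / |t| with hsg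
  have hsgm : Measurable sg :=
    Measurable.ite (measurableSet_singleton 0) measurable_const (measurable_id.div measurable_abs)
  have hsgb : ∀ t, |sg t| ≤ 1 := fun t => by
    simp only [hsg]; split_ifs with h
    · simp
    · rw [abs_div, abs_abs, div_self (abs_ne_zero.2 h)]
  set w : EE d → EE d := fun x => sg (f x) • v x
  have hwm : AEStronglyMeasurable w :=
    (hsgm.comp_aemeasurable hf.1.aemeasurable).aestronglyMeasurable.smul hv.1
  have hwv : ∀ x, ‖w x‖ ≤ ‖v x‖ := fun x => by
    rw [norm_smul, Real.norm_eq_abs]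
    exact mul_le_of_le_one_left (norm_nonneg _) (hsgb _)
  have hwi : Integrable w := hv.norm.mono' hwm (Eventually.of_forall hwv)
  set g : ℕ → EE d → ℝ := fun n x => den (η n) (a n x) - η n with hg
  set u : ℕ → EE d → EE d := fun n x => qf (η n) (a n x) • b n x with hu
  have hac : ∀ n, Continuous (a n) := fun n => mconv_continuous hf _
  have hbc : ∀ n, Continuous (b n) := fun n => mconv_continuous hv _
  have hg0 : ∀ n x, 0 ≤ g n x := fun n x =>
    sub_nonneg.2 (Real.le_sqrt_of_sq_le (by nlinarith [sq_nonneg (a n x)]))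
  have hd0 : ∀ n, den (η n) 0 = η n := fun n => by simp [den, Real.sqrt_sq (hη n).le]
  have hga : ∀ n x, g n x ≤ |a n x| := fun n x => by
    have h := (le_abs_self _).trans (den_sub_le (hη n) (a n x) 0)
    rw [hd0, sub_zero] at h
    exact h
  have hpot : ∀ n, IsPot (g n) (u n) := by
    intro n
    have hgc : Continuous (g n) :=
      (Real.continuous_sqrt.comp (((hac n).pow 2).add continuous_const)).sub continuous_const
    have huc : Continuous (u n) := ((continuous_qf (hη n)).comp (hac n)).smul (hbc n)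
    refine ⟨hgc, huc, ?_, ?_, fun y z => ?_⟩
    · exact (mconv_integrable hf (K n)).norm.mono' hgc.aestronglyMeasurable
        (Eventually.of_forall fun x => by
          rw [Real.norm_eq_abs, abs_of_nonneg (hg0 n x)]; exact hga n x)
    · exact (mconv_integrable hv (K n)).norm.mono' huc.aestronglyMeasurable
        (Eventually.of_forall fun x => by
          rw [norm_smul, Real.norm_eq_abs]
          exact mul_le_of_le_one_left (norm_nonneg _) (abs_qf_le (hη n) _))
    · have hd : ∀ s : ℝ, HasDerivAt (fun s : ℝ => g n (y + s • z)) ⟪u n (y + s • z), z⟫ s := by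
        intro s
        have h1 : HasDerivAt (fun s : ℝ => a n (y + s • z)) ⟪b n (y + s • z), z⟫ s := by
          have h := (mconv_hasFDerivAt hf hv hfv (K n) (y + s • z)).comp_hasDerivAt s
            (((hasDerivAt_id s).smul_const z).const_add y)
          simp only [one_smul, innerSL_apply_apply] at h
          exact h
        have h2 := ((hasDerivAt_den (hη n) _).comp s h1).sub_const (η n)
        simp only [hu, real_inner_smul_left]
        exact h2
      have hint : Continuous fun s : ℝ => ⟪u n (y + s • z), z⟫ :=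
        (huc.comp (by fun_prop)).inner continuous_const
      rw [intervalIntegral.integral_eq_sub_of_hasDerivAt (fun s _ => hd s)
        (hint.intervalIntegrable 0 1)]
      simp
  refine ⟨g, u, w, hpot, hg0, hwi, lintegral_mono fun x => ?_, ?_, ?_⟩
  · rw [← ofReal_norm, ← ofReal_norm]; exact ENNReal.ofReal_le_ofReal (hwv x)
  · -- the functions
    have hmain : ∀ n, ∫⁻ x, ‖|f x| - g n x‖ₑ ≤
        (∫⁻ x, ENNReal.ofReal (|f x| + η n - den (η n) (f x))) + ENNReal.ofReal (η n ^ 3) := by
      intro n
      refine le_trans ?_ (add_le_add le_rfl (hKf n))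
      have hm : AEMeasurable fun x => ‖mconv (K n) f x - f x‖ₑ :=
        ((hac n).aestronglyMeasurable.sub hf.1).enorm
      rw [← lintegral_add_right' (fun x => ENNReal.ofReal (|f x| + η n - den (η n) (f x))) hm]
      refine lintegral_mono fun x => ?_
      have h1 := den_sub_le (hη n) (f x) 0
      rw [hd0, sub_zero] at h1
      have h0 : 0 ≤ |f x| + η n - den (η n) (f x) := by linarith [le_abs_self (den (η n) (f x) - η n)]
      rw [← ofReal_norm, ← ofReal_norm, ← ENNReal.ofReal_add h0 (norm_nonneg _)]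
      refine ENNReal.ofReal_le_ofReal ?_
      have e : |f x| - g n x =
          (|f x| + η n - den (η n) (f x)) + (den (η n) (f x) - den (η n) (a n x)) := by
        simp only [hg]; ring
      rw [Real.norm_eq_abs, Real.norm_eq_abs, e]
      refine (abs_add_le _ _).trans (add_le_add (abs_of_nonneg h0).le ?_)
      rw [abs_sub_comm (a n x) (f x)]
      exact den_sub_le (hη n) _ _
    have h1 : Tendsto (fun n => ∫⁻ x, ENNReal.ofReal (|f x| + η n - den (η n) (f x))) atTop
        (𝓝 0) := by
      have h := tendsto_lintegral_of_dominated_convergence'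
        (F := fun n x => ENNReal.ofReal (|f x| + η n - den (η n) (f x))) (f := fun _ => 0)
        (fun x => ENNReal.ofReal |f x|) (μ := volume) (fun n => ?_)
        (fun n => Eventually.of_forall fun x => ?_) ?_ (Eventually.of_forall fun x => ?_)
      · simpa using h
      · have hc : Continuous (den (η n)) := Real.continuous_sqrt.comp (by fun_prop)
        exact (((continuous_abs.add continuous_const).sub hc).measurable.comp_aemeasurable
          hf.1.aemeasurable).ennreal_ofReal
      · refine ENNReal.ofReal_le_ofReal ?_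
        have : η n ≤ den (η n) (f x) := Real.le_sqrt_of_sq_le (by nlinarith [sq_nonneg (f x)])
        linarith
      · simpa [← Real.enorm_eq_ofReal_abs] using hf.2.ne
      · have h2 : Tendsto (fun n => den (η n) (f x)) atTop (𝓝 |f x|) := by
          have h3 : Tendsto (fun n => f x ^ 2 + η n ^ 2) atTop (𝓝 (f x ^ 2)) := by
            simpa using (hηlim.pow 2).const_add (f x ^ 2)
          simpa [den, Real.sqrt_sq_eq_abs] using h3.sqrt
        simpa using ENNReal.tendsto_ofReal ((hηlim.const_add |f x|).sub h2)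
    refine tendsto_of_tendsto_of_tendsto_of_le_of_le tendsto_const_nhds ?_
      (fun n => zero_le) hmain
    simpa using h1.add (ENNReal.tendsto_ofReal (hηlim.pow 3))
  · -- the gradients
    set H : ℕ → EE d → ℝ := fun n x => |qf (η n) (f x) - sg (f x)| * ‖v x‖ +
      2 * ({x | 1 / η n < ‖v x‖}.indicator (fun x => ‖v x‖) x) with hH
    have hH0 : ∀ n x, 0 ≤ H n x := fun n x =>
      add_nonneg (by positivity) (mul_nonneg two_pos.le (indicator_nonneg (fun _ _ => norm_nonneg _) _))
    have hmain : ∀ n, ∫⁻ x, ‖u n x - w x‖ₑ ≤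
        (∫⁻ x, ENNReal.ofReal (H n x)) + (ENNReal.ofReal (η n) +
          ENNReal.ofReal (2 / η n ^ 2) * ENNReal.ofReal (η n ^ 3)) := by
      intro n
      refine le_trans ?_ (add_le_add le_rfl (add_le_add (hKv n) (mul_le_mul' le_rfl (hKf n))))
      have hm1 : AEMeasurable fun x => ‖b n x - v x‖ₑ :=
        ((hbc n).aestronglyMeasurable.sub hv.1).enorm
      have hm2 : AEMeasurable fun x => ‖a n x - f x‖ₑ :=
        ((hac n).aestronglyMeasurable.sub hf.1).enorm
      rw [← lintegral_const_mul'' _ hm2, ← lintegral_add_left' hm1,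
        ← lintegral_add_right' _ (hm1.fun_add (hm2.const_mul _))]
      refine lintegral_mono fun x => ?_
      have hpos : 0 ≤ 2 / η n ^ 2 := by positivity
      rw [← ofReal_norm, ← ofReal_norm, ← ofReal_norm, ← ENNReal.ofReal_mul hpos,
        ← ENNReal.ofReal_add (norm_nonneg _) (mul_nonneg hpos (norm_nonneg _)),
        ← ENNReal.ofReal_add (hH0 n x) (add_nonneg (norm_nonneg _) (mul_nonneg hpos (norm_nonneg _)))]
      refine ENNReal.ofReal_le_ofReal ?_
      have e : u n x - w x = qf (η n) (a n x) • (b n x - v x) +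
          ((qf (η n) (a n x) - qf (η n) (f x)) • v x + (qf (η n) (f x) - sg (f x)) • v x) := by
        simp only [hu, w]; module
      rw [e]
      refine (norm_add_le _ _).trans ?_
      have t1 : ‖qf (η n) (a n x) • (b n x - v x)‖ ≤ ‖b n x - v x‖ := by
        rw [norm_smul, Real.norm_eq_abs]
        exact mul_le_of_le_one_left (norm_nonneg _) (abs_qf_le (hη n) _)
      have t2 : ‖(qf (η n) (a n x) - qf (η n) (f x)) • v x‖ ≤
          2 * ({x | 1 / η n < ‖v x‖}.indicator (fun x => ‖v x‖) x) +
            2 / η n ^ 2 * ‖a n x - f x‖ := by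
        rw [norm_smul, Real.norm_eq_abs, Real.norm_eq_abs]
        have hd := qf_sub_le (hη n) (a n x) (f x)
        by_cases hx : 1 / η n < ‖v x‖
        · rw [indicator_of_mem (show x ∈ {x | 1 / η n < ‖v x‖} from hx)]
          refine le_add_of_le_of_nonneg (mul_le_mul_of_nonneg_right ?_ (norm_nonneg _))
            (mul_nonneg hpos (abs_nonneg _))
          refine (abs_sub _ _).trans ?_
          linarith [abs_qf_le (hη n) (a n x), abs_qf_le (hη n) (f x)]
        · rw [indicator_of_notMem (show x ∉ {x | 1 / η n < ‖v x‖} from hx), mul_zero, zero_add]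
          refine (mul_le_mul hd (not_lt.1 hx) (norm_nonneg _)
            (mul_nonneg (div_nonneg two_pos.le (hη n).le) (abs_nonneg _))).trans_eq ?_
          field_simp
      have t3 := norm_add_le ((qf (η n) (a n x) - qf (η n) (f x)) • v x)
        ((qf (η n) (f x) - sg (f x)) • v x)
      have t4 : ‖(qf (η n) (f x) - sg (f x)) • v x‖ = |qf (η n) (f x) - sg (f x)| * ‖v x‖ := by
        rw [norm_smul, Real.norm_eq_abs]
      simp only [hH]
      linarith
    have h1 : Tendsto (fun n => ∫⁻ x, ENNReal.ofReal (H n x)) atTop (𝓝 0) := by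
      have h := tendsto_lintegral_of_dominated_convergence'
        (F := fun n x => ENNReal.ofReal (H n x)) (f := fun _ => 0)
        (fun x => ENNReal.ofReal (4 * ‖v x‖)) (μ := volume) (fun n => ?_)
        (fun n => Eventually.of_forall fun x => ?_) ?_ (Eventually.of_forall fun x => ?_)
      · simpa using h
      · refine AEMeasurable.ennreal_ofReal (.add ?_ (.const_mul (.indicator₀ ?_ ?_) _))
        · exact ((((continuous_qf (hη n)).measurable.sub hsgm).abs).comp_aemeasurable
            hf.1.aemeasurable).mul hv.1.norm.aemeasurable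
        · exact hv.1.norm.aemeasurable
        · exact nullMeasurableSet_lt aemeasurable_const hv.1.norm.aemeasurable
      · refine ENNReal.ofReal_le_ofReal ?_
        have h2 : |qf (η n) (f x) - sg (f x)| ≤ 2 := (abs_sub _ _).trans
          (by linarith [abs_qf_le (hη n) (f x), hsgb (f x)])
        have h3 : {x | 1 / η n < ‖v x‖}.indicator (fun x => ‖v x‖) x ≤ ‖v x‖ :=
          indicator_le_self' (fun _ _ => norm_nonneg _) x
        simp only [hH]
        nlinarith [norm_nonneg (v x)]
      · simp only [ENNReal.ofReal_mul (by norm_num : (0 : ℝ) ≤ 4), ofReal_norm]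
        rw [lintegral_const_mul' _ _ ENNReal.ofReal_ne_top]
        exact ENNReal.mul_ne_top ENNReal.ofReal_ne_top hv.2.ne
      · have hev : ∀ᶠ n in atTop,
            {x | 1 / η n < ‖v x‖}.indicator (fun x => ‖v x‖) x = 0 := by
          obtain ⟨N, hN⟩ := exists_nat_ge ‖v x‖
          filter_upwards [eventually_ge_atTop N] with n hn
          refine indicator_of_notMem ?_ _
          have : (N : ℝ) ≤ n := Nat.cast_le.2 hn
          simp only [mem_ofPred_eq, not_lt, hηdef, one_div_one_div]
          linarith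
        have h2 : Tendsto (fun n => qf (η n) (f x) - sg (f x)) atTop (𝓝 0) := by
          rcases eq_or_ne (f x) 0 with h0 | h0
          · simp [h0, qf, hsg]
          · simp only [hsg, if_neg h0]
            simpa using (sign_limit hηlim (f x) h0).sub_const (f x / |f x|)
        have h3 : Tendsto (fun n => {x | 1 / η n < ‖v x‖}.indicator (fun x => ‖v x‖) x) atTop
            (𝓝 0) := tendsto_const_nhds.congr' (hev.mono fun n h => h.symm)
        have h4 := ENNReal.tendsto_ofReal ((h2.abs.mul_const ‖v x‖).add (h3.const_mul 2))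
        simpa [hH] using h4
    refine tendsto_of_tendsto_of_tendsto_of_le_of_le tendsto_const_nhds ?_
      (fun n => zero_le) hmain
    have e : (fun n => ENNReal.ofReal (2 / η n ^ 2) * ENNReal.ofReal (η n ^ 3)) =
        fun n => ENNReal.ofReal (2 * η n) := by
      funext n
      rw [← ENNReal.ofReal_mul (by have := hη n; positivity)]
      congr 1
      field_simp [(hη n).ne']
    have e' := ENNReal.tendsto_ofReal (hηlim.const_mul 2)
    rw [← e] at e'
    simpa using h1.add ((ENNReal.tendsto_ofReal hηlim).add e')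

end Vale.Agent.P137
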