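import Vale.Agent.P137.CapTransfer

/-!
The key estimate at one ball.

Proof notes.  `B = ball z0 r`, `q = z0 - r e`, `h = ⟪z - q, e⟫`, `t n = R / 4 ^ n`,
`M = 1000 (d+1)`, `τ = t K / 4`, `c = avg g (p + 32 (d+1) R e) R`.
Low part of `B`: `h < t 1`; shells `t (n+1) ≤ h < t n` for `1 ≤ n < K`, and `h < t K`.
`D z = q + (3/2)(z-q) + (5/2) h e`, plus `(τ/2) e` on the lowest shell; it maps the low part into
`B` with Jacobian at least 4 on each shell and the images cover each point at most twice.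
`T z = q + M (z-q) + τ e` maps `B` onto the big ball.  Resolution on the shell `n`: `J - n - 3`.
Upper bound: let `U` be the supremum over measurable weights `0 ≤ κ ≤ 1` of `∫_B κ (g - c)`;
on the low part `g z ≤ g (D z) + loss`, on the top pair `z` with the ball of `c`; so
`U ≤ U / 2 + loss`.  Lower bound: `Θ = ∫_B (c - g)`; on the low part
`c - g z = (c - g (D z)) + (g (D z) - g (T z)) + (g (T z) - g z)`; on the top
`c - g z = (c - g (T z)) + (g (T z) - g z)`; so
`Θ ≤ Θ / 2 + vol B * (avg_TB - avg_B) + loss` (using the upper bound for the weight that is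
missing).  Hence `avg_B ≤ c + loss` and `t ≥ avg_TB ≥ avg_B + (1/2)(c - avg_B) - loss`.
-/

namespace Vale.Agent.P137

open MeasureTheory Metric Filter Topology Set
open scoped ENNReal RealInnerProductSpace

variable {d : ℕ}

theorem cap_shellHyp {ε : ℝ} (hε : 0 < ε) {J K n : ℕ} (hn1 : 1 ≤ n) (hnK : n ≤ K) (hKJ : K + 3 ≤ J)
    {M : ℝ} (hM : 1000 ≤ M) :
    ShellHyp ε (rho ε J) M (capT (rho ε J) n) (rho ε J / 2 ^ n) (capLo (rho ε J) K n)
      (capSg (rho ε J) K n) (rho ε J / 4 ^ K / 4) (J - n - 3) := by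
  have hR := rho_pos hε J
  set R := rho ε J with hRdef
  have hT : 0 < capT R n := by unfold capT; positivity
  have hsg := capSg_le hR.le hnK
  have hτ : R / 4 ^ K / 4 ≤ capT R n := by
    have := capT_anti hR.le hnK
    have : R / 4 ^ K = capT R K := rfl
    have : 0 ≤ capT R K := by unfold capT; positivity
    linarith
  refine ⟨hR, hT, ?_, ?_, hM, capLo_nonneg hR.le K n, hsg.1, hsg.2, by positivity, hτ, ?_, ?_, ?_⟩
  · exact div_le_div_of_nonneg_left hR.le (by positivity)
      (pow_le_pow_left₀ (by norm_num) (by norm_num) n)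
  · simp only [capT, div_pow, ← pow_mul]
    rw [mul_comm n 2, pow_mul]
    norm_num
    ring
  · unfold capLo capSg
    split_ifs with h
    · rw [capT_succ]; linarith
    · have : n = K := le_antisymm hnK (not_lt.1 h)
      subst this
      simp only [capT] at *
      linarith
  · unfold capLo capSg
    split_ifs with h
    · rw [capT_succ]
      have : (0 : ℝ) ≤ R / 4 ^ K / 4 := by positivity
      nlinarith [mul_le_mul_of_nonneg_right hM hT.le]
    · have : n = K := le_antisymm hnK (not_lt.1 h)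
      subst this
      simp only [capT] at *
      linarith
  · have e1 : J = (J - n - 3) + n + 3 := by omega
    simp only [capT, hRdef, rho]
    conv_rhs => rw [e1, pow_add, pow_add]
    field_simp
    norm_num

theorem cap_avg_ball {g : EE d → ℝ} (hg : Integrable g) (z : EE d) {r : ℝ} (hr : 0 < r) (c : ℝ) :
    ∫ y in ball z r, (g y - c) = volume.real (ball z r) * (avg g z r - c) := by
  have hpos : 0 < volume.real (ball z r) := by
    rw [Measure.real]
    exact ENNReal.toReal_pos (measure_ball_pos volume _ hr).ne' measure_ball_lt_top.ne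
  rw [integral_sub hg.integrableOn (integrableOn_const measure_ball_lt_top.ne),
    setIntegral_const, avg, smul_eq_mul]
  field_simp

theorem cap_avg_big {g : EE d → ℝ} (hg : Integrable g) {e z0 : EE d} (he : ‖e‖ = 1) (hd : 1 ≤ d)
    {r M τ : ℝ} (hr : 0 < r) (hM : 0 < M) (c : ℝ) :
    ∫ z in ball z0 r, (g (capMap e (z0 - r • e) M 0 τ z) - c) =
      volume.real (ball z0 r) * (avg g (z0 - r • e + (τ + M * r) • e) (M * r) - c) := by
  set q := z0 - r • e with hq
  set zb := q + (τ + M * r) • e with hzb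
  set F : EE d → ℝ := fun y => g y - c with hF
  have hTB : ∀ z, capMap e q M 0 τ z ∈ ball zb (M * r) ↔ z ∈ ball z0 r := fun z => by
    have e1 : capMap e q M 0 τ z - zb = M • (z - z0) := by
      simp only [capMap, hzb, hq]; module
    rw [mem_ball, dist_eq_norm, e1, norm_smul, Real.norm_eq_abs,
      abs_of_nonneg hM.le, mem_ball, dist_eq_norm]
    exact ⟨fun hlt => lt_of_mul_lt_mul_left hlt hM.le, fun hlt => mul_lt_mul_of_pos_left hlt hM⟩
  have h2 := integral_aff (d := d) he (α := M) (β := 0) hM (by linarith)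
    (q - M • q + (τ - 0 * ⟪q, e⟫) • e) ((ball zb (M * r)).indicator F)
  simp only [← capMap_eq_aff] at h2
  rw [integral_indicator measurableSet_ball] at h2
  have h3 : ∫ z in ball z0 r, F (capMap e q M 0 τ z) =
      ∫ z, (ball zb (M * r)).indicator F (capMap e q M 0 τ z) := by
    rw [← integral_indicator measurableSet_ball]
    refine integral_congr_ae (Filter.Eventually.of_forall fun z => ?_)
    by_cases hz : z ∈ ball z0 r
    · simp [hz, (hTB z).2 hz]
    · simp [hz, mt (hTB z).1 hz]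
  have hV : volume.real (ball zb (M * r)) = M ^ d * volume.real (ball z0 r) := by
    rw [Measure.real, Measure.real, Measure.addHaar_ball_of_pos _ _ (show 0 < M * r by positivity),
      Measure.addHaar_ball_of_pos _ _ hr, ENNReal.toReal_mul, ENNReal.toReal_mul,
      ENNReal.toReal_ofReal (by positivity), ENNReal.toReal_ofReal (by positivity),
      finrank_euclideanSpace_fin, mul_pow, mul_assoc]
  have hMd : M ^ (d - 1) * M = M ^ d := by rw [← pow_succ, Nat.sub_add_cancel hd]
  change ∫ z in ball z0 r, F (capMap e q M 0 τ z) = _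
  rw [h3, h2, add_zero, hMd]
  simp only [hF]
  rw [cap_avg_ball hg zb (by positivity) c, hV]
  field_simp

theorem cap_integrableOn {g : EE d → ℝ} (hg : Integrable g) {e : EE d} (he : ‖e‖ = 1) (q : EE d)
    {α β : ℝ} (hα : 0 < α) (hαβ : 0 < α + β) (σ c : ℝ) {S : Set (EE d)} (hS : volume S < ⊤) :
    IntegrableOn (fun z => g (capMap e q α β σ z) - c) S := by
  simp only [capMap_eq_aff]
  exact ((integrable_aff he hα hαβ _ hg).integrableOn).sub (integrableOn_const hS.ne)

theorem cap_weight_int {F : EE d → ℝ} {S : Set (EE d)} {κ : EE d → ℝ} (hκ : Measurable κ)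
    (hκ0 : ∀ z, 0 ≤ κ z) (hκ1 : ∀ z, κ z ≤ 1) (hF : IntegrableOn F S) :
    IntegrableOn (fun z => κ z * F z) S :=
  Integrable.bdd_mul (c := 1) hF hκ.aestronglyMeasurable (Filter.Eventually.of_forall fun z => by
    rw [Real.norm_eq_abs, abs_of_nonneg (hκ0 z)]
    exact hκ1 z)

/-- The recursion: both bounds on the average against `c`, given the steps. -/
theorem cap_recursion {g : EE d → ℝ} (hg : Integrable g) (hgc : Continuous g) (hd : 1 ≤ d)
    {e z0 : EE d} (he : ‖e‖ = 1) {r R M : ℝ} {K : ℕ} (hR : 0 < R) (hRr : R ≤ r) (hK : 1 ≤ K)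
    (hM : 0 < M) (c : ℝ) (P0 : ℝ) (Q : ℕ → ℝ)
    (hstepD : ∀ n ∈ Finset.Icc 1 K, ∀ κ : EE d → ℝ, Measurable κ → (∀ z, 0 ≤ κ z) →
      (∀ z, κ z ≤ 1) → ∫ z in capShell e z0 (z0 - r • e) r R K n,
        κ z * (g z - g (capMap e (z0 - r • e) (3 / 2) (5 / 2) (capSg R K n) z)) ≤ Q n)
    (hstepT : ∀ n ∈ Finset.Icc 1 K, ∫ z in capShell e z0 (z0 - r • e) r R K n,
        (g (capMap e (z0 - r • e) (3 / 2) (5 / 2) (capSg R K n) z) -
          g (capMap e (z0 - r • e) M 0 (R / 4 ^ K / 4) z)) ≤ Q n)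
    (htopU : ∀ κ : EE d → ℝ, Measurable κ → (∀ z, 0 ≤ κ z) → (∀ z, κ z ≤ 1) →
      ∫ z in capTop e z0 (z0 - r • e) r R, κ z * (g z - c) ≤ P0)
    (htopT : ∫ z in capTop e z0 (z0 - r • e) r R,
      (c - g (capMap e (z0 - r • e) M 0 (R / 4 ^ K / 4) z)) ≤ P0) :
    volume.real (ball z0 r) * (avg g z0 r - c) ≤ 2 * (P0 + ∑ n ∈ Finset.Icc 1 K, Q n) ∧
    volume.real (ball z0 r) * (c - avg g z0 r) ≤ 4 * (P0 + ∑ n ∈ Finset.Icc 1 K, Q n) +
      2 * (volume.real (ball z0 r) *
        (avg g (z0 - r • e + (R / 4 ^ K / 4 + M * r) • e) (M * r) - avg g z0 r)) := by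
  set q := z0 - r • e with hq
  set B := ball z0 r with hB
  set τ := R / 4 ^ K / 4 with hτ
  set F : EE d → ℝ := fun y => g y - c with hF
  have hr : 0 < r := lt_of_lt_of_le hR hRr
  have hBf : volume B < ⊤ := measure_ball_lt_top
  have hShf : ∀ n, volume (capShell e z0 q r R K n) < ⊤ := fun n =>
    lt_of_le_of_lt (measure_mono fun z hz => hz.1) hBf
  have hFon : ∀ S : Set (EE d), volume S < ⊤ → IntegrableOn F S := fun S hS =>
    hg.integrableOn.sub (integrableOn_const hS.ne)
  have hBF := hFon B hBf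
  set kp : EE d → ℝ := fun y => if 0 < F y then 1 else 0 with hkp
  have hkpm : Measurable kp :=
    Measurable.ite (measurableSet_lt measurable_const (hgc.sub continuous_const).measurable)
      measurable_const measurable_const
  have hkp0 : ∀ y, 0 ≤ kp y := fun y => by simp only [hkp]; split_ifs <;> norm_num
  have hkp1 : ∀ y, kp y ≤ 1 := fun y => by simp only [hkp]; split_ifs <;> norm_num
  set U := ∫ y in B, kp y * F y with hU
  have hmaxi : ∀ (κ : EE d → ℝ) (b : ℝ), Measurable κ → (∀ y, 0 ≤ κ y) → (∀ y, κ y ≤ b) → b ≤ 1 →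
      ∫ y in B, κ y * F y ≤ b * U := by
    intro κ b hκ h0 h1 hb
    rw [hU, ← integral_const_mul]
    refine setIntegral_mono_on (cap_weight_int hκ h0 (fun y => (h1 y).trans hb) hBF)
      ((cap_weight_int hkpm hkp0 hkp1 hBF).const_mul b) measurableSet_ball fun y _ => ?_
    simp only [hkp]
    split_ifs with hy
    · rw [one_mul]; exact mul_le_mul_of_nonneg_right (h1 y) hy.le
    · rw [zero_mul, mul_zero]; exact mul_nonpos_of_nonneg_of_nonpos (h0 y) (not_lt.1 hy)
  set S := ∑ n ∈ Finset.Icc 1 K, Q n with hS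
  have hDint : ∀ n, IntegrableOn (fun z => F (capMap e q (3 / 2) (5 / 2) (capSg R K n) z))
      (capShell e z0 q r R K n) := fun n =>
    cap_integrableOn hg he q (by norm_num) (by norm_num) _ c (hShf n)
  have hTint : ∀ S' : Set (EE d), volume S' < ⊤ →
      IntegrableOn (fun z => F (capMap e q M 0 τ z)) S' := fun S' hS' =>
    cap_integrableOn hg he q hM (by linarith) _ c hS'
  have hUle : U ≤ 2 * (P0 + S) := by
    obtain ⟨κ', hκ'm, hκ'0, hκ'1, hκ'e⟩ :=
      cap_transfer he hR hRr (K := K) hBF hkpm hkp0 hkp1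
    rw [← hq] at hκ'e
    have hstep : ∑ n ∈ Finset.Icc 1 K, ∫ z in capShell e z0 q r R K n, kp z * F z ≤
        (∫ y in B, κ' y * F y) + S := by
      rw [← hκ'e, hS, ← Finset.sum_add_distrib]
      refine Finset.sum_le_sum fun n hn => ?_
      have ia := cap_weight_int hkpm hkp0 hkp1 (hFon _ (hShf n))
      have ib := cap_weight_int hkpm hkp0 hkp1 (hDint n)
      have h1 := hstepD n hn kp hkpm hkp0 hkp1
      have h2 : ∫ z in capShell e z0 q r R K n,
          (kp z * F z - kp z * F (capMap e q (3 / 2) (5 / 2) (capSg R K n) z)) ≤ Q n :=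
        le_trans (le_of_eq (integral_congr_ae (Filter.Eventually.of_forall fun z => by
          simp only [hF]; ring))) h1
      rw [integral_sub ia ib] at h2
      linarith
    have h2 := cap_partition he hR hr hK (cap_weight_int hkpm hkp0 hkp1 hBF)
    rw [← hq, ← hU] at h2
    have h3 := hmaxi κ' (1 / 2) hκ'm hκ'0 hκ'1 (by norm_num)
    have h4 := htopU kp hkpm hkp0 hkp1
    simp only [hF] at h2 hstep h4
    linarith
  have hlow : -(∫ z in B, F (capMap e q M 0 τ z)) + (∫ y in B, F y) / 2 ≤ U / 2 + (P0 + S) := by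
    obtain ⟨κ', hκ'm, hκ'0, hκ'1, hκ'e⟩ := cap_transfer he hR hRr (K := K) hBF
      (κ := fun _ => 1) measurable_const (fun _ => zero_le_one) (fun _ => le_rfl)
    simp only [one_mul, ← hq] at hκ'e
    have hstep : ∑ n ∈ Finset.Icc 1 K,
        -(∫ z in capShell e z0 q r R K n, F (capMap e q M 0 τ z)) ≤
        -(∫ y in B, κ' y * F y) + S := by
      rw [← hκ'e, hS, ← Finset.sum_neg_distrib, ← Finset.sum_add_distrib]
      refine Finset.sum_le_sum fun n hn => ?_
      have h2 : ∫ z in capShell e z0 q r R K n, (F (capMap e q (3 / 2) (5 / 2) (capSg R K n) z) -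
          F (capMap e q M 0 τ z)) ≤ Q n :=
        le_trans (le_of_eq (integral_congr_ae (Filter.Eventually.of_forall fun z => by
          simp [hF]))) (hstepT n hn)
      rw [integral_sub (hDint n) (hTint _ (hShf n))] at h2
      linarith
    have h2 := cap_partition he hR hr hK (hTint B hBf)
    rw [← hq] at h2
    have h4 : -(∫ z in capTop e z0 q r R, F (capMap e q M 0 τ z)) ≤ P0 := by
      rw [← integral_neg]
      exact le_trans (le_of_eq (integral_congr_ae (Filter.Eventually.of_forall fun z => by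
        simp [hF]))) htopT
    have h5 := hmaxi (fun y => 1 / 2 - κ' y) (1 / 2) (measurable_const.sub hκ'm)
      (fun y => by linarith [hκ'1 y]) (fun y => by linarith [hκ'0 y]) (by norm_num)
    simp only [sub_mul] at h5
    rw [integral_sub (hBF.const_mul _) (cap_weight_int hκ'm hκ'0
      (fun y => (hκ'1 y).trans (by norm_num)) hBF), integral_const_mul] at h5
    rw [Finset.sum_neg_distrib] at hstep
    linarith
  have hFB : ∫ y in B, F y = volume.real B * (avg g z0 r - c) := cap_avg_ball hg z0 hr c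
  have hFT : ∫ z in B, F (capMap e q M 0 τ z) =
      volume.real B * (avg g (q + (τ + M * r) • e) (M * r) - c) :=
    cap_avg_big hg he hd hr hM c
  have h1 := hmaxi (fun _ => 1) 1 measurable_const (fun _ => zero_le_one) (fun _ => le_rfl) le_rfl
  simp only [one_mul, hFB] at h1
  rw [hFB, hFT] at hlow
  constructor <;> linarith

theorem cap_key (hd : 1 ≤ d) : ∃ C L : ℝ, 1 ≤ C ∧ 1 ≤ L ∧
    ∀ (ε : ℝ), 0 < ε → ∀ (g : EE d → ℝ) (v : EE d → EE d), IsPot g v →
    ∀ (e : EE d), ‖e‖ = 1 → ∀ (J K : ℕ), 1 ≤ K → K + 3 ≤ J →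
    ∀ (p z0 : EE d) (r lam : ℝ), ‖z0 - p‖ ≤ d * rho ε J → rho ε J ≤ r → r ≤ 4 * rho ε J →
    lam < avg g z0 r →
    avg g (z0 - r • e + (rho ε J / 4 ^ K / 4 + 1000 * ((d : ℝ) + 1) * r) • e)
      (1000 * ((d : ℝ) + 1) * r) ≤ lam →
    |lam - avg g (p + (32 * ((d : ℝ) + 1) * rho ε J) • e) (rho ε J)| * rho ε J ^ d ≤
      C * ∑ n ∈ Finset.range (K + 1),
        loss ε v e (win e (z0 - r • e) (L * rho ε J / 2 ^ n) (L * rho ε J / 4 ^ n))
          (J - n - 3) (rho ε J) := by
  set M : ℝ := 1000 * ((d : ℝ) + 1) with hM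
  have hdR : (1 : ℝ) ≤ d := by exact_mod_cast hd
  have hM1 : 1000 ≤ M := by rw [hM]; linarith
  set A : ℝ := 400 * M ^ 2 with hA
  set P : ℝ := 20 * 2 ^ d * (1 + 4 ^ d) * A with hP
  set V1 : ℝ := volume.real (ball (0 : EE d) 1) with hV1
  have hV1pos : 0 < V1 := by
    rw [hV1, Measure.real]
    exact ENNReal.toReal_pos (measure_ball_pos volume _ one_pos).ne' measure_ball_lt_top.ne
  have hA0 : 0 ≤ A := by positivity
  have hP0 : 0 ≤ P := by positivity
  have hAP : 20 * A ≤ P := by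
    rw [hP]
    refine mul_le_mul_of_nonneg_right ?_ hA0
    rw [mul_assoc]
    refine le_mul_of_one_le_right (by norm_num) ?_
    exact one_le_mul_of_one_le_of_one_le (one_le_pow₀ (by norm_num))
      (le_add_of_nonneg_right (by positivity))
  refine ⟨6 * P / V1 + 1, 20 * M, le_add_of_nonneg_left (by positivity), by linarith, ?_⟩
  intro ε hε g v hp e he J K hK hKJ p z0 r lam hz0 hr1 hr2 hlam hbig
  have hRpos := rho_pos hε J
  set R := rho ε J with hR
  have hrpos : 0 < r := lt_of_lt_of_le hRpos hr1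
  set q := z0 - r • e with hq
  set c := avg g (p + (32 * ((d : ℝ) + 1) * R) • e) R with hc
  set Ln : ℕ → ℝ := fun n => loss ε v e (win e q (20 * M * R / 2 ^ n) (20 * M * R / 4 ^ n))
    (J - n - 3) R with hLn
  have hLn0 : ∀ n, 0 ≤ Ln n := fun n => loss_nonneg hε v he _ _ hRpos.le
  have hstep : ∀ n ∈ Finset.Icc 1 K, ∀ κ : EE d → ℝ, Measurable κ → (∀ z, 0 ≤ κ z) →
      (∀ z, κ z ≤ 1) →
      (∫ z in capShell e z0 q r R K n,
        κ z * (g z - g (capMap e q (3 / 2) (5 / 2) (capSg R K n) z)) ≤ 20 * (A * Ln n)) ∧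
      (∫ z in capShell e z0 q r R K n, (g (capMap e q (3 / 2) (5 / 2) (capSg R K n) z) -
        g (capMap e q M 0 (R / 4 ^ K / 4) z)) ≤ 20 * (A * Ln n)) := by
    intro n hn κ hκ hκ0 hκ1
    have hn' := Finset.mem_Icc.1 hn
    have h := shell_steps hε hp he (q := q) (cap_shellHyp hε hn'.1 hn'.2 hKJ hM1) hrpos hr2
      (measurableSet_capShell e z0 q r R K n)
      (fun z hz => ⟨(cap_mem_ball he hrpos).1 hz.1, hz.2.1, hz.2.2.le⟩) hκ hκ0 hκ1
    have e1 : 20 * M * (R / 2 ^ n) = 20 * M * R / 2 ^ n := by ring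
    have e2 : 20 * M * capT R n = 20 * M * R / 4 ^ n := by simp only [capT]; ring
    rw [← hR, e1, e2] at h
    exact h
  have hqp : |⟪q - p, e⟫| ≤ (d + 4) * R ∧ ‖q - p‖ ≤ (d + 4) * R := by
    have h2 : ‖q - p‖ ≤ (d + 4) * R := by
      have e1 : q - p = (z0 - p) - r • e := by rw [hq]; abel
      rw [e1]
      refine (norm_sub_le _ _).trans ?_
      rw [norm_smul, he, Real.norm_eq_abs, abs_of_pos hrpos]
      linarith
    exact ⟨(cap_abs_inner_le he _).trans h2, h2⟩
  have hqpa := abs_le.1 hqp.1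
  have hτR : R / 4 ^ K / 4 ≤ R := by
    have : R / 4 ^ K ≤ R := div_le_self hRpos.le (one_le_pow₀ (by norm_num))
    linarith
  have hres0 : rho ε (J - 0 - 3) = R / 64 := by
    have e1 : J = (J - 3) + 3 := by omega
    simp only [hR, rho, Nat.sub_zero]
    conv_rhs => rw [e1, pow_add]
    ring
  have etop : ⟪p + (32 * ((d : ℝ) + 1) * R) • e - q, e⟫ =
      32 * ((d : ℝ) + 1) * R - ⟪q - p, e⟫ := by
    rw [show p + (32 * ((d : ℝ) + 1) * R) • e - q = (32 * ((d : ℝ) + 1) * R) • e - (q - p) by abel,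
      inner_sub_left, real_inner_smul_left, real_inner_self_eq_norm_sq, he]
    ring
  have hdR' : R ≤ d * R := le_mul_of_one_le_left hRpos.le hdR
  have htop := fun κ hκ hκ0 hκ1 => top_steps hε hp he (q := q) (z0 := z0)
    (zc := p + (32 * ((d : ℝ) + 1) * R) • e) (R := R) (M := M) (τ := R / 4 ^ K / 4) (r := r)
    (i := J - 0 - 3) hRpos hr1 hr2 hM1 rfl (by positivity) hτR hres0
    (by rw [etop]; linarith) (by rw [etop, hM]; linarith)
    (by
      rw [show p + (32 * ((d : ℝ) + 1) * R) • e - q = (32 * ((d : ℝ) + 1) * R) • e - (q - p)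
        by abel]
      have := norm_sub_le ((32 * ((d : ℝ) + 1) * R) • e) (q - p)
      rw [norm_smul, he, Real.norm_eq_abs, abs_of_pos (by positivity)] at this
      rw [hM]
      linarith [hqp.2]) (κ := κ) hκ hκ0 hκ1
  have hW0 : win e q (20 * M * R) (20 * M * R) =
      win e q (20 * M * R / 2 ^ 0) (20 * M * R / 4 ^ 0) := by simp
  have hP' : ∀ x : ℝ, 20 * 2 ^ d * (1 + 4 ^ d) * (A * x) = P * x := fun x => by rw [hP]; ring
  obtain ⟨hup, hdown⟩ := cap_recursion hp.int hp.cont hd he (z0 := z0) hRpos hr1 hK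
    (by linarith : 0 < M) c (P * Ln 0) (fun n => 20 * (A * Ln n))
    (fun n hn κ hκ hκ0 hκ1 => (hstep n hn κ hκ hκ0 hκ1).1)
    (fun n hn => (hstep n hn (fun _ => 1) measurable_const (fun _ => zero_le_one)
      (fun _ => le_rfl)).2)
    (fun κ hκ hκ0 hκ1 => by
      have h := (htop κ hκ hκ0 hκ1).1
      rw [hP', hW0] at h
      exact h)
    (by
      have h := (htop (fun _ => 1) measurable_const (fun _ => zero_le_one) (fun _ => le_rfl)).2
      rw [hP', hW0] at h
      exact h)
  set X := P * Ln 0 + ∑ n ∈ Finset.Icc 1 K, 20 * (A * Ln n) with hX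
  set VB := volume.real (ball z0 r) with hVB
  have hVB0 : 0 ≤ VB := measureReal_nonneg
  have hX0 : 0 ≤ X := add_nonneg (mul_nonneg hP0 (hLn0 0))
    (Finset.sum_nonneg fun n _ => mul_nonneg (by norm_num) (mul_nonneg hA0 (hLn0 n)))
  have h5 := mul_le_mul_of_nonneg_left hbig hVB0
  have h6 := mul_le_mul_of_nonneg_left hlam.le hVB0
  have habs : |lam - c| * VB ≤ 6 * X := by
    rcases le_total c lam with h1 | h1
    · rw [abs_of_nonneg (sub_nonneg.2 h1)]
      linarith
    · rw [abs_of_nonpos (sub_nonpos.2 h1)]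
      linarith
  have hXle : X ≤ P * ∑ n ∈ Finset.range (K + 1), Ln n := by
    rw [hX, Finset.range_eq_Ico, Finset.sum_eq_sum_Ico_succ_bot (Nat.succ_pos K), mul_add,
      Finset.mul_sum]
    refine add_le_add le_rfl (le_of_le_of_eq
      (Finset.sum_le_sum (g := fun n => P * Ln n) fun n _ => ?_) ?_)
    · rw [← mul_assoc]
      exact mul_le_mul_of_nonneg_right hAP (hLn0 n)
    · refine Finset.sum_congr ?_ fun n _ => rfl
      ext n
      simp only [Finset.mem_Icc, Finset.mem_Ico]
      omega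
  have hsum0 : 0 ≤ ∑ n ∈ Finset.range (K + 1), Ln n := Finset.sum_nonneg fun n _ => hLn0 n
  have hVBR : V1 * R ^ d ≤ VB := by
    rw [hVB, hV1, Measure.real, Measure.real, Measure.addHaar_ball_of_pos _ _ hrpos,
      ENNReal.toReal_mul, ENNReal.toReal_ofReal (by positivity), finrank_euclideanSpace_fin,
      mul_comm]
    gcongr
  have hfinal : |lam - c| * R ^ d ≤ 6 * P / V1 * ∑ n ∈ Finset.range (K + 1), Ln n := by
    rw [div_mul_eq_mul_div, le_div_iff₀ hV1pos]
    calc |lam - c| * R ^ d * V1 = |lam - c| * (V1 * R ^ d) := by ring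
      _ ≤ |lam - c| * VB := mul_le_mul_of_nonneg_left hVBR (abs_nonneg _)
      _ ≤ 6 * X := habs
      _ ≤ 6 * (P * ∑ n ∈ Finset.range (K + 1), Ln n) := by linarith
      _ = _ := by ring
  exact hfinal.trans (mul_le_mul_of_nonneg_right (by linarith) hsum0)

/-- Points at height at least `R / 4 ^ K` lie in the lifted big ball. -/
theorem mem_bigBall {e : EE d} (he : ‖e‖ = 1) {z0 y : EE d} {r R : ℝ} {K : ℕ}
    (hy : y ∈ ball z0 r) (hR : 0 < R) (hRr : R ≤ r)
    (hh_ : R / 4 ^ K ≤ ⟪y - (z0 - r • e), e⟫) :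
    y ∈ ball (z0 - r • e + (R / 4 ^ K / 4 + 1000 * ((d : ℝ) + 1) * r) • e)
      (1000 * ((d : ℝ) + 1) * r) := by
  set q := z0 - r • e with hq
  set h := ⟪y - q, e⟫ with hh
  set M := 1000 * ((d : ℝ) + 1) with hM
  set t := R / 4 ^ K with ht
  have hr : 0 < r := lt_of_lt_of_le hR hRr
  have ht0 : 0 < t := by positivity
  have h1 := (cap_mem_ball he hr).1 hy
  rw [← hq] at h1
  have hM1 : 1000 ≤ M := by
    rw [hM]
    linarith [(Nat.cast_nonneg d : (0 : ℝ) ≤ d)]
  have e0 : q + (t / 4 + M * r) • e - (M * r) • e = q + (t / 4) • e := by module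
  rw [cap_mem_ball he (by positivity), e0]
  have e1 : y - (q + (t / 4) • e) = (y - q) - (t / 4) • e := by abel
  have e2 : ⟪y - q - (t / 4) • e, e⟫ = h - t / 4 := by
    rw [inner_sub_left, real_inner_smul_left, real_inner_self_eq_norm_sq, he, ← hh]
    ring
  have e3 : ⟪y - q, (t / 4) • e⟫ = t / 4 * h := by rw [real_inner_smul_right, ← hh]
  rw [e1, e2, norm_sub_sq_real, e3, norm_smul, he, Real.norm_eq_abs, mul_one, sq_abs]
  have htr : t ≤ r := le_trans (div_le_self hR.le (one_le_pow₀ (by norm_num))) hRr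
  have hrh : 0 ≤ r * (h - t / 4) := mul_nonneg hr.le (by linarith)
  nlinarith [mul_le_mul_of_nonneg_right hM1 hrh, mul_nonneg hr.le (sub_nonneg.2 hh_),
    mul_nonneg ht0.le (sub_nonneg.2 htr)]

/-- Points of low height are close to the bottom point. -/
theorem dist_bottom {e : EE d} (he : ‖e‖ = 1) {z0 y : EE d} {r R : ℝ} {K : ℕ}
    (hy : y ∈ ball z0 r) (hR : 0 < R) (hr : r ≤ 4 * R)
    (hh : ⟪y - (z0 - r • e), e⟫ ≤ 32 * (R / 4 ^ K)) :
    ‖y - (z0 - r • e)‖ ≤ 16 * (R / 2 ^ K) := by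
  have hrpos : 0 < r := pos_of_mem_ball hy
  have h1 := (cap_mem_ball he hrpos).1 hy
  have h2 := cap_height_pos hrpos h1
  refine (abs_le_of_sq_le_sq' ?_ (by positivity)).2
  have e2 : (16 * (R / 2 ^ K)) ^ 2 = 256 * (R * (R / 4 ^ K)) := by
    rw [mul_pow, div_pow, ← pow_mul, mul_comm K 2, pow_mul]
    norm_num
    ring
  rw [e2]
  nlinarith [mul_le_mul hr hh h2.le (by linarith)]

end Vale.Agent.P137
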