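import Vale.Agent.P137.Pair

/-!
Auxiliary steps for the key estimate at one ball: the affine maps based at the bottom point, one
shell, the top part, and the transfer of weights along the dilation.
-/

namespace Vale.Agent.P137

open MeasureTheory Metric Filter Topology Set
open scoped ENNReal RealInnerProductSpace

variable {d : ℕ}

/-- The bottom-based affine maps. -/
noncomputable def capMap (e q : EE d) (α β σ : ℝ) (z : EE d) : EE d :=
  q + α • (z - q) + (β * ⟪z - q, e⟫ + σ) • e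

theorem capMap_eq_aff (e q : EE d) (α β σ : ℝ) :
    capMap e q α β σ = aff e α β (q - α • q + (σ - β * ⟪q, e⟫) • e) := by
  funext z
  simp only [capMap, aff, inner_sub_left]
  module

theorem capMap_inner {e : EE d} (he : ‖e‖ = 1) (q : EE d) (α β σ : ℝ) (z : EE d) :
    ⟪capMap e q α β σ z - q, e⟫ = (α + β) * ⟪z - q, e⟫ + σ := by
  have : capMap e q α β σ z - q = α • (z - q) + (β * ⟪z - q, e⟫ + σ) • e := by
    simp only [capMap]; abel
  rw [this, inner_add_left, real_inner_smul_left, real_inner_smul_left,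
    real_inner_self_eq_norm_sq, he]
  ring

theorem cap_abs_inner_le {e : EE d} (he : ‖e‖ = 1) (x : EE d) : |⟪x, e⟫| ≤ ‖x‖ := by
  simpa [he] using abs_real_inner_le_norm x e

theorem capMap_norm_le {e : EE d} (he : ‖e‖ = 1) (q : EE d) {α β σ : ℝ} (hα : 0 ≤ α) (hβ : 0 ≤ β)
    (hσ : 0 ≤ σ) (z : EE d) :
    ‖capMap e q α β σ z - q‖ ≤ (α + β) * ‖z - q‖ + σ := by
  have : capMap e q α β σ z - q = α • (z - q) + (β * ⟪z - q, e⟫) • e + σ • e := by
    simp only [capMap]; module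
  rw [this]
  refine (norm_add₃_le).trans ?_
  rw [norm_smul, norm_smul, norm_smul, he, Real.norm_eq_abs, Real.norm_eq_abs, Real.norm_eq_abs,
    abs_of_nonneg hα, abs_of_nonneg hσ, abs_mul, abs_of_nonneg hβ]
  have h1 := mul_le_mul_of_nonneg_left (cap_abs_inner_le he (z - q)) hβ
  linarith

theorem capMap_inv {e : EE d} (he : ‖e‖ = 1) (q : EE d) {α β σ α' β' σ' : ℝ}
    (h1 : α' * α = 1) (h2 : (α' + β') * (α + β) = 1) (h3 : (α' + β') * σ + σ' = 0) (z : EE d) :
    capMap e q α' β' σ' (capMap e q α β σ z) = z := by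
  have e1 := capMap_inner he q α β σ z
  have e2 : capMap e q α β σ z - q = α • (z - q) + (β * ⟪z - q, e⟫ + σ) • e := by
    simp only [capMap]; abel
  calc capMap e q α' β' σ' (capMap e q α β σ z)
      = q + α' • (α • (z - q) + (β * ⟪z - q, e⟫ + σ) • e) +
          (β' * ((α + β) * ⟪z - q, e⟫ + σ) + σ') • e := by
        rw [capMap, e1, e2]
    _ = q + (α' * α) • (z - q) +
          ((α' + β') * (α + β) * ⟪z - q, e⟫ - α' * α * ⟪z - q, e⟫ +
            ((α' + β') * σ + σ')) • e := by module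
    _ = z := by rw [h1, h2, h3]; simp

theorem cap_mem_ball {e : EE d} (he : ‖e‖ = 1) {z0 x : EE d} {r : ℝ} (hr : 0 < r) :
    x ∈ ball z0 r ↔ ‖x - (z0 - r • e)‖ ^ 2 < 2 * r * ⟪x - (z0 - r • e), e⟫ := by
  rw [mem_ball, dist_eq_norm]
  have e1 : x - z0 = (x - (z0 - r • e)) - r • e := by abel
  rw [e1, ← sq_lt_sq₀ (norm_nonneg _) hr.le, norm_sub_sq_real, real_inner_smul_right, norm_smul,
    he, Real.norm_eq_abs, mul_one, sq_abs]
  constructor <;> intro h <;> linarith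

theorem cap_height_pos {e : EE d} {q : EE d} {r : ℝ} (hr : 0 < r) {x : EE d}
    (h : ‖x - q‖ ^ 2 < 2 * r * ⟪x - q, e⟫) : 0 < ⟪x - q, e⟫ := by
  nlinarith [sq_nonneg ‖x - q‖]

theorem loss_nonneg {ε : ℝ} (hε : 0 < ε) (v : EE d → EE d) {e : EE d} (he : ‖e‖ = 1)
    (W : Set (EE d)) (i : ℕ) {R : ℝ} (hR : 0 ≤ R) : 0 ≤ loss ε v e W i R := by
  unfold loss
  exact add_nonneg (mul_nonneg hR (integral_nonneg fun y => gdef_nonneg ε v he i y))
    (Finset.sum_nonneg fun l _ => mul_nonneg (rho_pos hε _).le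
      (integral_nonneg fun y => gdef_nonneg ε v he l y))

theorem loss_mul_le {ε : ℝ} (hε : 0 < ε) (v : EE d → EE d) {e : EE d} (he : ‖e‖ = 1)
    (W : Set (EE d)) (i : ℕ) {R k : ℝ} (hk : 1 ≤ k) :
    loss ε v e W i (k * R) ≤ k * loss ε v e W i R := by
  unfold loss
  have h2 : (0 : ℝ) ≤ ∑ l ∈ Finset.range i, rho ε (l + 1) * ∫ y in W, gdef ε v e l y :=
    Finset.sum_nonneg fun l _ => mul_nonneg (rho_pos hε _).le
      (integral_nonneg fun y => gdef_nonneg ε v he l y)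
  nlinarith

theorem measurableSet_win (e q : EE d) (a b : ℝ) : MeasurableSet (win e q a b) :=
  (measurableSet_le (f := fun y : EE d => ‖y - q‖) (by fun_prop) measurable_const).inter
    (measurableSet_le (f := fun y : EE d => |⟪y - q, e⟫|) (by fun_prop) measurable_const)

theorem cap_win_conv {e : EE d} (he : ‖e‖ = 1) {q : EE d} {a b u1 : ℝ} {x y u : EE d} {s : ℝ}
    (hs0 : 0 ≤ s) (hs1 : s ≤ 1) (hx1 : ‖x - q‖ ≤ a) (hx2 : |⟪x - q, e⟫| ≤ b)
    (hy1 : ‖y - q‖ ≤ a) (hy2 : |⟪y - q, e⟫| ≤ b) (hu : ‖u‖ ≤ u1) {a' b' : ℝ}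
    (ha : a + u1 ≤ a') (hb : b + u1 ≤ b') :
    (1 - s) • x + s • y + u ∈ win e q a' b' := by
  have e1 : (1 - s) • x + s • y + u - q = (1 - s) • (x - q) + s • (y - q) + u := by module
  constructor
  · rw [e1]
    refine (norm_add₃_le).trans ?_
    rw [norm_smul, norm_smul, Real.norm_eq_abs, Real.norm_eq_abs,
      abs_of_nonneg (by linarith : 0 ≤ 1 - s), abs_of_nonneg hs0]
    have := mul_le_mul_of_nonneg_left hx1 (by linarith : 0 ≤ 1 - s)
    have := mul_le_mul_of_nonneg_left hy1 hs0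
    linarith
  · rw [e1, inner_add_left, inner_add_left, real_inner_smul_left, real_inner_smul_left]
    refine (abs_add_three _ _ _).trans ?_
    rw [abs_mul, abs_mul, abs_of_nonneg (by linarith : 0 ≤ 1 - s), abs_of_nonneg hs0]
    have := mul_le_mul_of_nonneg_left hx2 (by linarith : 0 ≤ 1 - s)
    have := mul_le_mul_of_nonneg_left hy2 hs0
    have := cap_abs_inner_le he u
    linarith

/-- The geometric data of one shell: height scale `T`, lateral scale `X` with `X ^ 2 = R T`. -/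
structure ShellHyp (ε R M T X lo sg τ : ℝ) (i : ℕ) : Prop where
  Rpos : 0 < R
  Tpos : 0 < T
  TX : T ≤ X
  XR : X ^ 2 = R * T
  Mbig : 1000 ≤ M
  lo0 : 0 ≤ lo
  sg0 : 0 ≤ sg
  sgT : sg ≤ T / 8
  τ0 : 0 ≤ τ
  τT : τ ≤ T
  gapD : T / 8 ≤ 3 * lo + sg
  gapT : T / 8 ≤ (M - 4) * lo + τ - sg
  res : rho ε i = T / 64

theorem shell_steps {ε : ℝ} (hε : 0 < ε) {g : EE d → ℝ} {v : EE d → EE d} (hp : IsPot g v)
    {e : EE d} (he : ‖e‖ = 1) {q : EE d} {R M T X lo sg τ r : ℝ} {i : ℕ}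
    (H : ShellHyp ε R M T X lo sg τ i) (hr : 0 < r) (hr4 : r ≤ 4 * R)
    {S : Set (EE d)} (hS : MeasurableSet S)
    (hSz : ∀ z ∈ S, ‖z - q‖ ^ 2 < 2 * r * ⟪z - q, e⟫ ∧ lo ≤ ⟪z - q, e⟫ ∧ ⟪z - q, e⟫ ≤ T)
    {κ : EE d → ℝ} (hκ : Measurable κ) (hκ0 : ∀ z, 0 ≤ κ z) (hκ1 : ∀ z, κ z ≤ 1) :
    (∫ z in S, κ z * (g z - g (capMap e q (3 / 2) (5 / 2) sg z)) ≤
      20 * (400 * M ^ 2 * loss ε v e (win e q (20 * M * X) (20 * M * T)) i R)) ∧
    (∫ z in S, (g (capMap e q (3 / 2) (5 / 2) sg z) - g (capMap e q M 0 τ z)) ≤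
      20 * (400 * M ^ 2 * loss ε v e (win e q (20 * M * X) (20 * M * T)) i R)) := by
  obtain ⟨hR, hT, hTX, hXR, hM, hlo, hsg, hsgT, hτ, hτT, hgD, hgT, hres⟩ := H
  have hA1 : 1 ≤ 400 * M ^ 2 := by nlinarith
  have hX : 0 < X := lt_of_lt_of_le hT hTX
  have hTR : T ≤ R := by nlinarith
  have hnear : ∀ z ∈ S, ‖z - q‖ ≤ 3 * X := fun z hz => by
    obtain ⟨h1, -, h3⟩ := hSz z hz
    refine (abs_le_of_sq_le_sq' ?_ (by positivity)).2
    nlinarith [cap_height_pos hr h1]
  have hpts : ∀ z ∈ S,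
      (‖z - q‖ ≤ 19 * M * X ∧ |⟪z - q, e⟫| ≤ 19 * M * T) ∧
      (‖capMap e q (3 / 2) (5 / 2) sg z - q‖ ≤ 19 * M * X ∧
        |⟪capMap e q (3 / 2) (5 / 2) sg z - q, e⟫| ≤ 19 * M * T) ∧
      (‖capMap e q M 0 τ z - q‖ ≤ 19 * M * X ∧
        |⟪capMap e q M 0 τ z - q, e⟫| ≤ 19 * M * T) := by
    intro z hz
    obtain ⟨h1, -, h3⟩ := hSz z hz
    have h2 := cap_height_pos hr h1
    have h4 := hnear z hz
    refine ⟨⟨?_, ?_⟩, ⟨?_, ?_⟩, ⟨?_, ?_⟩⟩
    · nlinarith
    · rw [abs_of_pos h2]; nlinarith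
    · refine (capMap_norm_le he q (by norm_num) (by norm_num) hsg z).trans ?_
      nlinarith
    · rw [capMap_inner he, abs_of_nonneg (by nlinarith)]; nlinarith
    · refine (capMap_norm_le he q (by linarith) le_rfl hτ z).trans ?_
      nlinarith
    · rw [capMap_inner he, abs_of_nonneg (by nlinarith)]; nlinarith
  have hid : ∀ z, z = aff e 1 0 0 z := fun z => by simp [aff]
  have hbd : ∀ u : EE d, ‖u‖ ≤ 6 * rho ε i → ‖u‖ ≤ T := fun u hu => by
    rw [hres] at hu; linarith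
  have ha : rho ε i ≤ 400 * M ^ 2 * R := by
    rw [hres]
    linarith [le_mul_of_one_le_left hR.le hA1]
  have hk1 : 3200 * R ≤ 400 * M ^ 2 * R := by
    refine mul_le_mul_of_nonneg_right ?_ hR.le
    nlinarith only [hM]
  have hk2 : 128 * M ^ 2 * R ≤ 400 * M ^ 2 * R := by
    refine mul_le_mul_of_nonneg_right ?_ hR.le
    nlinarith only [sq_nonneg M]
  have hMX : 1000 * X ≤ M * X := mul_le_mul_of_nonneg_right hM hX.le
  have hMT : 1000 * T ≤ M * T := mul_le_mul_of_nonneg_right hM hT.le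
  have hlast := mul_le_mul_of_nonneg_left
    (loss_mul_le hε v he (win e q (20 * M * X) (20 * M * T)) i (R := R) hA1)
    (by norm_num : (0 : ℝ) ≤ 20)
  constructor
  · have key := pair_affine hε hp he (a := 400 * M ^ 2 * R) ha hS
      (measurableSet_win e q (20 * M * X) (20 * M * T)) hκ hκ0 hκ1
      (α0 := 1) (β0 := 0) (α1 := 3 / 2) (β1 := 5 / 2) le_rfl le_rfl (by norm_num) (by norm_num)
      0 (q - (3 / 2 : ℝ) • q + (sg - 5 / 2 * ⟪q, e⟫) • e) ?_ ?_
    · simp only [← hid, ← capMap_eq_aff] at key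
      exact key.trans hlast
    · intro z hz
      rw [← capMap_eq_aff, ← hid]
      obtain ⟨h1, h2, h3⟩ := hSz z hz
      have hw : T / 8 ≤ ⟪capMap e q (3 / 2) (5 / 2) sg z - z, e⟫ := by
        rw [← sub_sub_sub_cancel_right _ z q, inner_sub_left, capMap_inner he]
        linarith
      refine ⟨by rw [hres]; linarith, ?_⟩
      have h5 : ‖capMap e q (3 / 2) (5 / 2) sg z - z‖ ≤ 20 * X := by
        rw [← sub_sub_sub_cancel_right _ z q]
        refine (norm_sub_le _ _).trans ?_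
        have := capMap_norm_le he q (by norm_num : (0 : ℝ) ≤ 3 / 2)
          (by norm_num : (0 : ℝ) ≤ 5 / 2) hsg z
        linarith [hnear z hz]
      refine (pow_le_pow_left₀ (norm_nonneg _) h5 2).trans ?_
      rw [mul_pow, hXR]
      calc (20 : ℝ) ^ 2 * (R * T) = 3200 * R * (T / 8) := by ring
        _ ≤ 400 * M ^ 2 * R * ⟪capMap e q (3 / 2) (5 / 2) sg z - z, e⟫ :=
          mul_le_mul hk1 hw (by linarith) (by positivity)
    · intro z hz s hs0 hs1 u hu
      rw [← capMap_eq_aff, ← hid]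
      obtain ⟨hz1, hz2, -⟩ := hpts z hz
      exact cap_win_conv he hs0 hs1 hz1.1 hz1.2 hz2.1 hz2.2 (hbd u hu) (by linarith)
        (by linarith)
  · have key := pair_affine hε hp he (a := 400 * M ^ 2 * R) ha hS
      (measurableSet_win e q (20 * M * X) (20 * M * T))
      (κ := fun _ => 1) measurable_const (fun _ => zero_le_one) (fun _ => le_rfl)
      (α0 := 3 / 2) (β0 := 5 / 2) (α1 := M) (β1 := 0) (by norm_num) (by norm_num)
      (by linarith) le_rfl
      (q - (3 / 2 : ℝ) • q + (sg - 5 / 2 * ⟪q, e⟫) • e)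
      (q - M • q + (τ - 0 * ⟪q, e⟫) • e) ?_ ?_
    · simp only [← capMap_eq_aff, one_mul] at key
      exact key.trans hlast
    · intro z hz
      rw [← capMap_eq_aff, ← capMap_eq_aff]
      obtain ⟨h1, h2, h3⟩ := hSz z hz
      have hw : T / 8 ≤ ⟪capMap e q M 0 τ z - capMap e q (3 / 2) (5 / 2) sg z, e⟫ := by
        rw [← sub_sub_sub_cancel_right _ _ q, inner_sub_left, capMap_inner he, capMap_inner he]
        linarith [mul_le_mul_of_nonneg_left h2 (by linarith : 0 ≤ M - 4)]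
      refine ⟨by rw [hres]; linarith, ?_⟩
      have h5 : ‖capMap e q M 0 τ z - capMap e q (3 / 2) (5 / 2) sg z‖ ≤ 4 * M * X := by
        rw [← sub_sub_sub_cancel_right _ _ q]
        refine (norm_sub_le _ _).trans ?_
        have := capMap_norm_le he q (by linarith : 0 ≤ M) le_rfl hτ z
        have := capMap_norm_le he q (by norm_num : (0 : ℝ) ≤ 3 / 2)
          (by norm_num : (0 : ℝ) ≤ 5 / 2) hsg z
        linarith [hnear z hz, mul_le_mul_of_nonneg_left (hnear z hz) (by linarith : 0 ≤ M)]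
      refine (pow_le_pow_left₀ (norm_nonneg _) h5 2).trans ?_
      rw [mul_pow, hXR]
      calc (4 * M) ^ 2 * (R * T) = 128 * M ^ 2 * R * (T / 8) := by ring
        _ ≤ 400 * M ^ 2 * R * ⟪capMap e q M 0 τ z - capMap e q (3 / 2) (5 / 2) sg z, e⟫ :=
          mul_le_mul hk2 hw (by linarith) (by positivity)
    · intro z hz s hs0 hs1 u hu
      rw [← capMap_eq_aff, ← capMap_eq_aff]
      obtain ⟨-, hz2, hz3⟩ := hpts z hz
      exact cap_win_conv he hs0 hs1 hz2.1 hz2.2 hz3.1 hz3.2 (hbd u hu) (by linarith)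
        (by linarith)

theorem top_steps {ε : ℝ} (hε : 0 < ε) {g : EE d → ℝ} {v : EE d → EE d} (hp : IsPot g v)
    {e : EE d} (he : ‖e‖ = 1) {q z0 zc : EE d} {R M τ r : ℝ} {i : ℕ}
    (hR : 0 < R) (hr : R ≤ r) (hr4 : r ≤ 4 * R) (hM : 1000 ≤ M) (hq : q = z0 - r • e)
    (hτ : 0 ≤ τ) (hτR : τ ≤ R) (hres : rho ε i = R / 64)
    (hc1 : 9 * R ≤ ⟪zc - q, e⟫ - R) (hc2 : ⟪zc - q, e⟫ + 3 * R ≤ M * R / 4)
    (hc3 : ‖zc - q‖ + R ≤ M * R)
    {κ : EE d → ℝ} (hκ : Measurable κ) (hκ0 : ∀ z, 0 ≤ κ z) (hκ1 : ∀ z, κ z ≤ 1) :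
    (∫ z in {z | z ∈ ball z0 r ∧ R / 4 ≤ ⟪z - q, e⟫}, κ z * (g z - avg g zc R) ≤
      20 * 2 ^ d * (1 + 4 ^ d) *
        (400 * M ^ 2 * loss ε v e (win e q (20 * M * R) (20 * M * R)) i R)) ∧
    (∫ z in {z | z ∈ ball z0 r ∧ R / 4 ≤ ⟪z - q, e⟫}, (avg g zc R - g (capMap e q M 0 τ z)) ≤
      20 * 2 ^ d * (1 + 4 ^ d) *
        (400 * M ^ 2 * loss ε v e (win e q (20 * M * R) (20 * M * R)) i R)) := by
  subst hq
  set q := z0 - r • e with hq
  set S : Set (EE d) := {z | z ∈ ball z0 r ∧ R / 4 ≤ ⟪z - q, e⟫} with hSdef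
  set W := win e q (20 * M * R) (20 * M * R) with hW
  have hS : MeasurableSet S :=
    measurableSet_ball.inter (measurableSet_le (f := fun _ : EE d => R / 4) (g := fun z => ⟪z - q, e⟫)
      measurable_const (by fun_prop))
  have hSf : volume S < ⊤ :=
    lt_of_le_of_lt (measure_mono fun z hz => hz.1) measure_ball_lt_top
  have hA1 : 1 ≤ 400 * M ^ 2 := by nlinarith
  have ha : rho ε i ≤ 400 * M ^ 2 * R := by rw [hres]; nlinarith
  have hrpos : 0 < r := lt_of_lt_of_le hR hr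
  have hpts : ∀ z ∈ S, ⟪z - q, e⟫ ≤ 8 * R ∧ ‖z - q‖ ≤ 8 * R := fun z hz => by
    have h0 := (cap_mem_ball he hrpos).1 hz.1
    rw [← hq] at h0
    have h1 := (le_abs_self _).trans (cap_abs_inner_le he (z - q))
    have h2 : ‖z - q‖ ≤ 8 * R := by nlinarith [norm_nonneg (z - q)]
    exact ⟨h1.trans h2, h2⟩
  have hball : ∀ x ∈ ball zc R, ‖x - q‖ ≤ 19 * M * R ∧ 9 * R ≤ ⟪x - q, e⟫ ∧
      ⟪x - q, e⟫ + 2 * R ≤ M * R / 4 := fun x hx => by
    rw [mem_ball, dist_eq_norm] at hx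
    have e1 : x - q = (x - zc) + (zc - q) := by abel
    have h1 := abs_le.1 ((cap_abs_inner_le he (x - zc)).trans hx.le)
    rw [e1, inner_add_left]
    refine ⟨(norm_add_le _ _).trans (by nlinarith), by linarith, by linarith⟩
  have hwin : ∀ x y u : EE d, ∀ s : ℝ, 0 ≤ s → s ≤ 1 → ‖x - q‖ ≤ 19 * M * R →
      ‖y - q‖ ≤ 19 * M * R → ‖u‖ ≤ 6 * rho ε i → (1 - s) • x + s • y + u ∈ W := by
    intro x y u s hs0 hs1 hx hy hu
    exact cap_win_conv he hs0 hs1 hx ((cap_abs_inner_le he _).trans hx) hy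
      ((cap_abs_inner_le he _).trans hy) (u1 := R) (by rw [hres] at hu; linarith)
      (by nlinarith) (by nlinarith)
  have hratio : volume.real S / volume.real (ball zc R) ≤ 4 ^ d := by
    rw [div_le_iff₀ (by
      rw [Measure.real]
      exact ENNReal.toReal_pos (measure_ball_pos volume _ hR).ne' measure_ball_lt_top.ne)]
    refine (measureReal_mono (fun z hz => ball_subset_ball hr4 hz.1)
      measure_ball_lt_top.ne).trans (le_of_eq ?_)
    rw [Measure.real, Measure.real, Measure.addHaar_ball_of_pos _ _ (show 0 < 4 * R by linarith),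
      Measure.addHaar_ball_of_pos _ _ hR, ENNReal.toReal_mul, ENNReal.toReal_mul,
      ENNReal.toReal_ofReal (by positivity), ENNReal.toReal_ofReal (by positivity),
      finrank_euclideanSpace_fin, mul_pow]
    ring
  have hr0 : 0 ≤ volume.real S / volume.real (ball zc R) :=
    div_nonneg measureReal_nonneg measureReal_nonneg
  have hlast : 20 * 2 ^ d * (1 + volume.real S / volume.real (ball zc R)) *
      loss ε v e W i (400 * M ^ 2 * R) ≤
      20 * 2 ^ d * (1 + 4 ^ d) * (400 * M ^ 2 * loss ε v e W i R) :=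
    mul_le_mul (mul_le_mul_of_nonneg_left (by linarith) (by positivity))
      (loss_mul_le hε v he W i hA1) (loss_nonneg hε v he W i (by positivity)) (by positivity)
  constructor
  · have hid : ∀ z, z = aff e 1 0 0 z := fun z => by simp [aff]
    have key := pair_avg hε hp he (a := 400 * M ^ 2 * R) ha hS hSf
      (measurableSet_win e q (20 * M * R) (20 * M * R)) hκ hκ0 hκ1
      (α := 1) (β := 0) le_rfl le_rfl 0 zc hR ?_ ?_
    · simp only [← hid] at key
      exact key.trans hlast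
    · intro z hz u hu
      rw [← hid, hres]
      obtain ⟨hu1, hu2, -⟩ := hball u hu
      obtain ⟨hz1, hz2⟩ := hpts z hz
      have hw : R ≤ ⟪u - z, e⟫ := by
        rw [← sub_sub_sub_cancel_right u z q, inner_sub_left]; linarith
      refine ⟨by linarith, ?_⟩
      have h8 : ‖u - z‖ ≤ 20 * M * R := by
        rw [← sub_sub_sub_cancel_right u z q]
        exact (norm_sub_le _ _).trans (by nlinarith)
      refine (pow_le_pow_left₀ (norm_nonneg _) h8 2).trans ?_
      calc (20 * M * R) ^ 2 = 400 * M ^ 2 * R * R := by ring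
        _ ≤ _ := mul_le_mul_of_nonneg_left hw (by positivity)
    · intro z hz x hx s hs0 hs1 u hu
      rw [← hid]
      exact hwin _ _ u s hs0 hs1 (by nlinarith [(hpts z hz).2]) (hball x hx).1 hu
  · have key := avg_pair hε hp he (a := 400 * M ^ 2 * R) ha hS hSf
      (measurableSet_win e q (20 * M * R) (20 * M * R))
      (κ := fun _ => 1) measurable_const (fun _ => zero_le_one) (fun _ => le_rfl)
      (α := M) (β := 0) (by linarith) le_rfl (q - M • q + (τ - 0 * ⟪q, e⟫) • e) zc hR ?_ ?_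
    · simp only [← capMap_eq_aff, one_mul] at key
      exact key.trans hlast
    · intro z hz u hu
      rw [← capMap_eq_aff, hres]
      obtain ⟨hu1, -, hu3⟩ := hball u hu
      obtain ⟨hz1, hz2⟩ := hpts z hz
      have hw : 2 * R ≤ ⟪capMap e q M 0 τ z - u, e⟫ := by
        rw [← sub_sub_sub_cancel_right _ u q, inner_sub_left, capMap_inner he, add_zero]
        nlinarith [mul_le_mul_of_nonneg_left hz.2 (by linarith : 0 ≤ M)]
      refine ⟨by linarith, ?_⟩
      have h8 : ‖capMap e q M 0 τ z - u‖ ≤ 28 * M * R := by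
        rw [← sub_sub_sub_cancel_right _ u q]
        refine (norm_sub_le _ _).trans ?_
        have := capMap_norm_le he q (by linarith : 0 ≤ M) le_rfl hτ z
        nlinarith
      refine (pow_le_pow_left₀ (norm_nonneg _) h8 2).trans ?_
      calc (28 * M * R) ^ 2 ≤ 400 * M ^ 2 * R * (2 * R) := by nlinarith [sq_nonneg (M * R)]
        _ ≤ _ := mul_le_mul_of_nonneg_left hw (by positivity)
    · intro z hz x hx s hs0 hs1 u hu
      rw [← capMap_eq_aff]
      refine hwin _ _ u s hs0 hs1 (hball x hx).1 ?_ hu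
      have := capMap_norm_le he q (by linarith : 0 ≤ M) le_rfl hτ z
      nlinarith [(hpts z hz).2]

end Vale.Agent.P137
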