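import Vale.Agent.P137.CapAux

/-!
The shells of a ball seen from its bottom point, their partition, and the transfer of weights
along the dilation.
-/

namespace Vale.Agent.P137

open MeasureTheory Metric Filter Topology Set
open scoped ENNReal RealInnerProductSpace

variable {d : ℕ}

/-- Height thresholds. -/
noncomputable def capT (R : ℝ) (n : ℕ) : ℝ := R / 4 ^ n

/-- Lower edge of a shell. -/
noncomputable def capLo (R : ℝ) (K n : ℕ) : ℝ := if n < K then capT R (n + 1) else 0

/-- The lift on a shell. -/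
noncomputable def capSg (R : ℝ) (K n : ℕ) : ℝ := if n < K then 0 else R / 4 ^ K / 4 / 2

/-- The shells. -/
def capShell (e z0 q : EE d) (r R : ℝ) (K n : ℕ) : Set (EE d) :=
  {z | z ∈ ball z0 r ∧ capLo R K n ≤ ⟪z - q, e⟫ ∧ ⟪z - q, e⟫ < capT R n}

/-- The top part. -/
def capTop (e z0 q : EE d) (r R : ℝ) : Set (EE d) :=
  {z | z ∈ ball z0 r ∧ R / 4 ≤ ⟪z - q, e⟫}

theorem capT_succ (R : ℝ) (n : ℕ) : capT R (n + 1) = capT R n / 4 := by
  simp only [capT, pow_succ]; ring

theorem capT_anti {R : ℝ} (hR : 0 ≤ R) {a b : ℕ} (hab : a ≤ b) : capT R b ≤ capT R a :=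
  div_le_div_of_nonneg_left hR (by positivity) (pow_le_pow_right₀ (by norm_num) hab)

theorem capSg_le {R : ℝ} (hR : 0 ≤ R) {K n : ℕ} (hn : n ≤ K) :
    0 ≤ capSg R K n ∧ capSg R K n ≤ capT R n / 8 := by
  unfold capSg
  split_ifs with h
  · exact ⟨le_rfl, div_nonneg (div_nonneg hR (by positivity)) (by norm_num)⟩
  · have : n = K := le_antisymm hn (not_lt.1 h)
    subst this
    refine ⟨by positivity, le_of_eq ?_⟩
    simp only [capT]; ring

theorem capLo_nonneg {R : ℝ} (hR : 0 ≤ R) (K n : ℕ) : 0 ≤ capLo R K n := by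
  unfold capLo capT
  split_ifs <;> positivity

theorem measurableSet_capShell (e z0 q : EE d) (r R : ℝ) (K n : ℕ) :
    MeasurableSet (capShell e z0 q r R K n) :=
  measurableSet_ball.inter
    ((measurableSet_le (f := fun _ : EE d => capLo R K n) (g := fun z => ⟪z - q, e⟫)
      measurable_const (by fun_prop)).inter
    (measurableSet_lt (f := fun z : EE d => ⟪z - q, e⟫) (g := fun _ => capT R n) (by fun_prop)
      measurable_const))

theorem measurableSet_capTop (e z0 q : EE d) (r R : ℝ) : MeasurableSet (capTop e z0 q r R) :=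
  measurableSet_ball.inter
    (measurableSet_le (f := fun _ : EE d => R / 4) (g := fun z => ⟪z - q, e⟫)
      measurable_const (by fun_prop))

theorem cap_partition {e z0 : EE d} (he : ‖e‖ = 1) {r R : ℝ} (hR : 0 < R) (hr : 0 < r) {K : ℕ}
    (hK : 1 ≤ K) {G : EE d → ℝ} (hG : IntegrableOn G (ball z0 r)) :
    ∫ z in ball z0 r, G z = (∫ z in capTop e z0 (z0 - r • e) r R, G z) +
      ∑ n ∈ Finset.Icc 1 K, ∫ z in capShell e z0 (z0 - r • e) r R K n, G z := by
  set q := z0 - r • e with hq
  have hT1 : capT R 1 = R / 4 := by simp [capT]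
  have hdisj : ∀ a b, a < b → b ≤ K →
      Disjoint (capShell e z0 q r R K a) (capShell e z0 q r R K b) := by
    intro a b hab hb
    rw [Set.disjoint_left]
    intro z hza hzb
    have h1 := hza.2.1
    simp only [capLo, if_pos (lt_of_lt_of_le hab hb)] at h1
    linarith [hzb.2.2, capT_anti hR.le (show a + 1 ≤ b by omega)]
  have hun : ball z0 r = capTop e z0 q r R ∪ ⋃ n ∈ Finset.Icc 1 K, capShell e z0 q r R K n := by
    ext z
    simp only [Set.mem_union, Set.mem_iUnion]
    constructor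
    · intro hz
      rcases le_or_gt (R / 4) ⟪z - q, e⟫ with h1 | h1
      · exact Or.inl ⟨hz, h1⟩
      · right
        set P : ℕ → Prop := fun n => ⟪z - q, e⟫ < capT R n with hP
        have hP1 : P 1 := by simp only [hP, hT1]; exact h1
        classical
        set n := Nat.findGreatest P K with hn
        have hn1 : 1 ≤ n := Nat.le_findGreatest hK hP1
        have hnK : n ≤ K := Nat.findGreatest_le K
        have hspec : P n := Nat.findGreatest_spec (P := P) hK hP1
        refine ⟨n, Finset.mem_Icc.2 ⟨hn1, hnK⟩, hz, ?_, hspec⟩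
        simp only [capLo]
        split_ifs with hlt
        · exact not_lt.1 (Nat.findGreatest_is_greatest (P := P) (Nat.lt_succ_self n) hlt)
        · exact (cap_height_pos hr ((cap_mem_ball he hr).1 hz)).le
    · rintro (hz | ⟨n, hn, hz⟩) <;> exact hz.1
  have hUm : MeasurableSet (⋃ n ∈ Finset.Icc 1 K, capShell e z0 q r R K n) :=
    Finset.measurableSet_biUnion _ fun n _ => measurableSet_capShell e z0 q r R K n
  have hsubU : (⋃ n ∈ Finset.Icc 1 K, capShell e z0 q r R K n) ⊆ ball z0 r :=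
    Set.iUnion₂_subset fun n _ z hz => hz.1
  conv_lhs => rw [hun]
  rw [setIntegral_union ?_ hUm (hG.mono_set fun z hz => hz.1) (hG.mono_set hsubU),
    integral_biUnion_finset _ (fun n _ => measurableSet_capShell e z0 q r R K n) ?_
      fun n _ => hG.mono_set fun z hz => hz.1]
  · intro a ha b hb hab
    rcases lt_or_gt_of_ne hab with h1 | h1
    · exact hdisj a b h1 (Finset.mem_Icc.1 hb).2
    · exact (hdisj b a h1 (Finset.mem_Icc.1 ha).2).symm
  · rw [Set.disjoint_left]
    intro z hzT hz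
    simp only [Set.mem_iUnion] at hz
    obtain ⟨n, hn, hz⟩ := hz
    linarith [hz.2.2, hzT.2, capT_anti hR.le (Finset.mem_Icc.1 hn).1]

theorem dil_mem_ball {e z0 : EE d} (he : ‖e‖ = 1) {r R : ℝ} (hR : 0 < R) (hRr : R ≤ r) {K n : ℕ}
    (hn1 : 1 ≤ n) (hnK : n ≤ K) {z : EE d}
    (hz : z ∈ capShell e z0 (z0 - r • e) r R K n) :
    capMap e (z0 - r • e) (3 / 2) (5 / 2) (capSg R K n) z ∈ ball z0 r := by
  have hr : 0 < r := lt_of_lt_of_le hR hRr
  set q := z0 - r • e with hq
  set σ := capSg R K n with hσ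
  have h1 := (cap_mem_ball he hr).1 hz.1
  rw [← hq] at h1
  have h2 := cap_height_pos hr h1
  rw [cap_mem_ball he hr, ← hq, capMap_inner he]
  have hd2 : ‖capMap e q (3 / 2) (5 / 2) σ z - q‖ ^ 2 = 9 / 4 * ‖z - q‖ ^ 2
      + 2 * (3 / 2) * (5 / 2 * ⟪z - q, e⟫ + σ) * ⟪z - q, e⟫
      + (5 / 2 * ⟪z - q, e⟫ + σ) ^ 2 := by
    have : capMap e q (3 / 2) (5 / 2) σ z - q
        = (3 / 2 : ℝ) • (z - q) + (5 / 2 * ⟪z - q, e⟫ + σ) • e := by
      simp only [capMap]; abel
    rw [this, norm_add_sq_real, real_inner_smul_left, real_inner_smul_right, norm_smul,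
      norm_smul, he, Real.norm_eq_abs, Real.norm_eq_abs, mul_one, mul_pow, sq_abs, sq_abs]
    ring
  rw [hd2]
  have hT1 : capT R 1 = R / 4 := by simp [capT]
  have h3 : ⟪z - q, e⟫ ≤ r / 4 := by linarith [hz.2.2, capT_anti hR.le hn1]
  obtain ⟨h4, h5⟩ := capSg_le hR.le hnK
  rw [← hσ] at h4 h5
  have h6 : σ ≤ r / 32 := by linarith [capT_anti hR.le hn1]
  nlinarith [mul_nonneg h2.le (sub_nonneg.2 h3), mul_nonneg h4 (sub_nonneg.2 h6),
    mul_nonneg h4 (sub_nonneg.2 h3)]

theorem cap_transfer {e z0 : EE d} (he : ‖e‖ = 1) {r R : ℝ} (hR : 0 < R) (hRr : R ≤ r)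
    {K : ℕ} {F : EE d → ℝ} (hF : IntegrableOn F (ball z0 r))
    {κ : EE d → ℝ} (hκ : Measurable κ) (hκ0 : ∀ z, 0 ≤ κ z) (hκ1 : ∀ z, κ z ≤ 1) :
    ∃ κ' : EE d → ℝ, Measurable κ' ∧ (∀ y, 0 ≤ κ' y) ∧ (∀ y, κ' y ≤ 1 / 2) ∧
      ∑ n ∈ Finset.Icc 1 K, ∫ z in capShell e z0 (z0 - r • e) r R K n,
        κ z * F (capMap e (z0 - r • e) (3 / 2) (5 / 2) (capSg R K n) z) =
      ∫ y in ball z0 r, κ' y * F y := by
  set q := z0 - r • e with hq
  set θ : ℝ := ((3 / 2 : ℝ) ^ (d - 1) * (3 / 2 + 5 / 2))⁻¹ with hθ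
  have hθ4 : θ ≤ 1 / 4 := by
    rw [hθ, one_div]
    apply inv_anti₀ (by norm_num)
    nlinarith [one_le_pow₀ (M₀ := ℝ) (by norm_num : (1 : ℝ) ≤ 3 / 2) (n := d - 1)]
  have hθ0 : 0 ≤ θ := by positivity
  set Dm : ℕ → EE d → EE d := fun n => capMap e q (3 / 2) (5 / 2) (capSg R K n) with hDm
  set Di : ℕ → EE d → EE d :=
    fun n => capMap e q (2 / 3) (-(5 / 12)) (-(capSg R K n / 4)) with hDi
  have DiDm : ∀ n z, Di n (Dm n z) = z := fun n z =>
    capMap_inv he q (by norm_num) (by norm_num) (by ring) z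
  have DmDi : ∀ n z, Dm n (Di n z) = z := fun n z =>
    capMap_inv he q (by norm_num) (by norm_num) (by ring) z
  set Sh : ℕ → Set (EE d) := capShell e z0 q r R K with hSh
  have hShm : ∀ n, MeasurableSet (Sh n) := measurableSet_capShell e z0 q r R K
  set w : ℕ → EE d → ℝ := fun n y => θ * (Sh n).indicator κ (Di n y) with hw
  have hDim : ∀ n, Measurable (Di n) := fun n => by simp only [hDi]; unfold capMap; fun_prop
  have hwm : ∀ n, Measurable (w n) := fun n =>
    measurable_const.mul ((hκ.indicator (hShm n)).comp (hDim n))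
  have hw0 : ∀ n y, 0 ≤ w n y := fun n y =>
    mul_nonneg hθ0 (Set.indicator_nonneg (fun z _ => hκ0 z) _)
  have hwθ : ∀ n y, w n y ≤ 1 / 4 := fun n y => by
    refine le_trans (mul_le_of_le_one_right hθ0 ?_) hθ4
    exact Set.indicator_le' (fun z _ => hκ1 z) (fun z _ => zero_le_one) _
  have hval : ∀ n y, w n y ≠ 0 → Di n y ∈ Sh n := fun n y hne => by
    by_contra hcon
    exact hne (by simp [hw, Set.indicator_of_notMem hcon])
  refine ⟨fun y => ∑ n ∈ Finset.Icc 1 K, w n y, Finset.measurable_sum _ fun n _ => hwm n,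
    fun y => Finset.sum_nonneg fun n _ => hw0 n y, fun y => ?_, ?_⟩
  · have hsplit := Finset.sum_filter_add_sum_filter_not (Finset.Icc 1 K) (fun n => n < K)
      (fun n => w n y)
    show (∑ n ∈ Finset.Icc 1 K, w n y) ≤ 1 / 2
    rw [← hsplit]
    have h2 : ∑ n ∈ (Finset.Icc 1 K).filter (fun n => ¬n < K), w n y ≤ 1 / 4 := by
      refine le_trans (Finset.sum_le_sum_of_subset_of_nonneg (t := {K}) ?_ fun n _ _ => hw0 n y) ?_
      · intro n hn
        simp only [Finset.mem_filter, Finset.mem_Icc] at hn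
        simp only [Finset.mem_singleton]
        omega
      · rw [Finset.sum_singleton]; exact hwθ K y
    have h1 : ∑ n ∈ (Finset.Icc 1 K).filter (fun n => n < K), w n y ≤ 1 / 4 := by
      by_cases hex : ∃ n ∈ (Finset.Icc 1 K).filter (fun n => n < K), w n y ≠ 0
      · obtain ⟨a, ha, hwa⟩ := hex
        rw [Finset.sum_eq_single_of_mem a ha fun b hb hba => ?_]
        · exact hwθ a y
        by_contra hwb
        simp only [Finset.mem_filter, Finset.mem_Icc] at ha hb
        have key : ∀ n, n < K → Di n y ∈ Sh n →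
            capT R (n + 1) ≤ ⟪y - q, e⟫ / 4 ∧ ⟪y - q, e⟫ / 4 < capT R n := by
          intro n hn hmem'
          have hy : ⟪y - q, e⟫ = 4 * ⟪Di n y - q, e⟫ := by
            conv_lhs => rw [← DmDi n y]
            simp only [hDm, capMap_inner he, capSg, if_pos hn]; norm_num
          have h1 := hmem'.2.1
          have h2 := hmem'.2.2
          simp only [capLo, if_pos hn] at h1
          constructor <;> linarith
        obtain ⟨a1, a2⟩ := key a ha.2 (hval a y hwa)
        obtain ⟨b1, b2⟩ := key b hb.2 (hval b y hwb)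
        rcases lt_or_gt_of_ne hba with h3 | h3
        · linarith [capT_anti hR.le (show b + 1 ≤ a by omega)]
        · linarith [capT_anti hR.le (show a + 1 ≤ b by omega)]
      · push Not at hex
        rw [Finset.sum_eq_zero hex]; norm_num
    linarith
  · have hiB : ∀ n, IntegrableOn (fun y => w n y * F y) (ball z0 r) := fun n =>
      Integrable.bdd_mul (c := 1) hF (hwm n).aestronglyMeasurable
        (Filter.Eventually.of_forall fun y => by
          rw [Real.norm_eq_abs, abs_of_nonneg (hw0 n y)]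
          linarith [hwθ n y])
    simp only [Finset.sum_mul]
    rw [integral_finsetSum _ fun n _ => hiB n]
    refine Finset.sum_congr rfl fun n hn => ?_
    have hn' := Finset.mem_Icc.1 hn
    have h1 : ∫ y in ball z0 r, w n y * F y = ∫ y, w n y * F y := by
      refine setIntegral_eq_integral_of_forall_compl_eq_zero fun y hy => ?_
      by_contra hne
      have := dil_mem_ball he hR hRr hn'.1 hn'.2 (hval n y (left_ne_zero_of_mul hne))
      rw [← hq] at this
      change Dm n (Di n y) ∈ ball z0 r at this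
      rw [DmDi] at this
      exact hy this
    have h2 := integral_aff (d := d) he (α := 3 / 2) (β := 5 / 2) (by norm_num) (by norm_num)
      (q - (3 / 2 : ℝ) • q + (capSg R K n - 5 / 2 * ⟪q, e⟫) • e)
      (fun y => (Sh n).indicator κ (Di n y) * F y)
    simp only [← capMap_eq_aff] at h2
    rw [h1, ← integral_indicator (hShm n)]
    simp only [hw, mul_assoc]
    rw [integral_const_mul, ← h2]
    refine integral_congr_ae (Filter.Eventually.of_forall fun z => ?_)
    show _ = (Sh n).indicator κ (Di n (Dm n z)) * F (Dm n z)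
    rw [DiDm]
    by_cases hz : z ∈ Sh n <;> simp [hz, hDm]

end Vale.Agent.P137
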