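import Vale.Agent.P137.Defs

/-!
Basic facts about the maximal function.

Proof notes.  Weak type (1,1) by the Vitali covering lemma.  `muBig_lip`: a ball of radius `r`
containing `x` gives one of radius `r + ‖h‖` containing `x + h` and the first ball; so the two
averages differ by at most `d ‖h‖ / δ` times the bound `∫ |f| / vol (ball δ)` of `MuBig`.
Layer cake: `a - b = ∫⁻ t, 1 {b ≤ t < a}`.
-/

namespace Vale.Agent.P137

open MeasureTheory Metric Filter Topology Set
open scoped ENNReal RealInnerProductSpace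

variable {d : ℕ}

/-- The average of `|f|` over a ball, as an extended nonnegative real. -/
private noncomputable def avgE (f : EE d → ℝ) (z : EE d) (r : ℝ) : ℝ≥0∞ :=
  (∫⁻ y in ball z r, ENNReal.ofReal |f y|) / volume (ball z r)

private theorem le_mu {f : EE d → ℝ} {x z : EE d} {r : ℝ} (hx : x ∈ ball z r) :
    avgE f z r ≤ Mu f x :=
  le_iSup_of_le z (le_iSup_of_le r (le_iSup_of_le hx le_rfl))

private theorem le_muBig {δ : ℝ} {f : EE d → ℝ} {x z : EE d} {r : ℝ} (hδ : δ ≤ r)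
    (hx : x ∈ ball z r) : avgE f z r ≤ MuBig δ f x :=
  le_iSup_of_le z (le_iSup_of_le r (le_iSup_of_le hδ (le_iSup_of_le hx le_rfl)))

private theorem lt_mu_iff {f : EE d → ℝ} {x : EE d} {a : ℝ≥0∞} :
    a < Mu f x ↔ ∃ z r, x ∈ ball z r ∧ a < avgE f z r := by
  simp only [Mu, avgE, lt_iSup_iff, exists_prop]

private theorem lt_muBig_iff {δ : ℝ} {f : EE d → ℝ} {x : EE d} {a : ℝ≥0∞} :
    a < MuBig δ f x ↔ ∃ z r, δ ≤ r ∧ x ∈ ball z r ∧ a < avgE f z r := by
  simp only [MuBig, avgE, lt_iSup_iff, exists_prop]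

private theorem mu_lsc (f : EE d → ℝ) : LowerSemicontinuous (Mu f) := by
  intro x a ha
  obtain ⟨z, r, hx, hlt⟩ := lt_mu_iff.1 ha
  filter_upwards [isOpen_ball.mem_nhds hx] with y hy
  exact lt_mu_iff.2 ⟨z, r, hy, hlt⟩

private theorem muBig_lsc (δ : ℝ) (f : EE d → ℝ) : LowerSemicontinuous (MuBig δ f) := by
  intro x a ha
  obtain ⟨z, r, hr, hx, hlt⟩ := lt_muBig_iff.1 ha
  filter_upwards [isOpen_ball.mem_nhds hx] with y hy
  exact lt_muBig_iff.2 ⟨z, r, hr, hy, hlt⟩

theorem measurable_mu (f : EE d → ℝ) : Measurable (Mu f) := (mu_lsc f).measurable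

theorem measurable_muBig (δ : ℝ) (f : EE d → ℝ) : Measurable (MuBig δ f) :=
  (muBig_lsc δ f).measurable

theorem muBig_le_mu (δ : ℝ) (f : EE d → ℝ) (x : EE d) : MuBig δ f x ≤ Mu f x :=
  iSup_le fun _ => iSup_le fun _ => iSup_le fun _ => iSup_le fun hx => le_mu hx

private theorem vol_ball_eq (z : EE d) {r : ℝ} (hr : 0 < r) :
    volume (ball z r) = ENNReal.ofReal (r ^ d) * volume (ball (0 : EE d) 1) := by
  rw [Measure.addHaar_ball_of_pos volume z hr, finrank_euclideanSpace_fin]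

private theorem lintegral_abs_eq (f : EE d → ℝ) (s : Set (EE d)) :
    ∫⁻ y in s, ENNReal.ofReal |f y| = ∫⁻ y in s, ‖f y‖ₑ :=
  lintegral_congr fun y => (Real.enorm_eq_ofReal_abs (f y)).symm

theorem mu_weak (d : ℕ) : ∃ C : ℝ≥0∞, C ≠ ⊤ ∧ ∀ (f : EE d → ℝ), Integrable f → ∀ t : ℝ, 0 < t →
    volume {x | ENNReal.ofReal t < Mu f x} ≤ C * (∫⁻ x, ‖f x‖ₑ) / ENNReal.ofReal t := by
  refine ⟨ENNReal.ofReal (4 ^ d), ENNReal.ofReal_ne_top, fun f _ t ht => ?_⟩
  set S : ℕ → Set (EE d) := fun n =>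
    {x | ∃ z r, x ∈ ball z r ∧ r ≤ n ∧ ENNReal.ofReal t < avgE f z r} with hS
  have hmono : Monotone S := by
    rintro m n hmn x ⟨z, r, hx, hr, hlt⟩
    exact ⟨z, r, hx, hr.trans (Nat.cast_le.2 hmn), hlt⟩
  have hsub : {x | ENNReal.ofReal t < Mu f x} ⊆ ⋃ n, S n := by
    intro x hx
    obtain ⟨z, r, hxz, hlt⟩ := lt_mu_iff.1 hx
    exact mem_iUnion.2 ⟨⌈r⌉₊, z, r, hxz, Nat.le_ceil r, hlt⟩
  refine (measure_mono hsub).trans ?_
  rw [hmono.measure_iUnion]
  refine iSup_le fun n => ?_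
  set I : Set (EE d × ℝ) := {b | 0 < b.2 ∧ b.2 ≤ n ∧ ENNReal.ofReal t < avgE f b.1 b.2} with hI
  obtain ⟨u, huI, hdisj, hcov⟩ := Vitali.exists_disjoint_subfamily_covering_enlargement_closedBall
    I (fun b => b.1) (fun b => b.2) n (fun b hb => hb.2.1) 4 (by norm_num)
  have hdisj' : u.PairwiseDisjoint fun b => ball b.1 b.2 := fun a ha b hb hab =>
    Disjoint.mono ball_subset_closedBall ball_subset_closedBall (hdisj ha hb hab)
  have hcount : u.Countable := hdisj'.countable_of_isOpen (fun b _ => isOpen_ball)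
    (fun b hb => nonempty_ball.2 (huI hb).1)
  have hSsub : S n ⊆ ⋃ b ∈ u, closedBall b.1 (4 * b.2) := by
    rintro x ⟨z, r, hx, hr, hlt⟩
    obtain ⟨b, hb, hsub'⟩ := hcov (z, r)
      ⟨pos_of_mem_ball hx, hr, hlt⟩
    exact mem_iUnion₂.2 ⟨b, hb, hsub' (ball_subset_closedBall hx)⟩
  have hterm : ∀ b : u, volume (closedBall (b : EE d × ℝ).1 (4 * (b : EE d × ℝ).2)) ≤
      ENNReal.ofReal (4 ^ d) *
        ((∫⁻ y in ball (b : EE d × ℝ).1 (b : EE d × ℝ).2, ‖f y‖ₑ) *
          (ENNReal.ofReal t)⁻¹) := by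
    rintro ⟨⟨z, r⟩, hb⟩
    obtain ⟨hr, -, hlt⟩ := huI hb
    have hV : volume (ball z r) ≤ (∫⁻ y in ball z r, ‖f y‖ₑ) * (ENNReal.ofReal t)⁻¹ := by
      rw [← div_eq_mul_inv, ENNReal.le_div_iff_mul_le (Or.inl (by simp [ht]))
        (Or.inl ENNReal.ofReal_ne_top), ← lintegral_abs_eq, mul_comm]
      exact ((ENNReal.lt_div_iff_mul_lt (Or.inl (measure_ball_pos volume z hr).ne')
        (Or.inl measure_ball_lt_top.ne)).1 hlt).le
    calc volume (closedBall z (4 * r))
        = ENNReal.ofReal (4 ^ d) * volume (ball z r) := by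
          rw [Measure.addHaar_closedBall volume z (by positivity), finrank_euclideanSpace_fin,
            vol_ball_eq z hr, mul_pow, ENNReal.ofReal_mul (by positivity), mul_assoc]
      _ ≤ _ := by gcongr
  calc volume (S n)
      ≤ ∑' b : u, volume (closedBall (b : EE d × ℝ).1 (4 * (b : EE d × ℝ).2)) :=
        (measure_mono hSsub).trans (measure_biUnion_le _ hcount _)
    _ ≤ ∑' b : u, ENNReal.ofReal (4 ^ d) *
          ((∫⁻ y in ball (b : EE d × ℝ).1 (b : EE d × ℝ).2, ‖f y‖ₑ) *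
            (ENNReal.ofReal t)⁻¹) := ENNReal.tsum_le_tsum hterm
    _ = ENNReal.ofReal (4 ^ d) *
          ((∫⁻ y in ⋃ b ∈ u, ball b.1 b.2, ‖f y‖ₑ) * (ENNReal.ofReal t)⁻¹) := by
        rw [ENNReal.tsum_mul_left, ENNReal.tsum_mul_right,
          lintegral_biUnion hcount (fun b _ => measurableSet_ball) hdisj']
    _ ≤ ENNReal.ofReal (4 ^ d) * (∫⁻ x, ‖f x‖ₑ) / ENNReal.ofReal t := by
        rw [← mul_assoc, ← div_eq_mul_inv]
        gcongr
        exact Measure.restrict_le_self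

private theorem lintegral_enorm_ne_top {f : EE d → ℝ} (hf : Integrable f) :
    ∫⁻ x, ‖f x‖ₑ ≠ ⊤ := hf.2.ne

theorem mu_ae_lt_top {f : EE d → ℝ} (hf : Integrable f) : ∀ᵐ x, Mu f x < ⊤ := by
  obtain ⟨C, hC, hweak⟩ := mu_weak d
  rw [ae_iff]
  have hb : ∀ n : ℕ, volume {x | ¬ Mu f x < ⊤} ≤
      C * (∫⁻ x, ‖f x‖ₑ) / ((n + 1 : ℕ) : ℝ≥0∞) := by
    intro n
    refine le_trans (measure_mono ?_) (le_of_le_of_eq
      (hweak f hf (n + 1 : ℕ) (by positivity)) (by rw [ENNReal.ofReal_natCast]))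
    intro x hx
    have : Mu f x = ⊤ := not_lt_top_iff.1 hx
    simp only [mem_ofPred_eq, this, ENNReal.ofReal_lt_top]
  have hlim : Tendsto (fun n : ℕ => C * (∫⁻ x, ‖f x‖ₑ) / ((n + 1 : ℕ) : ℝ≥0∞)) atTop (𝓝 0) := by
    have h0 := ENNReal.Tendsto.const_mul (a := C * ∫⁻ x, ‖f x‖ₑ)
      (ENNReal.tendsto_inv_nat_nhds_zero.comp (tendsto_add_atTop_nat 1))
      (Or.inr (ENNReal.mul_ne_top hC (lintegral_enorm_ne_top hf)))
    simpa [div_eq_mul_inv, Function.comp_def] using h0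
  exact nonpos_iff_eq_zero.1 (ge_of_tendsto' hlim hb)

private theorem avgE_le_add {f g : EE d → ℝ} (hg : Integrable g) (z : EE d) (r : ℝ) :
    avgE f z r ≤ avgE g z r + avgE (fun y => |f y| - |g y|) z r := by
  unfold avgE
  rw [ENNReal.div_add_div_same]
  refine ENNReal.div_le_div_right ?_ _
  have hm : AEMeasurable (fun y => ENNReal.ofReal |g y|) (volume.restrict (ball z r)) :=
    (hg.1.aemeasurable.abs.ennreal_ofReal).restrict
  rw [← lintegral_add_left' hm]
  refine lintegral_mono fun y => ?_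
  refine (ENNReal.ofReal_le_ofReal ?_).trans ENNReal.ofReal_add_le
  linarith [le_abs_self (|f y| - |g y|)]

set_option linter.unusedVariables false in
theorem mu_sublinear {f g : EE d → ℝ} (hf : Integrable f) (hg : Integrable g) (x : EE d) :
    Mu f x ≤ Mu g x + Mu (fun y => |f y| - |g y|) x :=
  iSup_le fun z => iSup_le fun r => iSup_le fun hx =>
    (avgE_le_add (f := f) hg z r).trans (add_le_add (le_mu hx) (le_mu hx))

private theorem avgE_le_bound {δ : ℝ} {f : EE d → ℝ} (z : EE d) {r : ℝ} (hr : δ ≤ r) :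
    avgE f z r ≤ (∫⁻ y, ‖f y‖ₑ) / volume (ball (0 : EE d) δ) := by
  unfold avgE
  refine ENNReal.div_le_div ?_ ?_
  · rw [lintegral_abs_eq]
    exact setLIntegral_le_lintegral _ _
  · rw [Measure.addHaar_ball_center volume z r]
    exact measure_mono (ball_subset_ball hr)

private theorem muBig_le_bound (δ : ℝ) (f : EE d → ℝ) (x : EE d) :
    MuBig δ f x ≤ (∫⁻ y, ‖f y‖ₑ) / volume (ball (0 : EE d) δ) :=
  iSup_le fun z => iSup_le fun _ => iSup_le fun hr => iSup_le fun _ => avgE_le_bound z hr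

private theorem bound_ne_top {δ : ℝ} (hδ : 0 < δ) {f : EE d → ℝ} (hf : Integrable f) :
    (∫⁻ y, ‖f y‖ₑ) / volume (ball (0 : EE d) δ) ≠ ⊤ :=
  ENNReal.div_ne_top (lintegral_enorm_ne_top hf) (measure_ball_pos volume 0 hδ).ne'

private theorem muBig_le_add {δ : ℝ} {f g : EE d → ℝ} (hg : Integrable g) (x : EE d) :
    MuBig δ f x ≤ MuBig δ g x +
      (∫⁻ y, ‖|f y| - |g y|‖ₑ) / volume (ball (0 : EE d) δ) :=
  iSup_le fun z => iSup_le fun r => iSup_le fun hr => iSup_le fun hx =>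
    (avgE_le_add (f := f) hg z r).trans
      (add_le_add (le_muBig hr hx) (avgE_le_bound z hr))

theorem muBig_tendsto {δ : ℝ} (hδ : 0 < δ) {f : EE d → ℝ} (hf : Integrable f)
    {g : ℕ → EE d → ℝ} (hg : ∀ k, Integrable (g k))
    (hlim : Tendsto (fun k => ∫⁻ x, ‖|f x| - |g k x|‖ₑ) atTop (𝓝 0)) (x : EE d) :
    Tendsto (fun k => MuBig δ (g k) x) atTop (𝓝 (MuBig δ f x)) := by
  set V : ℝ≥0∞ := volume (ball (0 : EE d) δ) with hV
  set D : ℕ → ℝ≥0∞ := fun k => (∫⁻ x, ‖|f x| - |g k x|‖ₑ) / V with hD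
  have hDlim : Tendsto D atTop (𝓝 0) := by
    have h0 := ENNReal.Tendsto.div_const hlim
      (Or.inr (measure_ball_pos volume (0 : EE d) hδ).ne')
    simpa [hD] using h0
  have hfin : MuBig δ f x ≠ ⊤ := ne_top_of_le_ne_top (bound_ne_top hδ hf) (muBig_le_bound δ f x)
  have hlo : Tendsto (fun k => MuBig δ f x - D k) atTop (𝓝 (MuBig δ f x)) := by
    simpa using ENNReal.Tendsto.sub (tendsto_const_nhds (x := MuBig δ f x)) hDlim (Or.inl hfin)
  have hhi : Tendsto (fun k => MuBig δ f x + D k) atTop (𝓝 (MuBig δ f x)) := by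
    simpa using (tendsto_const_nhds (x := MuBig δ f x)).add hDlim
  refine tendsto_of_tendsto_of_tendsto_of_le_of_le hlo hhi (fun k => ?_) (fun k => ?_)
  · exact tsub_le_iff_right.2 (muBig_le_add (hg k) x)
  · refine (muBig_le_add hf x).trans (le_of_eq ?_)
    simp only [hD, hV, Real.enorm_eq_ofReal_abs, abs_sub_comm]

theorem muBig_lip {δ : ℝ} (hδ : 0 < δ) {f : EE d → ℝ} (hf : Integrable f) :
    ∃ L : ℝ, 0 ≤ L ∧ ∀ x h : EE d,
      MuBig δ f x ≤ MuBig δ f (x + h) + ENNReal.ofReal (L * ‖h‖) := by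
  set B : ℝ≥0∞ := (∫⁻ y, ‖f y‖ₑ) / volume (ball (0 : EE d) δ) with hBdef
  have hBtop : B ≠ ⊤ := bound_ne_top hδ hf
  refine ⟨B.toReal * d / δ, by positivity, fun x h => ?_⟩
  refine iSup_le fun z => iSup_le fun r => iSup_le fun hr => iSup_le fun hx => ?_
  have hr0 : 0 < r := hδ.trans_le hr
  set r' : ℝ := r + ‖h‖ with hr'
  have hr'0 : 0 < r' := add_pos_of_pos_of_nonneg hr0 (norm_nonneg h)
  have hδr' : δ ≤ r' := hr.trans (le_add_of_nonneg_right (norm_nonneg h))
  have hx' : x + h ∈ ball z r' := by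
    rw [mem_ball, dist_eq_norm] at hx ⊢
    calc ‖x + h - z‖ = ‖(x - z) + h‖ := by rw [add_sub_right_comm]
      _ ≤ ‖x - z‖ + ‖h‖ := norm_add_le _ _
      _ < r' := by linarith
  have hle : (avgE f z r).toReal ≤ (avgE f z r').toReal + B.toReal * d / δ * ‖h‖ := by
    set c : ℝ := (volume (ball (0 : EE d) 1)).toReal with hc
    have hcpos : 0 < c :=
      ENNReal.toReal_pos (measure_ball_pos volume 0 one_pos).ne' measure_ball_lt_top.ne
    set i1 : ℝ := (∫⁻ y in ball z r, ENNReal.ofReal |f y|).toReal with hi1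
    set i2 : ℝ := (∫⁻ y in ball z r', ENNReal.ofReal |f y|).toReal with hi2
    have hI : i1 ≤ i2 := by
      refine ENNReal.toReal_mono ?_ (lintegral_mono_set (ball_subset_ball ?_))
      · rw [lintegral_abs_eq]
        exact ne_top_of_le_ne_top (lintegral_enorm_ne_top hf) (setLIntegral_le_lintegral _ _)
      · exact le_add_of_nonneg_right (norm_nonneg h)
    have e1 : (avgE f z r).toReal = i1 / (r ^ d * c) := by
      rw [avgE, ENNReal.toReal_div, vol_ball_eq z hr0, ENNReal.toReal_mul,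
        ENNReal.toReal_ofReal (by positivity)]
    have e2 : (avgE f z r').toReal = i2 / (r' ^ d * c) := by
      rw [avgE, ENNReal.toReal_div, vol_ball_eq z hr'0, ENNReal.toReal_mul,
        ENNReal.toReal_ofReal (by positivity)]
    have hB1 : i1 / (r ^ d * c) ≤ B.toReal :=
      e1 ▸ ENNReal.toReal_mono hBtop (avgE_le_bound z hr)
    set s : ℝ := r / r' with hs
    have hs0 : 0 ≤ s := by positivity
    have hpos : 0 ≤ i1 / (r ^ d * c) := div_nonneg ENNReal.toReal_nonneg (by positivity)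
    have hsp : 1 - s ^ d ≤ d * (1 - s) := by
      have h0 := one_add_mul_le_pow (a := s - 1) (by linarith) d
      rw [add_sub_cancel] at h0
      linarith
    have hs1 : 1 - s ≤ ‖h‖ / δ := by
      have : 1 - s = ‖h‖ / r' := by
        rw [hs, hr']
        field_simp
        ring
      rw [this]
      exact div_le_div_of_nonneg_left (norm_nonneg h) hδ hδr'
    have hsd : i1 / (r ^ d * c) * s ^ d = i1 / (r' ^ d * c) := by
      rw [hs, div_pow]
      field_simp
    rw [e1, e2]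
    calc i1 / (r ^ d * c)
        = i1 / (r' ^ d * c) + i1 / (r ^ d * c) * (1 - s ^ d) := by rw [← hsd]; ring
      _ ≤ i2 / (r' ^ d * c) + B.toReal * (d * (‖h‖ / δ)) := by
          refine add_le_add (by gcongr) ?_
          refine (mul_le_mul_of_nonneg_left (hsp.trans
            (mul_le_mul_of_nonneg_left hs1 (Nat.cast_nonneg d))) hpos).trans ?_
          exact mul_le_mul_of_nonneg_right hB1 (by positivity)
      _ = i2 / (r' ^ d * c) + B.toReal * d / δ * ‖h‖ := by ring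
  calc avgE f z r = ENNReal.ofReal (avgE f z r).toReal :=
        (ENNReal.ofReal_toReal (ne_top_of_le_ne_top hBtop (avgE_le_bound z hr))).symm
    _ ≤ ENNReal.ofReal ((avgE f z r').toReal + B.toReal * d / δ * ‖h‖) :=
        ENNReal.ofReal_le_ofReal hle
    _ ≤ ENNReal.ofReal (avgE f z r').toReal + ENNReal.ofReal (B.toReal * d / δ * ‖h‖) :=
        ENNReal.ofReal_add_le
    _ ≤ MuBig δ f (x + h) + ENNReal.ofReal (B.toReal * d / δ * ‖h‖) := by
        gcongr
        exact ENNReal.ofReal_toReal_le.trans (le_muBig hδr' hx')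

private theorem sub_eq_vol (a b : ℝ≥0∞) :
    a - b = (volume.restrict (Ioi (0 : ℝ))) {t | ENNReal.ofReal t < a ∧ b ≤ ENNReal.ofReal t} := by
  rw [Measure.restrict_apply' measurableSet_Ioi]
  rcases eq_or_ne b ⊤ with rfl | hb
  · simp
  rcases eq_or_ne a ⊤ with rfl | ha
  · rw [ENNReal.top_sub hb]
    refine (top_unique ?_).symm
    refine le_of_eq_of_le (Real.volume_Ioi (a := b.toReal)).symm ?_
    refine measure_mono fun t ht => ?_
    exact ⟨⟨ENNReal.ofReal_lt_top, (ENNReal.ofReal_toReal hb).symm.le.trans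
      (ENNReal.ofReal_le_ofReal (le_of_lt ht))⟩, lt_of_le_of_lt ENNReal.toReal_nonneg ht⟩
  have hab : a - b = ENNReal.ofReal (a.toReal - b.toReal) := by
    rw [ENNReal.ofReal_sub _ ENNReal.toReal_nonneg, ENNReal.ofReal_toReal ha,
      ENNReal.ofReal_toReal hb]
  apply le_antisymm
  · rw [hab, ← Real.volume_Ioo]
    refine measure_mono fun t ht => ?_
    have ht0 : 0 < t := lt_of_le_of_lt ENNReal.toReal_nonneg ht.1
    exact ⟨⟨(ENNReal.ofReal_lt_iff_lt_toReal ht0.le ha).2 ht.2,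
      (ENNReal.le_ofReal_iff_toReal_le hb ht0.le).2 ht.1.le⟩, ht0⟩
  · rw [hab, ← Real.volume_Ico]
    refine measure_mono fun t ht => ?_
    obtain ⟨⟨h1, h2⟩, h0⟩ := ht
    exact ⟨(ENNReal.le_ofReal_iff_toReal_le hb (le_of_lt h0)).1 h2,
      (ENNReal.ofReal_lt_iff_lt_toReal (le_of_lt h0) ha).1 h1⟩

private theorem lintegral_sub_layer {A B : EE d → ℝ≥0∞} (hA : Measurable A) (hB : Measurable B) :
    ∫⁻ x, (A x - B x) = ∫⁻ t in Ioi (0 : ℝ),
      volume {x | ENNReal.ofReal t < A x ∧ B x ≤ ENNReal.ofReal t} := by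
  set S : Set (EE d × ℝ) :=
    {p | ENNReal.ofReal p.2 < A p.1 ∧ B p.1 ≤ ENNReal.ofReal p.2} with hS
  have hmS : MeasurableSet S :=
    (measurableSet_lt measurable_snd.ennreal_ofReal (hA.comp measurable_fst)).inter
      (measurableSet_le (hB.comp measurable_fst) measurable_snd.ennreal_ofReal)
  have h1 := Measure.prod_apply (μ := (volume : Measure (EE d)))
    (ν := volume.restrict (Ioi (0 : ℝ))) hmS
  have h2 := Measure.prod_apply_symm (μ := (volume : Measure (EE d)))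
    (ν := volume.restrict (Ioi (0 : ℝ))) hmS
  simp only [sub_eq_vol]
  exact h1.symm.trans h2

private theorem lt_avg_iff {g : EE d → ℝ} (hg : Integrable g) (hg0 : ∀ x, 0 ≤ g x) {t : ℝ}
    (ht : 0 < t) {z : EE d} {r : ℝ} (hr : 0 < r) :
    t < avg g z r ↔ ENNReal.ofReal t < avgE g z r := by
  have hV : 0 < volume.real (ball z r) :=
    ENNReal.toReal_pos (measure_ball_pos volume z hr).ne' measure_ball_lt_top.ne
  have he : avgE g z r = ENNReal.ofReal (avg g z r) := by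
    rw [avg, ENNReal.ofReal_mul (inv_nonneg.2 hV.le), ENNReal.ofReal_inv_of_pos hV,
      ofReal_integral_eq_lintegral_ofReal hg.integrableOn (Eventually.of_forall hg0),
      measureReal_def, ENNReal.ofReal_toReal measure_ball_lt_top.ne, avgE, div_eq_mul_inv,
      mul_comm]
    simp only [abs_of_nonneg (hg0 _)]
  rw [he, ENNReal.ofReal_lt_ofReal_iff_of_nonneg ht.le]

private theorem mem_Om_iff {g : EE d → ℝ} (hg : Integrable g) (hg0 : ∀ x, 0 ≤ g x) {t : ℝ}
    (ht : 0 < t) (x : EE d) : x ∈ Om g t ↔ ENNReal.ofReal t < Mu g x := by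
  rw [lt_mu_iff, Om, mem_ofPred_eq]
  exact exists_congr fun z => exists_congr fun r => and_congr_right fun hx =>
    lt_avg_iff hg hg0 ht (pos_of_mem_ball hx)

private theorem mem_OmBig_iff {g : EE d → ℝ} (hg : Integrable g) (hg0 : ∀ x, 0 ≤ g x) (δ : ℝ)
    {t : ℝ} (ht : 0 < t) (x : EE d) :
    x ∈ OmBig δ g t ↔ ENNReal.ofReal t < MuBig δ g x := by
  rw [lt_muBig_iff, OmBig, mem_ofPred_eq]
  exact exists_congr fun z => exists_congr fun r => and_congr_right fun _ =>
    and_congr_right fun hx => lt_avg_iff hg hg0 ht (pos_of_mem_ball hx)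

theorem layer_mu {g : EE d → ℝ} (hg : Integrable g) (hg0 : ∀ x, 0 ≤ g x) (h : EE d) :
    ∫⁻ x, (Mu g x - Mu g (x + h)) =
      ∫⁻ t in Ioi (0 : ℝ), volume (Om g t \ {x | x + h ∈ Om g t}) := by
  refine (lintegral_sub_layer (measurable_mu g)
    ((measurable_mu g).comp (measurable_add_const h))).trans ?_
  refine setLIntegral_congr_fun measurableSet_Ioi (fun t ht => ?_)
  congr 1
  ext x
  simp only [Function.comp_apply, mem_ofPred_eq, Set.mem_sdiff, mem_Om_iff hg hg0 ht, not_lt]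

theorem layer_muBig {g : EE d → ℝ} (hg : Integrable g) (hg0 : ∀ x, 0 ≤ g x) (δ : ℝ) (h : EE d) :
    ∫⁻ x, (Mu g x - max (MuBig δ g x) (Mu g (x + h))) =
      ∫⁻ t in Ioi (0 : ℝ), volume ((Om g t \ OmBig δ g t) \ {x | x + h ∈ Om g t}) := by
  refine (lintegral_sub_layer (measurable_mu g)
    ((measurable_muBig δ g).max ((measurable_mu g).comp (measurable_add_const h)))).trans ?_
  refine setLIntegral_congr_fun measurableSet_Ioi (fun t ht => ?_)
  congr 1
  ext x
  simp only [Function.comp_apply, mem_ofPred_eq, Set.mem_sdiff, mem_Om_iff hg hg0 ht,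
    mem_OmBig_iff hg hg0 δ ht, not_lt, max_le_iff, and_assoc]

end Vale.Agent.P137
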