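import Vale.Agent.P137.Ladder

/-!
The pair lemmas: every forward descent of `g` is paid by deficits.

Proof notes.  `cone_ineq`: `‖w - a e‖ ≤ a` as `‖w‖² ≤ 2 a ⟪w,e⟫`.  One smoothing step:
`lad g l y - lad g (l+1) (y + 2ρ e)` is the average over `‖u‖ < ρ = rho (l+1)` of a segment
integral of `-⟪lad v l, 2ρ e + u⟫`, hence at most `(9/2) ρ` times the average of `gdef l` on
the segments; the same downwards with `w = 2ρ e - u`.  The shifts add up to
`s ≤ (8/3) rho i` and all points used are within `6 rho i` of the base point.  At the level `i`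
the displacement is `w - 2 s e`, of norm at most `3 ‖w‖` with inner product with `e` at least
`⟪w,e⟫ / 3`.  Integrate over `z`; the affine interpolations have Jacobian at least 1.
In the lemmas with an average, split the segment parameter at 1/2 and use the substitution in
the variable carrying a factor at least 1/2.
-/

namespace Vale.Agent.P137

open MeasureTheory Metric Filter Topology Set
open scoped ENNReal RealInnerProductSpace

variable {d : ℕ}

theorem cone_ineq {e w : EE d} (v : EE d) {a : ℝ} (he : ‖e‖ = 1) (ha : 0 ≤ a)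
    (hw : ‖w‖ ^ 2 ≤ 2 * a * ⟪w, e⟫) : -⟪v, w⟫ ≤ a * (‖v‖ - ⟪v, e⟫) := by
  have h1 : ‖w - a • e‖ ≤ a := by
    refine le_of_pow_le_pow_left₀ two_ne_zero ha ?_
    rw [norm_sub_sq_real, norm_smul, inner_smul_right, Real.norm_of_nonneg ha, he]
    linarith
  have h2 := abs_le.1 ((abs_real_inner_le_norm v (w - a • e)).trans
    (mul_le_mul_of_nonneg_left h1 (norm_nonneg v)))
  rw [inner_sub_right, inner_smul_right] at h2
  nlinarith [h2.1]

theorem measurable_aff (e : EE d) (α β : ℝ) (b : EE d) : Measurable (aff e α β b) := by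
  unfold aff; fun_prop

/-- The linear part of an affine map. -/
private noncomputable def affLin (e : EE d) (α β : ℝ) : EE d →ₗ[ℝ] EE d :=
  α • LinearMap.id + β • (innerₗ (EE d) e).smulRight e

private theorem affLin_apply (e : EE d) (α β : ℝ) (z : EE d) :
    affLin e α β z = α • z + (β * ⟪z, e⟫) • e := by
  simp [affLin, smul_smul, real_inner_comm]

private theorem dim_pos {e : EE d} (he : ‖e‖ = 1) : 1 ≤ d := by
  rcases d with - | d
  · rw [Subsingleton.elim e 0, norm_zero] at he; exact absurd he zero_ne_one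
  · omega

private theorem det_affLin {e : EE d} (he : ‖e‖ = 1) {α β : ℝ} (hα : 0 < α) :
    LinearMap.det (affLin e α β) = α ^ (d - 1) * (α + β) := by
  have hd := dim_pos he
  rw [← LinearMap.det_toMatrix (EuclideanSpace.basisFun (Fin d) ℝ).toBasis]
  have hM : LinearMap.toMatrix (EuclideanSpace.basisFun (Fin d) ℝ).toBasis
      (EuclideanSpace.basisFun (Fin d) ℝ).toBasis (affLin e α β) =
      α • (1 + Matrix.replicateCol Unit (fun i => β / α * e i) *
        Matrix.replicateRow Unit (fun i => e i)) := by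
    ext i j
    simp [LinearMap.toMatrix_apply, affLin_apply, Matrix.mul_apply, Matrix.one_apply,
      EuclideanSpace.inner_single_left]
    field_simp
    split_ifs <;> ring
  rw [hM, Matrix.det_smul, Matrix.det_one_add_replicateCol_mul_replicateRow, Fintype.card_fin]
  have he2 : ∑ i, e i * (β / α * e i) = β / α := by
    have h := EuclideanSpace.real_norm_sq_eq e
    rw [he, one_pow] at h
    calc ∑ i, e i * (β / α * e i) = β / α * ∑ i, e i ^ 2 := by
          rw [Finset.mul_sum]; exact Finset.sum_congr rfl fun i _ => by ring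
      _ = β / α := by rw [← h, mul_one]
  rw [dotProduct, he2]
  conv_lhs => rw [← Nat.sub_add_cancel hd, pow_succ]
  field_simp

private theorem map_affLin {e : EE d} (he : ‖e‖ = 1) {α β : ℝ} (hα : 0 < α) (hαβ : 0 < α + β)
    (b : EE d) : Measure.map (aff e α β b) volume =
      ENNReal.ofReal ((α ^ (d - 1) * (α + β))⁻¹) • (volume : Measure (EE d)) := by
  have hJ : 0 < α ^ (d - 1) * (α + β) := by positivity
  have e1 : aff e α β b = (fun y => y + b) ∘ affLin e α β := by
    funext z; simp [aff, affLin_apply]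
  have hm : Measurable (affLin e α β) := (affLin e α β).continuous_of_finiteDimensional.measurable
  rw [e1, ← Measure.map_map (measurable_add_const b) hm,
    Measure.map_linearMap_addHaar_eq_smul_addHaar (f := affLin e α β) volume
      (by rw [det_affLin he hα]; exact hJ.ne'),
    det_affLin he hα, abs_of_pos (inv_pos.2 hJ), Measure.map_smul,
    (measurePreserving_add_right volume b).map_eq]

private theorem aff_measurableEmbedding {e : EE d} (he : ‖e‖ = 1) {α β : ℝ} (hα : 0 < α)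
    (hαβ : 0 < α + β) (b : EE d) : MeasurableEmbedding (aff e α β b) := by
  have hdet : LinearMap.det (affLin e α β) ≠ 0 := by
    rw [det_affLin he hα]; positivity
  have hc : Continuous (aff e α β b) := by unfold aff; fun_prop
  refine hc.measurableEmbedding fun x y h => ?_
  have h' : affLin e α β x = affLin e α β y := by
    simpa [aff, affLin_apply] using h
  exact ((affLin e α β).equivOfDetNeZero hdet).injective h'

/-- Change of variables for the affine maps. -/
theorem integral_aff {e : EE d} (he : ‖e‖ = 1) {α β : ℝ} (hα : 0 < α) (hαβ : 0 < α + β)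
    (b : EE d) (G : EE d → ℝ) :
    ∫ z, G (aff e α β b z) = (α ^ (d - 1) * (α + β))⁻¹ * ∫ y, G y := by
  rw [← (aff_measurableEmbedding he hα hαβ b).integral_map G, map_affLin he hα hαβ b,
    integral_smul_measure, ENNReal.toReal_ofReal (by positivity), smul_eq_mul]

theorem integrable_aff {e : EE d} (he : ‖e‖ = 1) {α β : ℝ} (hα : 0 < α) (hαβ : 0 < α + β)
    (b : EE d) {G : EE d → ℝ} (hG : Integrable G) :
    Integrable (fun z => G (aff e α β b z)) := by
  have h := (aff_measurableEmbedding he hα hαβ b).integrable_map_iff (μ := volume) (g := G)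
  rw [map_affLin he hα hαβ b] at h
  exact h.1 (hG.smul_measure ENNReal.ofReal_ne_top)

private theorem lintegral_aff_le {e : EE d} (he : ‖e‖ = 1) {α β : ℝ} (hα : 0 < α) (hβ : 0 ≤ β)
    (b : EE d) {G : EE d → ℝ≥0∞} (hG : Measurable G) :
    ∫⁻ z, G (aff e α β b z) ≤ ENNReal.ofReal ((α ^ d)⁻¹) * ∫⁻ y, G y := by
  rw [← lintegral_map hG (measurable_aff e α β b), map_affLin he hα (by linarith) b,
    lintegral_smul_measure, smul_eq_mul]
  refine mul_le_mul_left ?_ _
  refine ENNReal.ofReal_le_ofReal (inv_anti₀ (by positivity) ?_)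
  conv_lhs => rw [← Nat.sub_add_cancel (dim_pos he), pow_succ]
  exact mul_le_mul_of_nonneg_left (by linarith) (by positivity)

private theorem ofReal_integral_le_lintegral {Z : Type*} [MeasurableSpace Z] (μ : Measure Z)
    (f : Z → ℝ) : ENNReal.ofReal (∫ z, f z ∂μ) ≤ ∫⁻ z, ENNReal.ofReal (f z) ∂μ := by
  by_cases hf : Integrable f μ
  · rw [integral_eq_lintegral_pos_part_sub_lintegral_neg_part hf]
    refine (ENNReal.ofReal_le_ofReal (sub_le_self _ ENNReal.toReal_nonneg)).trans ?_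
    exact ENNReal.ofReal_toReal_le
  · simp [integral_undef hf]

private theorem integral_le_of_lintegral {Z : Type*} [MeasurableSpace Z] {μ : Measure Z}
    {f : Z → ℝ} {B : ℝ} (hB : 0 ≤ B) (h : ∫⁻ z, ENNReal.ofReal (f z) ∂μ ≤ ENNReal.ofReal B) :
    ∫ z, f z ∂μ ≤ B :=
  (ENNReal.ofReal_le_ofReal_iff hB).1 ((ofReal_integral_le_lintegral μ f).trans h)

private theorem swap_le {Z P : Type*} [MeasurableSpace Z] [MeasurableSpace P] {μ : Measure Z}
    {ν : Measure P} [SFinite μ] [SFinite ν] {f : Z → P → ℝ≥0∞} (hf : Measurable (Function.uncurry f))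
    {A : ℝ≥0∞} (h : ∀ᵐ p ∂ν, ∫⁻ z, f z p ∂μ ≤ A) :
    ∫⁻ z, ∫⁻ p, f z p ∂ν ∂μ ≤ A * ν univ := by
  rw [lintegral_lintegral_swap hf.aemeasurable]
  exact (lintegral_mono_ae h).trans_eq (lintegral_const A)

/-- A descent along one segment. -/
private theorem seg_le {g : EE d → ℝ} {v : EE d → EE d} (hp : IsPot g v) {e w : EE d}
    (he : ‖e‖ = 1) {a : ℝ} (ha : 0 ≤ a) (hw : ‖w‖ ^ 2 ≤ 2 * a * ⟪w, e⟫) (x : EE d) :
    ENNReal.ofReal (g x - g (x + w)) ≤ ENNReal.ofReal a *
      ∫⁻ σ in Ioc (0 : ℝ) 1, ENNReal.ofReal (‖v (x + σ • w)‖ - ⟪v (x + σ • w), e⟫) := by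
  have h1 : g x - g (x + w) = ∫ σ in Ioc (0 : ℝ) 1, -⟪v (x + σ • w), w⟫ := by
    rw [integral_neg, ← intervalIntegral.integral_of_le zero_le_one, ← hp.seg x w]; ring
  rw [h1, ← lintegral_const_mul' _ _ ENNReal.ofReal_ne_top]
  refine (ofReal_integral_le_lintegral _ _).trans (lintegral_mono fun σ => ?_)
  rw [← ENNReal.ofReal_mul ha]
  exact ENNReal.ofReal_le_ofReal (cone_ineq _ he ha hw)

private theorem ofReal_tel_le (F : ℕ → ℝ) (n : ℕ) :
    ENNReal.ofReal (F 0 - F n) ≤ ∑ l ∈ Finset.range n, ENNReal.ofReal (F l - F (l + 1)) := by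
  induction n with
  | zero => simp
  | succ n ih =>
    rw [Finset.sum_range_succ]
    calc ENNReal.ofReal (F 0 - F (n + 1))
        = ENNReal.ofReal ((F 0 - F n) + (F n - F (n + 1))) := by rw [sub_add_sub_cancel]
      _ ≤ _ := ENNReal.ofReal_add_le.trans (add_le_add ih le_rfl)

/-- The total shift after `l` smoothing steps. -/
private noncomputable def sh (ε : ℝ) (l : ℕ) : ℝ := ∑ m ∈ Finset.range l, 2 * rho ε (m + 1)

private theorem rho_succ (ε : ℝ) (l : ℕ) : rho ε (l + 1) = 4 * rho ε l := by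
  simp only [rho, pow_succ]; ring

private theorem sh_le {ε : ℝ} (hε : 0 < ε) (l : ℕ) : 0 ≤ sh ε l ∧ sh ε l ≤ 8 / 3 * rho ε l := by
  induction l with
  | zero => simp [sh, rho]; positivity
  | succ l ih =>
    have h0 : 0 ≤ rho ε l := (rho_pos hε l).le
    have e1 : sh ε (l + 1) = sh ε l + 2 * rho ε (l + 1) := Finset.sum_range_succ _ _
    rw [e1, rho_succ]
    exact ⟨by linarith, by linarith⟩

private theorem rho_le {ε : ℝ} (hε : 0 < ε) {l i : ℕ} (h : l ≤ i) : rho ε l ≤ rho ε i :=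
  mul_le_mul_of_nonneg_left (pow_le_pow_right₀ (by norm_num) h) hε.le

/-- The positive deficit cut off to the window. -/
private noncomputable def cut (ε : ℝ) (v : EE d → EE d) (e : EE d) (W : Set (EE d)) (l : ℕ) :
    EE d → ℝ≥0∞ := W.indicator fun y => ENNReal.ofReal (gdef ε v e l y)

/-- The deficit along one smoothing step, upwards from `x`. -/
private noncomputable def upT (ε : ℝ) (v : EE d → EE d) (e : EE d) (W : Set (EE d)) (l : ℕ)
    (x : EE d) : ℝ≥0∞ :=
  ENNReal.ofReal (volume.real (ball (0 : EE d) (rho ε (l + 1))))⁻¹ *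
    ∫⁻ u in ball (0 : EE d) (rho ε (l + 1)), ∫⁻ σ in Ioc (0 : ℝ) 1,
      cut ε v e W l (x + (sh ε l • e + σ • ((2 * rho ε (l + 1)) • e + u)))

/-- The deficit along one smoothing step, downwards from `y`. -/
private noncomputable def downT (ε : ℝ) (v : EE d → EE d) (e : EE d) (W : Set (EE d)) (l : ℕ)
    (y : EE d) : ℝ≥0∞ :=
  ENNReal.ofReal (volume.real (ball (0 : EE d) (rho ε (l + 1))))⁻¹ *
    ∫⁻ u in ball (0 : EE d) (rho ε (l + 1)), ∫⁻ σ in Ioc (0 : ℝ) 1,
      cut ε v e W l (y + (-(sh ε l) • e + -(1 - σ) • ((2 * rho ε (l + 1)) • e - u)))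

/-- The deficit along the middle segment. -/
private noncomputable def midT (ε : ℝ) (v : EE d → EE d) (e : EE d) (W : Set (EE d)) (i : ℕ)
    (x y : EE d) : ℝ≥0∞ :=
  ∫⁻ σ in Ioc (0 : ℝ) 1,
    cut ε v e W i ((1 - σ) • x + σ • y + ((1 - 2 * σ) * sh ε i) • e)

private theorem vol_ball_pos {r : ℝ} (hr : 0 < r) (z : EE d) : 0 < volume.real (ball z r) :=
  ENNReal.toReal_pos (measure_ball_pos volume z hr).ne' measure_ball_lt_top.ne

private theorem step_le {G : EE d → ℝ} (hG : Continuous G) {ρ : ℝ} (hρ : 0 < ρ) (k : ℝ) (p : EE d)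
    (s : ℝ) {F : EE d → ℝ≥0∞}
    (h : ∀ u ∈ ball (0 : EE d) ρ, ENNReal.ofReal (s * (G (p + u) - k)) ≤ F u) :
    ENNReal.ofReal (s * (ballAvg ρ G p - k)) ≤
      ENNReal.ofReal (volume.real (ball (0 : EE d) ρ))⁻¹ * ∫⁻ u in ball (0 : EE d) ρ, F u := by
  have hV := vol_ball_pos hρ (0 : EE d)
  have hi : IntegrableOn (fun u => G (p + u)) (ball (0 : EE d) ρ) :=
    ((hG.comp (continuous_const.add continuous_id)).continuousOn.integrableOn_compact
      (isCompact_closedBall 0 ρ)).mono_set ball_subset_closedBall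
  have e1 : s * (ballAvg ρ G p - k) = (volume.real (ball (0 : EE d) ρ))⁻¹ *
      ∫ u in ball (0 : EE d) ρ, s * (G (p + u) - k) := by
    rw [integral_const_mul, integral_sub hi (integrableOn_const measure_ball_lt_top.ne),
      setIntegral_const, smul_eq_mul, ballAvg, smul_eq_mul]
    field_simp
  rw [e1, ENNReal.ofReal_mul (inv_nonneg.2 hV.le)]
  refine mul_le_mul_right ((ofReal_integral_le_lintegral _ _).trans
    (lintegral_mono_ae ?_)) _
  filter_upwards [ae_restrict_mem measurableSet_ball] with u hu using h u hu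

/-- The pointwise descent bound. -/
private theorem point_le {ε : ℝ} (hε : 0 < ε) {g : EE d → ℝ} {v : EE d → EE d} (hp : IsPot g v)
    {e : EE d} (he : ‖e‖ = 1) {i : ℕ} {a : ℝ} (ha : rho ε i ≤ a) {W : Set (EE d)} {x y : EE d}
    (h1 : 8 * rho ε i ≤ ⟪y - x, e⟫) (h2 : ‖y - x‖ ^ 2 ≤ a * ⟪y - x, e⟫)
    (hull : ∀ s : ℝ, 0 ≤ s → s ≤ 1 → ∀ u : EE d, ‖u‖ ≤ 6 * rho ε i →
      (1 - s) • x + s • y + u ∈ W) :
    ENNReal.ofReal (g x - g y) ≤ ENNReal.ofReal (9 / 2) *
      (ENNReal.ofReal a * midT ε v e W i x y + ∑ l ∈ Finset.range i,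
        ENNReal.ofReal (rho ε (l + 1)) * (upT ε v e W l x + downT ε v e W l y)) := by
  have hee : ⟪e, e⟫ = 1 := by rw [real_inner_self_eq_norm_sq, he, one_pow]
  have hρi := rho_pos hε i
  have hcone : ∀ l, ∀ u ∈ ball (0 : EE d) (rho ε (l + 1)), ∀ w : EE d,
      (w = (2 * rho ε (l + 1)) • e + u ∨ w = (2 * rho ε (l + 1)) • e - u) →
      ‖w‖ ≤ 3 * rho ε (l + 1) ∧ ‖w‖ ^ 2 ≤ 2 * (9 / 2 * rho ε (l + 1)) * ⟪w, e⟫ := by
    intro l u hu w hw
    have hρ := rho_pos hε (l + 1)
    have hu' : ‖u‖ ≤ rho ε (l + 1) := (mem_ball_zero_iff.1 hu).le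
    have hn : ‖(2 * rho ε (l + 1)) • e‖ = 2 * rho ε (l + 1) := by
      rw [norm_smul, he, mul_one, Real.norm_of_nonneg (by positivity)]
    have hab := abs_real_inner_le_norm u e
    rw [he, mul_one] at hab
    obtain ⟨h3, h4⟩ := abs_le.1 (hab.trans hu')
    have hw' : ‖w‖ ≤ 3 * rho ε (l + 1) ∧ rho ε (l + 1) ≤ ⟪w, e⟫ := by
      rcases hw with rfl | rfl
      · refine ⟨(norm_add_le _ _).trans (by linarith), ?_⟩
        rw [inner_add_left, real_inner_smul_left, hee]; linarith
      · refine ⟨(norm_sub_le _ _).trans (by linarith), ?_⟩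
        rw [inner_sub_left, real_inner_smul_left, hee]; linarith
    refine ⟨hw'.1, (pow_le_pow_left₀ (norm_nonneg _) hw'.1 2).trans ?_⟩
    nlinarith [mul_le_mul_of_nonneg_left hw'.2 hρ.le]
  have hsmall : ∀ l < i, ∀ w : EE d, ‖w‖ ≤ 3 * rho ε (l + 1) → ∀ t s : ℝ, |t| = sh ε l → |s| ≤ 1 →
      ‖t • e + s • w‖ ≤ 6 * rho ε i := by
    intro l hl w hw t s ht hs
    refine (norm_add_le _ _).trans ?_
    rw [norm_smul, he, mul_one, norm_smul, Real.norm_eq_abs, Real.norm_eq_abs, ht]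
    have q1 := mul_le_of_le_one_left (norm_nonneg w) hs
    have q2 := (sh_le hε l).2
    have q3 := rho_le hε (show l + 1 ≤ i by omega)
    have q4 := rho_succ ε l
    linarith [rho_pos hε l]
  set F : ℕ → ℝ := fun l => lad ε g l (x + sh ε l • e) with hF
  set G : ℕ → ℝ := fun l => -lad ε g l (y - sh ε l • e) with hG
  have hup : ∀ l ∈ Finset.range i, ENNReal.ofReal (F l - F (l + 1)) ≤
      ENNReal.ofReal (9 / 2) * (ENNReal.ofReal (rho ε (l + 1)) * upT ε v e W l x) := by
    intro l hl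
    have hl' := Finset.mem_range.1 hl
    have hρ := rho_pos hε (l + 1)
    have hp' := isPot_lad hε hp l
    have e1 : F l - F (l + 1) = (-1 : ℝ) * (ballAvg (rho ε (l + 1)) (lad ε g l)
        (x + sh ε (l + 1) • e) - F l) := by
      simp only [hF, lad]; ring
    rw [e1]
    refine (step_le hp'.cont hρ _ _ _ (F := fun u => ENNReal.ofReal (9 / 2) *
      (ENNReal.ofReal (rho ε (l + 1)) * ∫⁻ σ in Ioc (0 : ℝ) 1,
        cut ε v e W l (x + (sh ε l • e + σ • ((2 * rho ε (l + 1)) • e + u))))) fun u hu => ?_).trans ?_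
    · obtain ⟨hwn, hwc⟩ := hcone l u hu _ (Or.inl rfl)
      have e2 : x + sh ε (l + 1) • e + u =
          (x + sh ε l • e) + ((2 * rho ε (l + 1)) • e + u) := by
        rw [show sh ε (l + 1) = sh ε l + 2 * rho ε (l + 1) from Finset.sum_range_succ _ _, add_smul]
        abel
      rw [e2, neg_one_mul, neg_sub, ← mul_assoc, ← ENNReal.ofReal_mul (by norm_num)]
      refine (seg_le hp' he (by positivity) hwc _).trans (mul_le_mul_right (le_of_eq ?_) _)
      refine setLIntegral_congr_fun measurableSet_Ioc fun σ hσ => ?_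
      have hmem : x + (sh ε l • e + σ • ((2 * rho ε (l + 1)) • e + u)) ∈ W := by
        have := hull 0 le_rfl zero_le_one _ (hsmall l hl' _ hwn (sh ε l) σ
          (abs_of_nonneg (sh_le hε l).1) (abs_le.2 ⟨by linarith [hσ.1], hσ.2⟩))
        simpa using this
      simp only [cut, Set.indicator_of_mem hmem, gdef, add_assoc]
    · rw [lintegral_const_mul' _ _ ENNReal.ofReal_ne_top,
        lintegral_const_mul' _ _ ENNReal.ofReal_ne_top, upT]
      exact le_of_eq (by ring)
  have hdown : ∀ l ∈ Finset.range i, ENNReal.ofReal (G l - G (l + 1)) ≤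
      ENNReal.ofReal (9 / 2) * (ENNReal.ofReal (rho ε (l + 1)) * downT ε v e W l y) := by
    intro l hl
    have hl' := Finset.mem_range.1 hl
    have hρ := rho_pos hε (l + 1)
    have hp' := isPot_lad hε hp l
    have e1 : G l - G (l + 1) = (1 : ℝ) * (ballAvg (rho ε (l + 1)) (lad ε g l)
        (y - sh ε (l + 1) • e) - lad ε g l (y - sh ε l • e)) := by
      simp only [hG, lad]; ring
    rw [e1]
    refine (step_le hp'.cont hρ _ _ _ (F := fun u => ENNReal.ofReal (9 / 2) *
      (ENNReal.ofReal (rho ε (l + 1)) * ∫⁻ σ in Ioc (0 : ℝ) 1,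
        cut ε v e W l (y + (-(sh ε l) • e + -(1 - σ) • ((2 * rho ε (l + 1)) • e - u))))) fun u hu => ?_).trans ?_
    · obtain ⟨hwn, hwc⟩ := hcone l u hu _ (Or.inr rfl)
      have e2 : y - sh ε (l + 1) • e + u =
          (y - sh ε l • e) - ((2 * rho ε (l + 1)) • e - u) := by
        rw [show sh ε (l + 1) = sh ε l + 2 * rho ε (l + 1) from Finset.sum_range_succ _ _, add_smul]
        abel
      rw [e2, one_mul, ← mul_assoc, ← ENNReal.ofReal_mul (by norm_num)]
      have hs := seg_le hp' he (by positivity) hwc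
        ((y - sh ε l • e) - ((2 * rho ε (l + 1)) • e - u))
      rw [sub_add_cancel] at hs
      refine hs.trans (mul_le_mul_right (le_of_eq ?_) _)
      refine setLIntegral_congr_fun measurableSet_Ioc fun σ hσ => ?_
      have hmem : y + (-(sh ε l) • e + -(1 - σ) • ((2 * rho ε (l + 1)) • e - u)) ∈ W := by
        have := hull 1 zero_le_one le_rfl _ (hsmall l hl' _ hwn (-(sh ε l)) (-(1 - σ))
          (by rw [abs_neg, abs_of_nonneg (sh_le hε l).1])
          (abs_le.2 ⟨by linarith [hσ.1], by linarith [hσ.2]⟩))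
        simpa using this
      have e3 : y - sh ε l • e - ((2 * rho ε (l + 1)) • e - u) +
            σ • ((2 * rho ε (l + 1)) • e - u) =
          y + (-(sh ε l) • e + -(1 - σ) • ((2 * rho ε (l + 1)) • e - u)) := by module
      simp only [cut, Set.indicator_of_mem hmem, gdef, e3]
    · rw [lintegral_const_mul' _ _ ENNReal.ofReal_ne_top,
        lintegral_const_mul' _ _ ENNReal.ofReal_ne_top, downT]
      exact le_of_eq (by ring)
  have hmid : ENNReal.ofReal (F i - -G i) ≤
      ENNReal.ofReal (9 / 2) * (ENNReal.ofReal a * midT ε v e W i x y) := by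
    obtain ⟨hs0, hs1⟩ := sh_le hε i
    set w := y - x - (2 * sh ε i) • e with hw
    have hwe : ⟪y - x, e⟫ ≤ ‖y - x‖ := (real_inner_le_norm _ _).trans_eq (by rw [he, mul_one])
    have hwn : ‖w‖ ≤ 5 / 3 * ‖y - x‖ := by
      refine (norm_sub_le _ _).trans ?_
      rw [norm_smul, he, mul_one, Real.norm_of_nonneg (by positivity)]
      linarith
    have hwi : ⟪y - x, e⟫ / 3 ≤ ⟪w, e⟫ := by
      rw [hw, inner_sub_left (y - x), real_inner_smul_left, hee]
      linarith
    have hwc : ‖w‖ ^ 2 ≤ 2 * (9 / 2 * a) * ⟪w, e⟫ := by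
      refine (pow_le_pow_left₀ (norm_nonneg _) hwn 2).trans ?_
      have := mul_le_mul_of_nonneg_left hwi (show (0 : ℝ) ≤ a by linarith)
      nlinarith [mul_nonneg (show (0 : ℝ) ≤ a by linarith) (show 0 ≤ ⟪w, e⟫ by linarith)]
    have hs := seg_le (isPot_lad hε hp i) he (show (0 : ℝ) ≤ 9 / 2 * a by linarith) hwc
      (x + sh ε i • e)
    have e1 : x + sh ε i • e + w = y - sh ε i • e := by rw [hw]; module
    rw [e1] at hs
    simp only [hF, hG, neg_neg]
    refine hs.trans (le_of_eq ?_)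
    rw [← mul_assoc, ← ENNReal.ofReal_mul (by norm_num), midT]
    congr 1
    refine setLIntegral_congr_fun measurableSet_Ioc fun σ hσ => ?_
    have e2 : x + sh ε i • e + σ • w = (1 - σ) • x + σ • y + ((1 - 2 * σ) * sh ε i) • e := by
      rw [hw]; module
    have hmem : (1 - σ) • x + σ • y + ((1 - 2 * σ) * sh ε i) • e ∈ W := by
      refine hull σ hσ.1.le hσ.2 _ ?_
      rw [norm_smul, he, mul_one, Real.norm_eq_abs, abs_mul, abs_of_nonneg hs0]
      have : |1 - 2 * σ| ≤ 1 := abs_le.2 ⟨by linarith [hσ.2], by linarith [hσ.1]⟩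
      linarith [mul_le_of_le_one_left hs0 this]
    simp only [e2, cut, Set.indicator_of_mem hmem, gdef]
  have e0 : g x - g y = (F 0 - F i) + (G 0 - G i) + (F i - -G i) := by
    simp [hF, hG, lad, sh]; ring
  rw [e0]
  refine (ENNReal.ofReal_add_le.trans (add_le_add ENNReal.ofReal_add_le hmid)).trans ?_
  refine (add_le_add (add_le_add ((ofReal_tel_le F i).trans (Finset.sum_le_sum hup))
    ((ofReal_tel_le G i).trans (Finset.sum_le_sum hdown))) le_rfl).trans (le_of_eq ?_)
  rw [← Finset.sum_add_distrib, mul_add, Finset.mul_sum, add_comm]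
  exact congrArg _ (Finset.sum_congr rfl fun l _ => by ring)

/-- The integrated descent bound: all three translates of the substitution cost at most `A`. -/
private theorem core {ε : ℝ} (hε : 0 < ε) {g : EE d → ℝ} {v : EE d → EE d} (hp : IsPot g v)
    {e : EE d} (he : ‖e‖ = 1) {i : ℕ} {a : ℝ} (ha : rho ε i ≤ a) {W : Set (EE d)}
    (hW : MeasurableSet W) {Z : Type*} [MeasurableSpace Z] {μ : Measure Z} [SFinite μ]
    {P0 P1 : Z → EE d} (h0 : Measurable P0) (h1 : Measurable P1) {A : ℝ≥0∞}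
    (hA : ∀ σ : ℝ, 0 ≤ σ → σ ≤ 1 → ∀ (G : EE d → ℝ≥0∞), Measurable G → ∀ c : EE d,
      ∫⁻ z, G ((1 - σ) • P0 z + σ • P1 z + c) ∂μ ≤ A * ∫⁻ p, G p)
    (hgood : ∀ᵐ z ∂μ, 8 * rho ε i ≤ ⟪P1 z - P0 z, e⟫ ∧
      ‖P1 z - P0 z‖ ^ 2 ≤ a * ⟪P1 z - P0 z, e⟫ ∧
      ∀ s : ℝ, 0 ≤ s → s ≤ 1 → ∀ u : EE d, ‖u‖ ≤ 6 * rho ε i →
        (1 - s) • P0 z + s • P1 z + u ∈ W) :
    ∫⁻ z, ENNReal.ofReal (g (P0 z) - g (P1 z)) ∂μ ≤
      A * ENNReal.ofReal (20 * loss ε v e W i a) := by
  have hgm : ∀ l, Measurable (cut ε v e W l) := fun l =>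
    ((gdef_continuous_integrable hε hp.contv hp.intv e l).1.measurable.ennreal_ofReal).indicator hW
  set D : ℕ → ℝ := fun l => ∫ y in W, gdef ε v e l y with hD
  have hD0 : ∀ l, 0 ≤ D l := fun l => setIntegral_nonneg hW fun y _ => gdef_nonneg ε v he l y
  have hDe : ∀ l, ∫⁻ p, cut ε v e W l p = ENNReal.ofReal (D l) := fun l => by
    rw [cut, lintegral_indicator hW, hD, ofReal_integral_eq_lintegral_ofReal
      (gdef_continuous_integrable hε hp.contv hp.intv e l).2.integrableOn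
      (Eventually.of_forall fun y => gdef_nonneg ε v he l y)]
  have hA0 : ∀ (l : ℕ) (c : EE d), ∫⁻ z, cut ε v e W l (P0 z + c) ∂μ ≤ A * ENNReal.ofReal (D l) :=
    fun l c => by simpa [hDe] using hA 0 le_rfl zero_le_one _ (hgm l) c
  have hA1 : ∀ (l : ℕ) (c : EE d), ∫⁻ z, cut ε v e W l (P1 z + c) ∂μ ≤ A * ENNReal.ofReal (D l) :=
    fun l c => by simpa [hDe] using hA 1 zero_le_one le_rfl _ (hgm l) c
  have hTm : ∀ (l : ℕ) (P : Z → EE d), Measurable P → ∀ c : ℝ × EE d → EE d, Continuous c →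
      (∀ q, ∫⁻ z, cut ε v e W l (P z + c q) ∂μ ≤ A * ENNReal.ofReal (D l)) →
      Measurable (fun z => ENNReal.ofReal (volume.real (ball (0 : EE d) (rho ε (l + 1))))⁻¹ *
        ∫⁻ u in ball (0 : EE d) (rho ε (l + 1)), ∫⁻ σ in Ioc (0 : ℝ) 1,
          cut ε v e W l (P z + c (σ, u))) ∧
      ∫⁻ z, ENNReal.ofReal (volume.real (ball (0 : EE d) (rho ε (l + 1))))⁻¹ *
        (∫⁻ u in ball (0 : EE d) (rho ε (l + 1)), ∫⁻ σ in Ioc (0 : ℝ) 1,
          cut ε v e W l (P z + c (σ, u))) ∂μ ≤ A * ENNReal.ofReal (D l) := by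
    intro l P hP c hc hb
    have m1 : Measurable (fun q : (Z × EE d) × ℝ =>
        cut ε v e W l (P q.1.1 + c (q.2, q.1.2))) :=
      (hgm l).comp ((hP.comp (measurable_fst.comp measurable_fst)).add
        (hc.measurable.comp (measurable_snd.prodMk (measurable_snd.comp measurable_fst))))
    have m2 : Measurable (fun q : Z × EE d => ∫⁻ σ in Ioc (0 : ℝ) 1,
        cut ε v e W l (P q.1 + c (σ, q.2))) := m1.lintegral_prod_right'
    refine ⟨measurable_const.mul m2.lintegral_prod_right', ?_⟩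
    rw [lintegral_const_mul' _ _ ENNReal.ofReal_ne_top]
    refine (mul_le_mul_right (swap_le (μ := μ) (ν := volume.restrict (ball 0 (rho ε (l + 1))))
      (f := fun z u => ∫⁻ σ in Ioc (0 : ℝ) 1, cut ε v e W l (P z + c (σ, u)))
      (A := A * ENNReal.ofReal (D l))
      m2 (Eventually.of_forall fun u => (swap_le (ν := volume.restrict (Ioc (0 : ℝ) 1))
        (f := fun z σ => cut ε v e W l (P z + c (σ, u)))
        ((hgm l).comp ((hP.comp measurable_fst).add
          (hc.measurable.comp (measurable_snd.prodMk measurable_const))))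
        (Eventually.of_forall fun σ => hb (σ, u))).trans ?_)) _).trans ?_
    · simp
    · rw [Measure.restrict_apply_univ, ← ofReal_measureReal measure_ball_lt_top.ne, mul_left_comm,
        ← ENNReal.ofReal_mul (inv_nonneg.2 measureReal_nonneg),
        inv_mul_cancel₀ (vol_ball_pos (rho_pos hε (l + 1)) 0).ne', ENNReal.ofReal_one, mul_one]
  have hup : ∀ l, Measurable (fun z => upT ε v e W l (P0 z)) ∧
      ∫⁻ z, upT ε v e W l (P0 z) ∂μ ≤ A * ENNReal.ofReal (D l) := fun l =>
    hTm l P0 h0 (fun q => sh ε l • e + q.1 • ((2 * rho ε (l + 1)) • e + q.2)) (by fun_prop)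
      fun q => hA0 l _
  have hdown : ∀ l, Measurable (fun z => downT ε v e W l (P1 z)) ∧
      ∫⁻ z, downT ε v e W l (P1 z) ∂μ ≤ A * ENNReal.ofReal (D l) := fun l =>
    hTm l P1 h1 (fun q => -(sh ε l) • e + -(1 - q.1) • ((2 * rho ε (l + 1)) • e - q.2))
      (by fun_prop) fun q => hA1 l _
  have mm : Measurable (fun q : Z × ℝ => cut ε v e W i
      ((1 - q.2) • P0 q.1 + q.2 • P1 q.1 + ((1 - 2 * q.2) * sh ε i) • e)) :=
    (hgm i).comp (by fun_prop)
  have hmid : Measurable (fun z => midT ε v e W i (P0 z) (P1 z)) ∧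
      ∫⁻ z, midT ε v e W i (P0 z) (P1 z) ∂μ ≤ A * ENNReal.ofReal (D i) := by
    refine ⟨mm.lintegral_prod_right', ?_⟩
    refine (swap_le (ν := volume.restrict (Ioc (0 : ℝ) 1)) mm
      (A := A * ENNReal.ofReal (D i)) ?_).trans (by simp)
    filter_upwards [ae_restrict_mem measurableSet_Ioc] with σ hσ
    exact (hA σ hσ.1.le hσ.2 _ (hgm i) _).trans_eq (by rw [hDe])
  calc ∫⁻ z, ENNReal.ofReal (g (P0 z) - g (P1 z)) ∂μ
      ≤ ∫⁻ z, ENNReal.ofReal (9 / 2) * (ENNReal.ofReal a * midT ε v e W i (P0 z) (P1 z) +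
          ∑ l ∈ Finset.range i, ENNReal.ofReal (rho ε (l + 1)) *
            (upT ε v e W l (P0 z) + downT ε v e W l (P1 z))) ∂μ := by
        refine lintegral_mono_ae ?_
        filter_upwards [hgood] with z hz using point_le hε hp he ha hz.1 hz.2.1 hz.2.2
    _ ≤ ENNReal.ofReal (9 / 2) * (ENNReal.ofReal a * (A * ENNReal.ofReal (D i)) +
          ∑ l ∈ Finset.range i, ENNReal.ofReal (rho ε (l + 1)) *
            (A * ENNReal.ofReal (D l) + A * ENNReal.ofReal (D l))) := by
        rw [lintegral_const_mul' _ _ ENNReal.ofReal_ne_top,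
          lintegral_add_left (hmid.1.const_mul _)]
        rw [lintegral_const_mul' _ _ ENNReal.ofReal_ne_top, lintegral_finsetSum (s := Finset.range i)]
        · refine mul_le_mul_right (add_le_add (mul_le_mul_right hmid.2 _)
            (Finset.sum_le_sum fun l _ => ?_)) _
          rw [lintegral_const_mul' _ _ ENNReal.ofReal_ne_top, lintegral_add_left (hup l).1]
          exact mul_le_mul_right (add_le_add (hup l).2 (hdown l).2) _
        · exact fun l _ => measurable_const.mul ((hup l).1.add (hdown l).1)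
    _ = A * ENNReal.ofReal (9 / 2 * (a * D i + ∑ l ∈ Finset.range i,
          rho ε (l + 1) * (D l + D l))) := by
        have ha0 : 0 ≤ a := (rho_pos hε i).le.trans ha
        have hs : ∀ l, 0 ≤ rho ε (l + 1) * (D l + D l) := fun l =>
          mul_nonneg (rho_pos hε _).le (add_nonneg (hD0 l) (hD0 l))
        rw [ENNReal.ofReal_mul (by norm_num : (0 : ℝ) ≤ 9 / 2),
          ENNReal.ofReal_add (mul_nonneg ha0 (hD0 i)) (Finset.sum_nonneg fun l _ => hs l),
          ENNReal.ofReal_mul ha0, ENNReal.ofReal_sum_of_nonneg fun l _ => hs l]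
        simp only [mul_add, Finset.mul_sum]
        refine congrArg₂ _ (by ring) (Finset.sum_congr rfl fun l _ => ?_)
        rw [ENNReal.ofReal_add (mul_nonneg (rho_pos hε _).le (hD0 l))
          (mul_nonneg (rho_pos hε _).le (hD0 l)), ENNReal.ofReal_mul (rho_pos hε _).le]
        ring
    _ ≤ _ := by
        refine mul_le_mul_right (ENNReal.ofReal_le_ofReal ?_) _
        have ha0 : 0 ≤ a := (rho_pos hε i).le.trans ha
        have hsum : 0 ≤ ∑ l ∈ Finset.range i, rho ε (l + 1) * D l :=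
          Finset.sum_nonneg fun l _ => mul_nonneg (rho_pos hε _).le (hD0 l)
        have e : ∑ l ∈ Finset.range i, rho ε (l + 1) * (D l + D l) =
            2 * ∑ l ∈ Finset.range i, rho ε (l + 1) * D l := by
          rw [Finset.mul_sum]; exact Finset.sum_congr rfl fun l _ => by ring
        rw [e, loss]
        simp only [hD] at hsum ⊢
        linarith [mul_nonneg ha0 (hD0 i)]

private theorem loss_nonneg {ε : ℝ} (hε : 0 < ε) {v : EE d → EE d} {e : EE d} (he : ‖e‖ = 1)
    {W : Set (EE d)} (hW : MeasurableSet W) {i : ℕ} {a : ℝ} (ha : 0 ≤ a) :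
    0 ≤ loss ε v e W i a :=
  add_nonneg (mul_nonneg ha (setIntegral_nonneg hW fun y _ => gdef_nonneg ε v he i y))
    (Finset.sum_nonneg fun l _ => mul_nonneg (rho_pos hε _).le
      (setIntegral_nonneg hW fun y _ => gdef_nonneg ε v he l y))

private theorem ofReal_mul_le_of_le_one {k x : ℝ} (h0 : 0 ≤ k) (h1 : k ≤ 1) :
    ENNReal.ofReal (k * x) ≤ ENNReal.ofReal x := by
  rw [ENNReal.ofReal_mul h0]
  exact mul_le_of_le_one_left zero_le (ENNReal.ofReal_le_one.2 h1)

theorem pair_affine {ε : ℝ} (hε : 0 < ε) {g : EE d → ℝ} {v : EE d → EE d} (hp : IsPot g v)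
    {e : EE d} (he : ‖e‖ = 1) {i : ℕ} {a : ℝ} (ha : rho ε i ≤ a)
    {S W : Set (EE d)} (hS : MeasurableSet S) (hW : MeasurableSet W)
    {κ : EE d → ℝ} (hκ : Measurable κ) (hκ0 : ∀ z, 0 ≤ κ z) (hκ1 : ∀ z, κ z ≤ 1)
    {α0 β0 α1 β1 : ℝ} (hα0 : 1 ≤ α0) (hβ0 : 0 ≤ β0) (hα1 : 1 ≤ α1) (hβ1 : 0 ≤ β1)
    (b0 b1 : EE d)
    (hfwd : ∀ z ∈ S, 8 * rho ε i ≤ ⟪aff e α1 β1 b1 z - aff e α0 β0 b0 z, e⟫ ∧
      ‖aff e α1 β1 b1 z - aff e α0 β0 b0 z‖ ^ 2 ≤
        a * ⟪aff e α1 β1 b1 z - aff e α0 β0 b0 z, e⟫)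
    (hull : ∀ z ∈ S, ∀ s : ℝ, 0 ≤ s → s ≤ 1 → ∀ u : EE d, ‖u‖ ≤ 6 * rho ε i →
      (1 - s) • aff e α0 β0 b0 z + s • aff e α1 β1 b1 z + u ∈ W) :
    ∫ z in S, κ z * (g (aff e α0 β0 b0 z) - g (aff e α1 β1 b1 z)) ≤
      20 * loss ε v e W i a := by
  have hB : 0 ≤ 20 * loss ε v e W i a :=
    mul_nonneg (by norm_num) (loss_nonneg hε he hW ((rho_pos hε i).le.trans ha))
  refine integral_le_of_lintegral hB ?_
  refine (lintegral_mono fun z => ofReal_mul_le_of_le_one (hκ0 z) (hκ1 z)).trans ?_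
  refine (core hε hp he ha hW (A := 1) (measurable_aff e α0 β0 b0) (measurable_aff e α1 β1 b1)
    ?_ ?_).trans_eq (one_mul _)
  · intro σ hσ0 hσ1 G hG c
    rw [one_mul]
    have e1 : ∀ z, (1 - σ) • aff e α0 β0 b0 z + σ • aff e α1 β1 b1 z + c =
        aff e ((1 - σ) * α0 + σ * α1) ((1 - σ) * β0 + σ * β1)
          ((1 - σ) • b0 + σ • b1 + c) z := fun z => by
      simp only [aff]; module
    simp only [e1]
    have hα : 1 ≤ (1 - σ) * α0 + σ * α1 := by
      nlinarith [mul_nonneg (sub_nonneg.2 hσ1) (sub_nonneg.2 hα0),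
        mul_nonneg hσ0 (sub_nonneg.2 hα1)]
    refine (setLIntegral_le_lintegral S _).trans ((lintegral_aff_le he (by linarith)
      (add_nonneg (mul_nonneg (sub_nonneg.2 hσ1) hβ0) (mul_nonneg hσ0 hβ1)) _ hG).trans ?_)
    refine mul_le_of_le_one_left zero_le (ENNReal.ofReal_le_one.2 ?_)
    exact inv_le_one_of_one_le₀ (one_le_pow₀ hα)
  · filter_upwards [ae_restrict_mem hS] with z hz
    exact ⟨(hfwd z hz).1, (hfwd z hz).2, hull z hz⟩

/-- Substitution on a product of a set and a ball. -/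
private theorem prod_bound {e : EE d} (he : ‖e‖ = 1) {S : Set (EE d)} (hSf : volume S < ⊤)
    {α β : ℝ} (hα : 1 ≤ α) (hβ : 0 ≤ β) (b z1 : EE d) {r1 : ℝ} {σ : ℝ} (hσ0 : 0 ≤ σ)
    (hσ1 : σ ≤ 1) {G : EE d → ℝ≥0∞} (hG : Measurable G) (c : EE d) :
    ∫⁻ q, G ((1 - σ) • aff e α β b q.1 + σ • q.2 + c)
        ∂((volume.restrict S).prod (volume.restrict (ball z1 r1))) ≤
      ENNReal.ofReal (2 ^ d * (volume.real S + volume.real (ball z1 r1))) * ∫⁻ p, G p := by
  have : IsFiniteMeasure (volume.restrict S) := isFiniteMeasure_restrict.2 hSf.ne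
  have hS : ENNReal.ofReal (volume.real S) = volume S := ofReal_measureReal hSf.ne
  have hB : ENNReal.ofReal (volume.real (ball z1 r1)) = volume (ball z1 r1) :=
    ofReal_measureReal measure_ball_lt_top.ne
  have h2 : ∀ t : ℝ, 1 / 2 ≤ t → ENNReal.ofReal ((t ^ d)⁻¹) ≤ ENNReal.ofReal (2 ^ d) := fun t ht => by
    refine ENNReal.ofReal_le_ofReal ?_
    rw [← inv_pow]
    refine pow_le_pow_left₀ (inv_nonneg.2 (by linarith)) ?_ d
    exact (inv_anti₀ (by norm_num) ht).trans_eq (by norm_num)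
  have hm : Measurable fun q : EE d × EE d => G ((1 - σ) • aff e α β b q.1 + σ • q.2 + c) :=
    hG.comp (((((measurable_aff e α β b).comp measurable_fst).const_smul (1 - σ)).add
      (measurable_snd.const_smul σ)).add_const c)
  rw [mul_add, ENNReal.ofReal_add (by positivity) (by positivity),
    ENNReal.ofReal_mul (by positivity), ENNReal.ofReal_mul (by positivity), hS, hB, add_mul]
  rcases le_total σ (1 / 2) with h | h
  · refine le_trans ?_ le_add_self
    rw [lintegral_prod_symm _ hm.aemeasurable]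
    refine (lintegral_mono (g := fun _ => ENNReal.ofReal (2 ^ d) * ∫⁻ p, G p) fun u => ?_).trans_eq
      (by rw [lintegral_const, Measure.restrict_apply_univ]; ring)
    have e1 : ∀ z, (1 - σ) • aff e α β b z + σ • u + c =
        aff e ((1 - σ) * α) ((1 - σ) * β) ((1 - σ) • b + σ • u + c) z := fun z => by
      simp only [aff]; module
    simp only [e1]
    have hα' : 1 / 2 ≤ (1 - σ) * α := by nlinarith
    refine (setLIntegral_le_lintegral S _).trans ((lintegral_aff_le he (by linarith)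
      (mul_nonneg (by linarith) hβ) _ hG).trans ?_)
    exact mul_le_mul_left (h2 _ hα') _
  · refine le_trans ?_ le_self_add
    rw [lintegral_prod _ hm.aemeasurable]
    refine (lintegral_mono (g := fun _ => ENNReal.ofReal (2 ^ d) * ∫⁻ p, G p) fun z => ?_).trans_eq
      (by rw [lintegral_const, Measure.restrict_apply_univ]; ring)
    have e1 : ∀ u, (1 - σ) • aff e α β b z + σ • u + c =
        aff e σ 0 ((1 - σ) • aff e α β b z + c) u := fun u => by
      simp only [aff]; module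
    simp only [e1]
    refine (setLIntegral_le_lintegral _ _).trans ((lintegral_aff_le he (by linarith) le_rfl _ hG).trans ?_)
    exact mul_le_mul_left (h2 _ h) _

private theorem avg_finish {g : EE d → ℝ} (hg : Integrable g) {S : Set (EE d)} (z1 : EE d)
    {r1 : ℝ} (hr1 : 0 < r1) {κ : EE d → ℝ} (hκ0 : ∀ z, 0 ≤ κ z) (hκ1 : ∀ z, κ z ≤ 1)
    (s : ℝ) (P : EE d → EE d) (hP : Measurable P) (hgm : Measurable g) {B : ℝ} (hB : 0 ≤ B)
    (h : ∫⁻ q, ENNReal.ofReal (s * (g (P q.1) - g q.2))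
        ∂((volume.restrict S).prod (volume.restrict (ball z1 r1))) ≤
      ENNReal.ofReal (volume.real (ball z1 r1) * B)) :
    ∫ z in S, κ z * (s * (g (P z) - avg g z1 r1)) ≤ B := by
  have hV := vol_ball_pos hr1 z1
  have hm : Measurable fun q : EE d × EE d => ENNReal.ofReal (s * (g (P q.1) - g q.2)) :=
    (((hgm.comp (hP.comp measurable_fst)).sub (hgm.comp measurable_snd)).const_mul s).ennreal_ofReal
  rw [lintegral_prod _ hm.aemeasurable] at h
  refine integral_le_of_lintegral hB ((lintegral_mono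
    (g := fun z => ENNReal.ofReal (volume.real (ball z1 r1))⁻¹ *
      ∫⁻ u in ball z1 r1, ENNReal.ofReal (s * (g (P z) - g u))) fun z => ?_).trans ?_)
  · refine (ofReal_mul_le_of_le_one (hκ0 z) (hκ1 z)).trans ?_
    have e1 : s * (g (P z) - avg g z1 r1) = (volume.real (ball z1 r1))⁻¹ *
        ∫ u in ball z1 r1, s * (g (P z) - g u) := by
      rw [integral_const_mul, integral_sub (integrableOn_const (C := g (P z)) measure_ball_lt_top.ne)
        hg.integrableOn, setIntegral_const, smul_eq_mul, avg]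
      field_simp
    rw [e1, ENNReal.ofReal_mul (inv_nonneg.2 hV.le)]
    exact mul_le_mul_right (ofReal_integral_le_lintegral _ _) _
  · rw [lintegral_const_mul' _ _ ENNReal.ofReal_ne_top]
    refine (mul_le_mul_right h _).trans_eq ?_
    rw [← ENNReal.ofReal_mul (inv_nonneg.2 hV.le), inv_mul_cancel_left₀ hV.ne']

theorem pair_avg {ε : ℝ} (hε : 0 < ε) {g : EE d → ℝ} {v : EE d → EE d} (hp : IsPot g v)
    {e : EE d} (he : ‖e‖ = 1) {i : ℕ} {a : ℝ} (ha : rho ε i ≤ a)
    {S W : Set (EE d)} (hS : MeasurableSet S) (hSf : volume S < ⊤) (hW : MeasurableSet W)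
    {κ : EE d → ℝ} (hκ : Measurable κ) (hκ0 : ∀ z, 0 ≤ κ z) (hκ1 : ∀ z, κ z ≤ 1)
    {α β : ℝ} (hα : 1 ≤ α) (hβ : 0 ≤ β) (b z1 : EE d) {r1 : ℝ} (hr1 : 0 < r1)
    (hfwd : ∀ z ∈ S, ∀ u ∈ ball z1 r1, 8 * rho ε i ≤ ⟪u - aff e α β b z, e⟫ ∧
      ‖u - aff e α β b z‖ ^ 2 ≤ a * ⟪u - aff e α β b z, e⟫)
    (hull : ∀ z ∈ S, ∀ x ∈ ball z1 r1, ∀ s : ℝ, 0 ≤ s → s ≤ 1 → ∀ u : EE d,
      ‖u‖ ≤ 6 * rho ε i → (1 - s) • aff e α β b z + s • x + u ∈ W) :
    ∫ z in S, κ z * (g (aff e α β b z) - avg g z1 r1) ≤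
      20 * 2 ^ d * (1 + volume.real S / volume.real (ball z1 r1)) * loss ε v e W i a := by
  have hV := vol_ball_pos hr1 z1
  have : IsFiniteMeasure (volume.restrict S) := isFiniteMeasure_restrict.2 hSf.ne
  have hL := loss_nonneg hε (v := v) he hW (i := i) ((rho_pos hε i).le.trans ha)
  have hA : 0 ≤ 2 ^ d * (volume.real S + volume.real (ball z1 r1)) := by positivity
  have eB : volume.real (ball z1 r1) *
      (20 * 2 ^ d * (1 + volume.real S / volume.real (ball z1 r1)) * loss ε v e W i a) =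
      2 ^ d * (volume.real S + volume.real (ball z1 r1)) * (20 * loss ε v e W i a) := by
    field_simp; ring
  have h := avg_finish (S := S) hp.int z1 hr1 hκ0 hκ1 1 (aff e α β b) (measurable_aff e α β b)
    hp.cont.measurable
    (B := 20 * 2 ^ d * (1 + volume.real S / volume.real (ball z1 r1)) * loss ε v e W i a)
    (by positivity) ?_
  · simpa only [one_mul] using h
  simp only [one_mul]
  rw [eB, ENNReal.ofReal_mul hA]
  refine core hε hp he ha hW ((measurable_aff e α β b).comp measurable_fst) measurable_snd ?_ ?_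
  · exact fun σ h0 h1 G hG c => prod_bound he hSf hα hβ b z1 h0 h1 hG c
  · simp only [Function.comp_apply]
    rw [Measure.prod_restrict]
    filter_upwards [ae_restrict_mem (hS.prod measurableSet_ball)] with q hq
    exact ⟨(hfwd q.1 hq.1 q.2 hq.2).1, (hfwd q.1 hq.1 q.2 hq.2).2, hull q.1 hq.1 q.2 hq.2⟩

theorem avg_pair {ε : ℝ} (hε : 0 < ε) {g : EE d → ℝ} {v : EE d → EE d} (hp : IsPot g v)
    {e : EE d} (he : ‖e‖ = 1) {i : ℕ} {a : ℝ} (ha : rho ε i ≤ a)
    {S W : Set (EE d)} (hS : MeasurableSet S) (hSf : volume S < ⊤) (hW : MeasurableSet W)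
    {κ : EE d → ℝ} (hκ : Measurable κ) (hκ0 : ∀ z, 0 ≤ κ z) (hκ1 : ∀ z, κ z ≤ 1)
    {α β : ℝ} (hα : 1 ≤ α) (hβ : 0 ≤ β) (b z1 : EE d) {r1 : ℝ} (hr1 : 0 < r1)
    (hfwd : ∀ z ∈ S, ∀ u ∈ ball z1 r1, 8 * rho ε i ≤ ⟪aff e α β b z - u, e⟫ ∧
      ‖aff e α β b z - u‖ ^ 2 ≤ a * ⟪aff e α β b z - u, e⟫)
    (hull : ∀ z ∈ S, ∀ x ∈ ball z1 r1, ∀ s : ℝ, 0 ≤ s → s ≤ 1 → ∀ u : EE d,
      ‖u‖ ≤ 6 * rho ε i → (1 - s) • x + s • aff e α β b z + u ∈ W) :
    ∫ z in S, κ z * (avg g z1 r1 - g (aff e α β b z)) ≤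
      20 * 2 ^ d * (1 + volume.real S / volume.real (ball z1 r1)) * loss ε v e W i a := by
  have hV := vol_ball_pos hr1 z1
  have : IsFiniteMeasure (volume.restrict S) := isFiniteMeasure_restrict.2 hSf.ne
  have hL := loss_nonneg hε (v := v) he hW (i := i) ((rho_pos hε i).le.trans ha)
  have hA : 0 ≤ 2 ^ d * (volume.real S + volume.real (ball z1 r1)) := by positivity
  have eB : volume.real (ball z1 r1) *
      (20 * 2 ^ d * (1 + volume.real S / volume.real (ball z1 r1)) * loss ε v e W i a) =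
      2 ^ d * (volume.real S + volume.real (ball z1 r1)) * (20 * loss ε v e W i a) := by
    field_simp; ring
  have h := avg_finish (S := S) hp.int z1 hr1 hκ0 hκ1 (-1) (aff e α β b) (measurable_aff e α β b)
    hp.cont.measurable
    (B := 20 * 2 ^ d * (1 + volume.real S / volume.real (ball z1 r1)) * loss ε v e W i a)
    (by positivity) ?_
  · simpa only [neg_mul, one_mul, neg_sub] using h
  simp only [neg_mul, one_mul, neg_sub]
  rw [eB, ENNReal.ofReal_mul hA]
  refine core hε hp he ha hW measurable_snd ((measurable_aff e α β b).comp measurable_fst) ?_ ?_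
  · intro σ h0 h1 G hG c
    have h := prod_bound he hSf hα hβ b z1 (r1 := r1) (σ := 1 - σ) (by linarith) (by linarith) hG c
    refine le_trans (le_of_eq (lintegral_congr fun q => ?_)) h
    simp only [Function.comp_apply, sub_sub_cancel]
    rw [add_comm ((1 - σ) • q.2)]
  · simp only [Function.comp_apply]
    rw [Measure.prod_restrict]
    filter_upwards [ae_restrict_mem (hS.prod measurableSet_ball)] with q hq
    exact ⟨(hfwd q.1 hq.1 q.2 hq.2).1, (hfwd q.1 hq.1 q.2 hq.2).2, hull q.1 hq.1 q.2 hq.2⟩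

end Vale.Agent.P137
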