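import Vale.Agent.P137.Ladder

/-!
Volume lemmas for the covering.

Proof notes.  `volume_add_mul`: for `x = a + b` the set of `u ∈ A + S` with `x - u ∈ B + S`
contains the translate `a + S`; Fubini.  `union_balls_shift`: split the centres by a grid of cells
of diameter at most `ρ/4` meeting `A` (each inside `A + ball 0 (2ρ)`); for the piece `V` of a cell
with `p` in it, and `ε' = 4 ‖h‖/ρ ≤ 1`, `V` minus its preimage by the translation lies in `V`
minus its image under the homothety of centre `p` and ratio `1 - ε'`.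
`volume_win`: the window contains the image of a ball under one of the affine maps.
-/

namespace Vale.Agent.P137

open MeasureTheory Metric Filter Topology Set
open scoped ENNReal RealInnerProductSpace Pointwise

variable {d : ℕ}

theorem volume_add_mul {A B S : Set (EE d)} (hS : IsOpen S) (hSs : ∀ x ∈ S, -x ∈ S) :
    volume (A + B) * volume S ≤ volume (A + S) * volume (B + S) := by
  have hA : MeasurableSet (A + S) := hS.add_left.measurableSet
  have hB : MeasurableSet (B + S) := hS.add_left.measurableSet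
  set F : EE d → EE d → ℝ≥0∞ := fun x u =>
    (A + S).indicator (fun _ => 1) u * (B + S).indicator (fun _ => 1) (x - u) with hF
  have hFm : Measurable (Function.uncurry F) :=
    ((measurable_const.indicator hA).comp measurable_snd).mul
      ((measurable_const.indicator hB).comp (measurable_fst.sub measurable_snd))
  have hH : Measurable fun x => ∫⁻ u, F x u := hFm.lintegral_prod_right'
  have hge : A + B ⊆ {x | volume S ≤ ∫⁻ u, F x u} := by
    rintro x ⟨a, ha, b, hb, rfl⟩
    have hsub : (fun u => u - a) ⁻¹' S ⊆ {u | F (a + b) u = 1} := by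
      intro u hu
      have h1 : u ∈ A + S := ⟨a, ha, u - a, hu, add_sub_cancel a u⟩
      have h2 : a + b - u ∈ B + S :=
        ⟨b, hb, -(u - a), hSs _ hu, show b + -(u - a) = a + b - u by abel⟩
      simp [hF, h1, h2]
    show volume S ≤ ∫⁻ u, F (a + b) u
    have hmp : MeasurableSet ((fun u => u - a) ⁻¹' S) :=
      hS.measurableSet.preimage (measurable_id.sub_const a)
    calc volume S = volume ((fun u => u - a) ⁻¹' S) := by
          simp only [sub_eq_add_neg, measure_preimage_add_right]
      _ = ∫⁻ u, ((fun u => u - a) ⁻¹' S).indicator 1 u := (lintegral_indicator_one hmp).symm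
      _ ≤ _ := lintegral_mono fun u => by
          by_cases h : u ∈ (fun u => u - a) ⁻¹' S
          · rw [indicator_of_mem h, show F (a + b) u = 1 from hsub h]; exact le_rfl
          · simp [indicator_of_notMem h]
  calc volume (A + B) * volume S ≤ volume {x | volume S ≤ ∫⁻ u, F x u} * volume S := by gcongr
    _ = volume S * volume {x | volume S ≤ ∫⁻ u, F x u} := mul_comm _ _
    _ ≤ ∫⁻ x, ∫⁻ u, F x u := mul_meas_ge_le_lintegral hH _
    _ = ∫⁻ u, ∫⁻ x, F x u := lintegral_lintegral_swap hFm.aemeasurable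
    _ = ∫⁻ u, (A + S).indicator (fun _ => 1) u * volume (B + S) := by
        refine lintegral_congr fun u => ?_
        simp only [hF]
        have hm : Measurable fun x : EE d => (B + S).indicator (fun _ => (1 : ℝ≥0∞)) (x - u) :=
          (measurable_const.indicator hB).comp (measurable_id.sub_const u)
        rw [lintegral_const_mul _ hm,
          lintegral_sub_right_eq_self (fun x => (B + S).indicator (fun _ => (1 : ℝ≥0∞)) x) u,
          lintegral_indicator_const hB, one_mul]
    _ = volume (A + S) * volume (B + S) := by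
        rw [lintegral_mul_const _ (measurable_const.indicator hA), lintegral_indicator_const hA,
          one_mul]

/-- A star-shaped union of balls loses little under a translation. -/
private theorem star_balls_shift {ρ : ℝ} (hρ : 0 < ρ) {A : Set (EE d)} {p h : EE d}
    (hA : ∀ a ∈ A, dist a p ≤ ρ / 4) (hh : 4 * ‖h‖ < ρ) :
    volume ((⋃ a ∈ A, ball a ρ) \ {x | x + h ∈ ⋃ a ∈ A, ball a ρ}) ≤
      ENNReal.ofReal (4 * (d : ℝ) * ‖h‖ / ρ) * volume (ball p (2 * ρ)) := by
  set V := ⋃ a ∈ A, ball a ρ with hV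
  set ε : ℝ := 4 * ‖h‖ / ρ with hε
  have hε0 : 0 ≤ ε := by positivity
  have hε1 : ε < 1 := (div_lt_one hρ).2 hh
  have hVo : IsOpen V := isOpen_biUnion fun a _ => isOpen_ball
  have hVb : V ⊆ ball p (2 * ρ) := iUnion₂_subset fun a ha =>
    ball_subset_ball' (by linarith [hA a ha])
  set f := AffineMap.homothety p (1 - ε) with hf
  have key : ∀ z ∈ V, ∃ a ∈ A, dist (f z) a < ρ - ε * ρ / 2 := by
    intro z hz
    obtain ⟨a, ha, hza⟩ := mem_iUnion₂.1 hz
    refine ⟨a, ha, ?_⟩
    rw [mem_ball, dist_eq_norm] at hza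
    have hpa : ‖p - a‖ ≤ ρ / 4 := by rw [← dist_eq_norm, dist_comm]; exact hA a ha
    have e : f z - a = (1 - ε) • (z - a) + ε • (p - a) := by
      simp only [hf, AffineMap.homothety_apply, vsub_eq_sub, vadd_eq_add]
      module
    rw [dist_eq_norm, e]
    refine (norm_add_le _ _).trans_lt ?_
    rw [norm_smul, norm_smul, Real.norm_of_nonneg hε0, Real.norm_of_nonneg (by linarith)]
    have h1 := mul_lt_mul_of_pos_left hza (show (0 : ℝ) < 1 - ε by linarith)
    have h2 := mul_le_mul_of_nonneg_left hpa hε0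
    have h3 : 0 ≤ ε * ρ := by positivity
    linarith
  have hsubV : f '' V ⊆ V := by
    rintro _ ⟨z, hz, rfl⟩
    obtain ⟨a, ha, hd⟩ := key z hz
    have : 0 ≤ ε * ρ := by positivity
    exact mem_iUnion₂.2 ⟨a, ha, by rw [mem_ball]; linarith⟩
  have hsubh : f '' V ⊆ {x | x + h ∈ V} := by
    rintro _ ⟨z, hz, rfl⟩
    obtain ⟨a, ha, hd⟩ := key z hz
    refine mem_iUnion₂.2 ⟨a, ha, ?_⟩
    have e : ε * ρ = 4 * ‖h‖ := by rw [hε]; field_simp
    have h1 := dist_triangle (f z + h) (f z) a
    rw [dist_self_add_left] at h1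
    have : 0 ≤ ‖h‖ := norm_nonneg h
    rw [mem_ball]
    linarith
  have hvol : volume (f '' V) = ENNReal.ofReal ((1 - ε) ^ d) * volume V := by
    rw [hf, Measure.addHaar_image_homothety, finrank_euclideanSpace_fin,
      abs_of_nonneg (pow_nonneg (by linarith) _)]
  have hfin : volume V ≠ ⊤ := ((measure_mono hVb).trans_lt measure_ball_lt_top).ne
  have hmeas : MeasurableSet (f '' V) := by
    have hinv : f '' V = AffineMap.homothety p (1 - ε)⁻¹ ⁻¹' V := by
      have hne : (1 - ε) ≠ 0 := by linarith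
      ext y
      simp only [mem_image, mem_preimage, hf, AffineMap.homothety_apply, vsub_eq_sub, vadd_eq_add]
      constructor
      · rintro ⟨z, hz, rfl⟩
        simpa [smul_smul, hne] using hz
      · intro hy
        exact ⟨_, hy, by simp [smul_smul, hne]⟩
    rw [hinv]
    exact (hVo.preimage (AffineMap.homothety_continuous p _)).measurableSet
  calc volume (V \ {x | x + h ∈ V}) ≤ volume (V \ f '' V) :=
        measure_mono (sdiff_subset_sdiff_right hsubh)
    _ = volume V - volume (f '' V) := measure_sdiff hsubV hmeas.nullMeasurableSet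
        ((measure_mono hsubV).trans_lt hfin.lt_top).ne
    _ ≤ ENNReal.ofReal ((d : ℝ) * ε) * volume V := by
        rw [hvol]
        refine tsub_le_iff_right.2 ?_
        rw [← add_mul, ← ENNReal.ofReal_add (by positivity) (pow_nonneg (by linarith) _)]
        refine le_mul_of_one_le_left zero_le (ENNReal.one_le_ofReal.2 ?_)
        have := one_add_mul_le_pow (a := -ε) (by linarith) d
        rw [← sub_eq_add_neg] at this
        linarith
    _ ≤ ENNReal.ofReal (4 * (d : ℝ) * ‖h‖ / ρ) * volume (ball p (2 * ρ)) := by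
        gcongr
        rw [hε]
        exact le_of_eq (by ring)

theorem union_balls_shift (d : ℕ) : ∃ C : ℝ≥0∞, C ≠ ⊤ ∧ ∀ (ρ : ℝ), 0 < ρ →
    ∀ (A : Set (EE d)) (h : EE d),
      volume ((⋃ a ∈ A, ball a ρ) \ {x | x + h ∈ ⋃ a ∈ A, ball a ρ}) ≤
        C * ENNReal.ofReal (‖h‖ / ρ) * volume (A + ball 0 (2 * ρ)) := by
  refine ⟨ENNReal.ofReal (4 * ((d : ℝ) * 16 ^ d + 1)), ENNReal.ofReal_ne_top, fun ρ hρ A h => ?_⟩
  rw [← ENNReal.ofReal_mul (by positivity)]
  rcases le_or_gt ρ (4 * ‖h‖) with hbig | hsmall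
  · refine (measure_mono (sdiff_subset.trans (iUnion₂_subset fun a ha x hx => ?_))).trans
      (le_mul_of_one_le_left zero_le (ENNReal.one_le_ofReal.2 ?_))
    · refine ⟨a, ha, x - a, ?_, add_sub_cancel a x⟩
      rw [mem_ball_zero_iff]
      rw [mem_ball, dist_eq_norm] at hx
      linarith
    · rw [mul_div_assoc', one_le_div hρ]
      have : 0 ≤ (d : ℝ) * 16 ^ d * ‖h‖ := by positivity
      nlinarith
  -- a maximal separated set of centres
  obtain ⟨P, hP⟩ := zorn_subset {P : Set (EE d) | P ⊆ A ∧ P.Pairwise fun x y => ρ / 4 ≤ dist x y}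
    fun c hc hchain => ⟨⋃₀ c, ⟨sUnion_subset fun s hs => (hc hs).1,
      (pairwise_sUnion hchain.directedOn).2 fun s hs => (hc hs).2⟩,
      fun s hs => subset_sUnion_of_mem hs⟩
  obtain ⟨⟨hPA, hPsep⟩, hPmax⟩ := hP
  have hnear : ∀ a ∈ A, ∃ p ∈ P, dist a p < ρ / 4 := by
    intro a ha
    by_contra hne
    push Not at hne
    have hmem : insert a P ∈ {P : Set (EE d) | P ⊆ A ∧ P.Pairwise fun x y => ρ / 4 ≤ dist x y} :=
      ⟨insert_subset ha hPA, pairwise_insert.2
        ⟨hPsep, fun b hb _ => ⟨hne b hb, by rw [dist_comm]; exact hne b hb⟩⟩⟩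
    have := hne a (hPmax hmem (subset_insert a P) (mem_insert a P))
    rw [dist_self] at this
    linarith
  have hdisj : P.PairwiseDisjoint fun p => ball p (ρ / 8) := fun p hp q hq hpq =>
    ball_disjoint_ball (by linarith [hPsep hp hq hpq])
  have hcount : P.Countable :=
    hdisj.countable_of_isOpen (fun p _ => isOpen_ball) fun p _ => ⟨p, mem_ball_self (by linarith)⟩
  let AP : EE d → Set (EE d) := fun p => {a ∈ A | dist a p < ρ / 4}
  have hsub : (⋃ a ∈ A, ball a ρ) \ {x | x + h ∈ ⋃ a ∈ A, ball a ρ} ⊆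
      ⋃ p ∈ P, (⋃ a ∈ AP p, ball a ρ) \ {x | x + h ∈ ⋃ a ∈ AP p, ball a ρ} := by
    rintro x ⟨hx, hxh⟩
    obtain ⟨a, ha, hxa⟩ := mem_iUnion₂.1 hx
    obtain ⟨p, hp, hap⟩ := hnear a ha
    refine mem_iUnion₂.2 ⟨p, hp, mem_iUnion₂.2 ⟨a, ⟨ha, hap⟩, hxa⟩, fun hc => hxh ?_⟩
    obtain ⟨a', ha', hxa'⟩ := mem_iUnion₂.1 hc
    exact mem_iUnion₂.2 ⟨a', ha'.1, hxa'⟩
  have : Countable P := hcount.to_subtype
  refine (measure_mono hsub).trans ((measure_biUnion_le volume hcount _).trans ?_)
  calc ∑' p : P, volume ((⋃ a ∈ AP p, ball a ρ) \ {x | x + h ∈ ⋃ a ∈ AP p, ball a ρ})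
      ≤ ∑' p : P, ENNReal.ofReal (4 * ((d : ℝ) * 16 ^ d + 1) * (‖h‖ / ρ)) *
          volume (ball (p : EE d) (ρ / 8)) := by
        refine ENNReal.tsum_le_tsum fun p => ?_
        refine (star_balls_shift hρ (fun a ha => ha.2.le) hsmall).trans ?_
        rw [show 2 * ρ = 16 * (ρ / 8) by ring, Measure.addHaar_ball_mul_of_pos volume _ (by norm_num),
          Measure.addHaar_ball_center volume (p : EE d) (ρ / 8), ← mul_assoc,
          finrank_euclideanSpace_fin, ← ENNReal.ofReal_mul (by positivity)]
        refine mul_le_mul' (ENNReal.ofReal_le_ofReal ?_) le_rfl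
        have : 0 ≤ ‖h‖ / ρ := by positivity
        rw [mul_div_assoc]
        linarith
    _ = ENNReal.ofReal (4 * ((d : ℝ) * 16 ^ d + 1) * (‖h‖ / ρ)) *
          volume (⋃ p ∈ P, ball p (ρ / 8)) := by
        rw [ENNReal.tsum_mul_left, measure_biUnion hcount hdisj fun p _ => measurableSet_ball]
    _ ≤ _ := by
        gcongr
        refine iUnion₂_subset fun p hp x hx => ⟨p, hPA hp, x - p, ?_, add_sub_cancel p x⟩
        rw [mem_ball_zero_iff]
        rw [mem_ball, dist_eq_norm] at hx
        linarith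

/-- The open window. -/
def owin (e : EE d) (a b : ℝ) : Set (EE d) := {y | ‖y‖ < a ∧ |⟪y, e⟫| < b}

theorem owin_spec {e : EE d} (he : ‖e‖ = 1) {a b : ℝ} :
    IsOpen (owin e a b) ∧ (∀ x ∈ owin e a b, -x ∈ owin e a b) := by
  constructor
  · exact (isOpen_lt (f := fun y : EE d => ‖y‖) (by fun_prop) continuous_const).inter
      (isOpen_lt (f := fun y : EE d => |⟪y, e⟫|) (by fun_prop) continuous_const)
  · intro x hx
    simpa [owin, inner_neg_left] using hx

/-- An orthonormal basis starting with a given unit vector. -/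
theorem exists_basis_fst (hd : 1 ≤ d) {e : EE d} (he : ‖e‖ = 1) :
    ∃ B : OrthonormalBasis (Fin d) ℝ (EE d), B ⟨0, hd⟩ = e := by
  have hv : Orthonormal ℝ (({⟨0, hd⟩} : Set (Fin d)).domRestrict fun _ => e) :=
    ⟨fun i => he, fun i j hij => absurd (Subtype.ext (i.2.trans j.2.symm)) hij⟩
  obtain ⟨B, hB⟩ := Orthonormal.exists_orthonormalBasis_extension_of_card_eq
    (ι := Fin d) (by simp) (v := fun _ => e) (s := {⟨0, hd⟩}) hv
  exact ⟨B, hB _ rfl⟩

/-- The volume of a box in the coordinates of an orthonormal basis. -/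
theorem volume_box (B : OrthonormalBasis (Fin d) ℝ (EE d)) (s : Fin d → Set ℝ)
    (hs : ∀ i, MeasurableSet (s i)) :
    volume {y : EE d | ∀ i, ⟪y, B i⟫ ∈ s i} = ∏ i, volume (s i) := by
  have h1 : MeasurePreserving (fun y : EE d => WithLp.ofLp (B.repr y)) volume volume :=
    (PiLp.volume_preserving_ofLp (Fin d)).comp B.measurePreserving_repr
  rw [← volume_pi_pi, ← h1.measure_preimage (MeasurableSet.univ_pi hs).nullMeasurableSet]
  congr 1
  ext y
  simp [mem_preimage, B.repr_apply_apply, real_inner_comm]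

private theorem prod_fst (hd : 1 ≤ d) (u v : ℝ) :
    ∏ i : Fin d, (if i = ⟨0, hd⟩ then u else v) = v ^ (d - 1) * u := by
  rw [← Finset.mul_prod_erase Finset.univ _ (Finset.mem_univ (⟨0, hd⟩ : Fin d)), if_pos rfl,
    Finset.prod_congr rfl fun i hi => if_neg (Finset.ne_of_mem_erase hi), Finset.prod_const,
    Finset.card_erase_of_mem (Finset.mem_univ _), Finset.card_univ, Fintype.card_fin, mul_comm]

theorem volume_owin (hd : 1 ≤ d) : ∃ c : ℝ, 0 < c ∧ ∀ (e : EE d), ‖e‖ = 1 →
    ∀ a b : ℝ, 0 < b → b ≤ a → ENNReal.ofReal (c * (a ^ (d - 1) * b)) ≤ volume (owin e a b) := by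
  have hd0 : (0 : ℝ) < d := by exact_mod_cast hd
  refine ⟨(2 / (d : ℝ)) ^ d, by positivity, fun e he a b hb hba => ?_⟩
  obtain ⟨B, hB⟩ := exists_basis_fst hd he
  let w : Fin d → ℝ := fun i => if i = ⟨0, hd⟩ then b / d else a / d
  have hw : ∀ i, w i ≤ a / d := fun i => by
    simp only [w]; split
    · gcongr
    · exact le_rfl
  have hsub : {y : EE d | ∀ i, ⟪y, B i⟫ ∈ Ioo (-w i) (w i)} ⊆ owin e a b := by
    intro y hy
    constructor
    · have : Nonempty (Fin d) := ⟨⟨0, hd⟩⟩
      calc ‖y‖ = ‖∑ i, ⟪B i, y⟫ • B i‖ := by rw [B.sum_repr' y]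
        _ ≤ ∑ i, ‖⟪B i, y⟫ • B i‖ := norm_sum_le _ _
        _ < ∑ _i : Fin d, a / d := Finset.sum_lt_sum_of_nonempty Finset.univ_nonempty fun i _ => by
            rw [norm_smul, B.orthonormal.1 i, mul_one, Real.norm_eq_abs, real_inner_comm]
            exact lt_of_lt_of_le (abs_lt.2 (hy i)) (hw i)
        _ = a := by simp; field_simp
    · have h := abs_lt.2 (hy ⟨0, hd⟩)
      simp only [w, if_true, hB] at h
      refine h.trans_le (div_le_self hb.le ?_)
      exact_mod_cast hd
  refine le_trans (le_of_eq ?_) (measure_mono hsub)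
  rw [volume_box B _ fun i => measurableSet_Ioo]
  have h2 : ∀ i, volume (Ioo (-w i) (w i))
      = ENNReal.ofReal (2 * if i = (⟨0, hd⟩ : Fin d) then b / d else a / d) := fun i => by
    rw [Real.volume_Ioo]; congr 1; simp only [w]; ring
  rw [Finset.prod_congr rfl fun i _ => h2 i,
    ← ENNReal.ofReal_prod_of_nonneg fun i _ => by
      have : 0 < a := hb.trans_le hba
      split <;> positivity,
    Finset.prod_mul_distrib, prod_fst hd, Finset.prod_const, Finset.card_univ, Fintype.card_fin]
  congr 1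
  obtain ⟨k, rfl⟩ : ∃ k, d = k + 1 := ⟨d - 1, by omega⟩
  simp only [Nat.add_sub_cancel, div_pow, pow_succ]
  field_simp

theorem volume_win_le (hd : 1 ≤ d) : ∃ C : ℝ, 0 < C ∧ ∀ (e q : EE d), ‖e‖ = 1 →
    ∀ a b : ℝ, 0 < b → b ≤ a → volume (win e q a b) ≤ ENNReal.ofReal (C * (a ^ (d - 1) * b)) := by
  refine ⟨2 ^ d, by positivity, fun e q he a b hb hba => ?_⟩
  obtain ⟨B, hB⟩ := exists_basis_fst hd he
  let w : Fin d → ℝ := fun i => if i = ⟨0, hd⟩ then b else a
  have hsub : win e q a b ⊆ (fun y => y - q) ⁻¹' {y : EE d | ∀ i, ⟪y, B i⟫ ∈ Icc (-w i) (w i)} := by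
    intro y hy i
    refine abs_le.1 ?_
    by_cases hi : i = ⟨0, hd⟩
    · simp only [w, hi, if_true, hB]; exact hy.2
    · simp only [w, if_neg hi]
      refine (abs_real_inner_le_norm _ _).trans ?_
      rw [B.orthonormal.1 i, mul_one]; exact hy.1
  refine (measure_mono hsub).trans (le_of_eq ?_)
  simp only [sub_eq_add_neg, measure_preimage_add_right]
  rw [volume_box B _ fun i => measurableSet_Icc]
  have h2 : ∀ i, volume (Icc (-w i) (w i))
      = ENNReal.ofReal (2 * if i = (⟨0, hd⟩ : Fin d) then b else a) := fun i => by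
    rw [Real.volume_Icc]; congr 1; simp only [w]; ring
  rw [Finset.prod_congr rfl fun i _ => h2 i,
    ← ENNReal.ofReal_prod_of_nonneg fun i _ => by
      have : 0 < a := hb.trans_le hba
      split <;> positivity,
    Finset.prod_mul_distrib, prod_fst hd, Finset.prod_const, Finset.card_univ, Fintype.card_fin]

theorem lintegral_markov {c κ : ℝ} (hκ : 0 < κ) {T : Set (EE d)} (hT : MeasurableSet T)
    {L : EE d → ℝ} (hL : Measurable L) :
    ∫⁻ t : ℝ, volume {q ∈ T | κ * |t - c| ≤ L q} ≤
      ENNReal.ofReal (2 / κ) * ∫⁻ q in T, ENNReal.ofReal (L q) := by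
  set E : Set (ℝ × EE d) := {z | z.2 ∈ T ∧ κ * |z.1 - c| ≤ L z.2} with hE
  have hEm : MeasurableSet E :=
    (hT.preimage measurable_snd).inter (measurableSet_le
      (((measurable_fst.sub_const c).abs).const_mul κ) (hL.comp measurable_snd))
  have hpt : ∀ q, ∫⁻ t : ℝ, E.indicator 1 (t, q) ≤
      T.indicator (fun q => ENNReal.ofReal (2 / κ) * ENNReal.ofReal (L q)) q := by
    intro q
    by_cases hq : q ∈ T
    · have hm : MeasurableSet ((fun t : ℝ => (t, q)) ⁻¹' E) :=
        hEm.preimage (measurable_id.prodMk measurable_const)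
      rw [indicator_of_mem hq]
      refine le_trans (le_of_eq (lintegral_indicator_one hm)) ?_
      refine (measure_mono (t := Icc (c - L q / κ) (c + L q / κ)) ?_).trans ?_
      · intro t ht
        have h := ht.2
        rw [mul_comm, ← le_div_iff₀ hκ] at h
        have h' := abs_le.1 h
        constructor <;> linarith [h'.1, h'.2]
      · rw [Real.volume_Icc, ← ENNReal.ofReal_mul (by positivity)]
        exact le_of_eq (by congr 1; ring)
    · rw [indicator_of_notMem hq]
      refine le_of_eq ((lintegral_congr fun t => ?_).trans lintegral_zero)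
      exact indicator_of_notMem (fun h => hq h.1) _
  have hslice : ∀ t : ℝ, volume {q ∈ T | κ * |t - c| ≤ L q} = ∫⁻ q, E.indicator 1 (t, q) :=
    fun t => (lintegral_indicator_one (hEm.preimage measurable_prodMk_left)).symm
  rw [lintegral_congr hslice,
    lintegral_lintegral_swap (f := fun (t : ℝ) (q : EE d) => E.indicator (1 : ℝ × EE d → ℝ≥0∞) (t, q))
      (measurable_one.indicator hEm).aemeasurable]
  refine (lintegral_mono hpt).trans (le_of_eq ?_)
  rw [lintegral_indicator hT, lintegral_const_mul _ hL.ennreal_ofReal]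

theorem lintegral_win {e p : EE d} {A a b : ℝ} {G : EE d → ℝ≥0∞} (hG : Measurable G) :
    ∫⁻ q in ball p A, ∫⁻ y in win e q a b, G y ≤
      volume (win e 0 a b) * ∫⁻ y in ball p (A + a), G y := by
  have hW : ∀ q : EE d, MeasurableSet (win e q a b) := fun q =>
    ((isClosed_le (f := fun y : EE d => ‖y - q‖) (by fun_prop) continuous_const).inter
      (isClosed_le (f := fun y : EE d => |⟪y - q, e⟫|) (by fun_prop)
        continuous_const)).measurableSet
  have hshift : ∀ q : EE d, (∫⁻ y in win e q a b, G y) = ∫⁻ z in win e 0 a b, G (q + z) := by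
    intro q
    rw [← lintegral_indicator (hW q), ← lintegral_indicator (hW 0),
      ← lintegral_add_left_eq_self (fun y => (win e q a b).indicator G y) q]
    refine lintegral_congr fun z => ?_
    simp only [indicator, win, mem_ofPred_eq, add_sub_cancel_left, sub_zero]
  simp only [hshift]
  have hm : Measurable (Function.uncurry fun q z : EE d => G (q + z)) :=
    hG.comp (measurable_fst.add measurable_snd)
  rw [lintegral_lintegral_swap hm.aemeasurable]
  calc ∫⁻ z in win e 0 a b, ∫⁻ q in ball p A, G (q + z)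
      ≤ ∫⁻ _z in win e 0 a b, ∫⁻ y in ball p (A + a), G y := by
        refine setLIntegral_mono measurable_const fun z hz => ?_
        rw [← lintegral_indicator measurableSet_ball, ← lintegral_indicator measurableSet_ball,
          ← lintegral_add_right_eq_self (fun y => (ball p (A + a)).indicator G y) z]
        refine lintegral_mono fun q => ?_
        by_cases hq : q ∈ ball p A
        · rw [indicator_of_mem hq, indicator_of_mem]
          rw [mem_ball] at hq ⊢
          have h1 : ‖z‖ ≤ a := by simpa using hz.1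
          have := dist_triangle (q + z) q p
          rw [dist_self_add_left] at this
          linarith
        · rw [indicator_of_notMem hq]; exact zero_le
    _ = _ := by rw [setLIntegral_const, mul_comm]

end Vale.Agent.P137
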