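import Mathlib

/-!
Shared definitions for the endpoint variation bound of the uncentred Hardy–Littlewood maximal
operator over Euclidean balls.

Overview of the proof.  The smoothing ladder `lad` averages over balls of radii `ε 4^l`; the
defect `dd l j` (average of the norm minus norm of the average) has integral
`phi l - phi j`, so sums over scales of defects telescope.  Along a unit vector `e` the linear
inequality `-⟪v, w⟫ ≤ (‖w‖²/(2⟪w,e⟫)) (‖v‖ - ⟪v,e⟫)` bounds all descents of the function in
forward directions by defects.  See the files Pair, Cap, Cover, Master.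
-/

namespace Vale.Agent.P137

open MeasureTheory Metric Filter Topology Set
open scoped ENNReal RealInnerProductSpace

/-- Euclidean space of dimension `d`. -/
abbrev EE (d : ℕ) := EuclideanSpace ℝ (Fin d)

variable {d : ℕ}

/-- The uncentred maximal function over open Euclidean balls. -/
noncomputable def Mu (f : EE d → ℝ) (x : EE d) : ℝ≥0∞ :=
  ⨆ (z : EE d) (r : ℝ) (_ : x ∈ ball z r),
    (∫⁻ y in ball z r, ENNReal.ofReal |f y|) / volume (ball z r)

/-- The uncentred maximal function over balls of radius at least `δ`. -/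
noncomputable def MuBig (δ : ℝ) (f : EE d → ℝ) (x : EE d) : ℝ≥0∞ :=
  ⨆ (z : EE d) (r : ℝ) (_ : δ ≤ r) (_ : x ∈ ball z r),
    (∫⁻ y in ball z r, ENNReal.ofReal |f y|) / volume (ball z r)

/-- `v` is the weak gradient of `f`. -/
def HasWeakGrad (f : EE d → ℝ) (v : EE d → EE d) : Prop :=
  ∀ (φ : EE d → ℝ), ContDiff ℝ ((⊤ : ℕ∞) : WithTop ℕ∞) φ → HasCompactSupport φ →
    ∀ i : Fin d, ∫ x, f x * fderiv ℝ φ x (EuclideanSpace.single i 1) = -∫ x, v x i * φ x

/-- The average over a ball around each point. -/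
noncomputable def ballAvg {F : Type*} [NormedAddCommGroup F] [NormedSpace ℝ F]
    (ρ : ℝ) (g : EE d → F) (x : EE d) : F :=
  (volume.real (ball (0 : EE d) ρ))⁻¹ • ∫ u in ball (0 : EE d) ρ, g (x + u)

/-- The radii of the smoothing ladder. -/
def rho (ε : ℝ) (l : ℕ) : ℝ := ε * 4 ^ l

/-- The smoothing ladder. -/
noncomputable def lad {F : Type*} [NormedAddCommGroup F] [NormedSpace ℝ F]
    (ε : ℝ) (g : EE d → F) : ℕ → EE d → F
  | 0 => g
  | l + 1 => ballAvg (rho ε (l + 1)) (lad ε g l)

/-- The ladder started at the level `l`, after `k` steps. -/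
noncomputable def chain (ε : ℝ) (g : EE d → ℝ) (l : ℕ) : ℕ → EE d → ℝ
  | 0 => g
  | k + 1 => ballAvg (rho ε (l + k + 1)) (chain ε g l k)

/-- The defect between two levels: average of the norm minus norm of the average. -/
noncomputable def dd (ε : ℝ) (v : EE d → EE d) (l j : ℕ) (x : EE d) : ℝ :=
  chain ε (fun y => ‖lad ε v l y‖) l (j - l) x - ‖lad ε v j x‖

/-- The mass at level `l`. -/
noncomputable def phi (ε : ℝ) (v : EE d → EE d) (l : ℕ) : ℝ := ∫ x, ‖lad ε v l x‖

/-- The directional deficit at level `l`. -/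
noncomputable def gdef (ε : ℝ) (v : EE d → EE d) (e : EE d) (l : ℕ) (y : EE d) : ℝ :=
  ‖lad ε v l y‖ - ⟪lad ε v l y, e⟫

/-- `v` is a continuous integrable gradient of the continuous integrable function `g`. -/
structure IsPot (g : EE d → ℝ) (v : EE d → EE d) : Prop where
  cont : Continuous g
  contv : Continuous v
  int : Integrable g
  intv : Integrable v
  seg : ∀ y w, g (y + w) - g y = ∫ s in (0 : ℝ)..1, ⟪v (y + s • w), w⟫

/-- The affine maps `z ↦ α z + β ⟪z,e⟫ e + b`. -/
noncomputable def aff (e : EE d) (α β : ℝ) (b z : EE d) : EE d :=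
  α • z + (β * ⟪z, e⟫) • e + b

/-- The window: a ball intersected with a slab, with parabolic proportions. -/
def win (e : EE d) (q : EE d) (a b : ℝ) : Set (EE d) :=
  {y | ‖y - q‖ ≤ a ∧ |⟪y - q, e⟫| ≤ b}

/-- The loss on a window `W` at resolution `i`, with top weight `R`. -/
noncomputable def loss (ε : ℝ) (v : EE d → EE d) (e : EE d) (W : Set (EE d)) (i : ℕ)
    (R : ℝ) : ℝ :=
  R * (∫ y in W, gdef ε v e i y) +
    ∑ l ∈ Finset.range i, rho ε (l + 1) * ∫ y in W, gdef ε v e l y

/-- The average over a ball. -/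
noncomputable def avg (g : EE d → ℝ) (z : EE d) (r : ℝ) : ℝ :=
  (volume.real (ball z r))⁻¹ * ∫ y in ball z r, g y

/-- The superlevel set of the maximal function of a nonnegative function. -/
def Om (g : EE d → ℝ) (t : ℝ) : Set (EE d) :=
  {x | ∃ z r, x ∈ ball z r ∧ t < avg g z r}

/-- The same with balls of radius at least `δ`. -/
def OmBig (δ : ℝ) (g : EE d → ℝ) (t : ℝ) : Set (EE d) :=
  {x | ∃ z r, δ ≤ r ∧ x ∈ ball z r ∧ t < avg g z r}

/-- The modulus of continuity of translation in `L¹`. -/
noncomputable def omega (v : EE d → EE d) (s : ℝ) : ℝ≥0∞ :=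
  ⨆ (u : EE d) (_ : ‖u‖ ≤ s), ∫⁻ x, ‖v (x + u) - v x‖ₑ

end Vale.Agent.P137
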