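import Vale.Agent.P137.Defs

/-!
A weak gradient from equi-integrable difference quotients.

Fix `i` and an ultrafilter `U` on `n → ∞`.  With a positive integrable weight `ρ ≤ 1`, the
measures `ρ qₙ⁺` and `ρ qₙ⁻` of the difference quotients `qₙ` are finite and uniformly
absolutely continuous with respect to the finite measure `ρ`, so they converge along `U`
setwise to finite absolutely continuous measures; their densities divided by `ρ` give the
partial derivative.
-/

namespace Vale.Agent.P137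

open MeasureTheory Metric Filter Topology Set
open scoped ENNReal RealInnerProductSpace

variable {d : ℕ}

private lemma ge_limitMeasure {X : Type*} [MeasurableSpace X] (U : Ultrafilter ℕ)
    (μn : ℕ → Measure X) (ν : Measure X) [IsFiniteMeasure ν] {M : ℝ≥0∞}
    (hbd : ∀ n, μn n univ ≤ M)
    (hac : ∀ η : ℝ≥0∞, 0 < η → ∃ L : ℝ≥0∞, L ≠ ⊤ ∧
      ∀ n S, MeasurableSet S → μn n S ≤ η + L * ν S) :
    ∃ μ : Measure X, μ ≪ ν ∧ μ univ ≤ M ∧
      ∀ S, MeasurableSet S → Tendsto (fun n => μn n S) U (𝓝 (μ S)) := by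
  classical
  have hex : ∀ S : Set X, ∃ a : ℝ≥0∞, Tendsto (fun n => μn n S) U (𝓝 a) := fun S =>
    ⟨(U.map fun n => μn n S).lim, (U.map fun n => μn n S).le_nhds_lim⟩
  choose m hm using hex
  have m0 : m ∅ = 0 := tendsto_nhds_unique (hm ∅) (by simp)
  have mfin : ∀ {S T : Set X}, Disjoint S T → MeasurableSet T → m (S ∪ T) = m S + m T := by
    intro S T hd hT
    refine tendsto_nhds_unique (hm _) ?_
    simp_rw [measure_union hd hT]
    exact (hm S).add (hm T)
  have mle : ∀ η : ℝ≥0∞, 0 < η → ∃ L : ℝ≥0∞, L ≠ ⊤ ∧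
      ∀ S, MeasurableSet S → m S ≤ η + L * ν S := by
    intro η hη
    obtain ⟨L, hL, hLS⟩ := hac η hη
    exact ⟨L, hL, fun S hS => le_of_tendsto' (hm S) fun n => hLS n S hS⟩
  have mU : ∀ (f : ℕ → Set X), (∀ i, MeasurableSet (f i)) → Pairwise (Function.onFun Disjoint f) →
      m (⋃ i, f i) = ∑' i, m (f i) := by
    intro f hf hd
    set tl := fun N => ⋃ i, f (i + N) with htl
    have htlm : ∀ N, MeasurableSet (tl N) := fun N => MeasurableSet.iUnion fun i => hf _
    have hsplit : ∀ N, tl N = f N ∪ tl (N + 1) := by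
      intro N
      ext x
      simp only [htl, mem_iUnion, mem_union]
      constructor
      · rintro ⟨_ | i, hi⟩
        · exact Or.inl (by simpa using hi)
        · exact Or.inr ⟨i, by simpa [Nat.add_assoc, Nat.add_comm 1 N] using hi⟩
      · rintro (h | ⟨i, hi⟩)
        · exact ⟨0, by simpa using h⟩
        · exact ⟨i + 1, by simpa [Nat.add_assoc, Nat.add_comm 1 N] using hi⟩
    have hdis : ∀ N, Disjoint (f N) (tl (N + 1)) := fun N =>
      disjoint_iUnion_right.2 fun i => hd (by omega)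
    have hsum : ∀ N, m (⋃ i, f i) = (∑ i ∈ Finset.range N, m (f i)) + m (tl N) := by
      intro N
      induction N with
      | zero => simp [htl]
      | succ N ih =>
        rw [ih, Finset.sum_range_succ, hsplit N, mfin (hdis N) (htlm _), add_assoc]
    have hν : Tendsto (fun N => ν (tl N)) atTop (𝓝 0) := by
      have hfin : (∑' i, ν (f i)) ≠ ⊤ := by
        rw [← measure_iUnion hd hf]; exact measure_ne_top _ _
      exact tendsto_of_tendsto_of_tendsto_of_le_of_le tendsto_const_nhds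
        (ENNReal.tendsto_sum_nat_add (fun i => ν (f i)) hfin) (fun _ => zero_le)
        fun N => measure_iUnion_le _
    have hmtl : Tendsto (fun N => m (tl N)) atTop (𝓝 0) := by
      refine ENNReal.tendsto_nhds_zero.2 fun ε hε => ?_
      have hε2 : 0 < ε / 2 := ENNReal.half_pos hε.ne'
      obtain ⟨L, hL, hLS⟩ := mle (ε / 2) hε2
      have hLν : Tendsto (fun N => L * ν (tl N)) atTop (𝓝 0) := by
        simpa using ENNReal.Tendsto.const_mul hν (Or.inr hL)
      filter_upwards [(ENNReal.tendsto_nhds_zero.1 hLν) (ε / 2) hε2] with N hN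
      calc m (tl N) ≤ ε / 2 + L * ν (tl N) := hLS _ (htlm N)
        _ ≤ ε / 2 + ε / 2 := by gcongr
        _ = ε := ENNReal.add_halves ε
    have h1 : Tendsto (fun N => (∑ i ∈ Finset.range N, m (f i)) + m (tl N)) atTop
        (𝓝 ((∑' i, m (f i)) + 0)) := (ENNReal.tendsto_nat_tsum _).add hmtl
    rw [add_zero] at h1
    exact tendsto_nhds_unique (tendsto_const_nhds.congr fun N => hsum N) h1
  refine ⟨Measure.ofMeasurable (fun S _ => m S) m0 (fun f hf hd => mU f hf hd), ?_, ?_, ?_⟩
  · refine Measure.AbsolutelyContinuous.mk fun S hS hνS => ?_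
    rw [Measure.ofMeasurable_apply _ hS]
    refine le_antisymm (le_of_forall_gt fun ε hε => ?_) zero_le
    obtain ⟨ε', h0, h'⟩ := exists_between hε
    obtain ⟨L, -, hLS⟩ := mle ε' h0
    have := hLS S hS
    rw [hνS, mul_zero, add_zero] at this
    exact this.trans_lt h'
  · rw [Measure.ofMeasurable_apply _ MeasurableSet.univ]
    exact le_of_tendsto' (hm univ) hbd
  · intro S hS
    rw [Measure.ofMeasurable_apply _ hS]
    exact hm S

private lemma ge_tendsto_integral {X : Type*} [MeasurableSpace X] (U : Ultrafilter ℕ)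
    (μn : ℕ → Measure X) (μ : Measure X) {M : ℝ≥0∞} (hM : M ≠ ⊤)
    (hbd : ∀ n, μn n univ ≤ M) (hμ : μ univ ≤ M)
    (hlim : ∀ S, MeasurableSet S → Tendsto (fun n => μn n S) U (𝓝 (μ S)))
    {ψ : X → ℝ} (hψ : Measurable ψ) {C : ℝ} (hC : ∀ x, |ψ x| ≤ C) :
    Tendsto (fun n => ∫ x, ψ x ∂μn n) U (𝓝 (∫ x, ψ x ∂μ)) := by
  classical
  have hfin : ∀ ρ : Measure X, ρ univ ≤ M → IsFiniteMeasure ρ := fun ρ h =>
    ⟨lt_of_le_of_lt h hM.lt_top⟩
  have := hfin μ hμ
  have := fun n => hfin (μn n) (hbd n)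
  set MR := M.toReal with hMR
  have hMR0 : 0 ≤ MR := ENNReal.toReal_nonneg
  refine Metric.tendsto_nhds.2 fun δ hδ => ?_
  obtain ⟨ε, hε, hεδ⟩ : ∃ ε : ℝ, 0 < ε ∧ ε * MR < δ / 3 := by
    refine ⟨δ / 3 / (MR + 1), by positivity, ?_⟩
    rw [div_mul_eq_mul_div, div_lt_iff₀ (by positivity)]
    nlinarith
  set fl : X → ℝ := fun x => ε * (⌊ψ x / ε⌋ : ℤ) with hfl
  have hflm : Measurable fl :=
    measurable_const.mul ((measurable_from_top (f := fun z : ℤ => (z : ℝ))).comp
      (hψ.div_const ε).floor)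
  have hrange : (range fl).Finite := by
    refine (((Set.finite_Icc ⌊-C / ε⌋ ⌊C / ε⌋).image fun z : ℤ => ε * (z : ℝ))).subset ?_
    rintro _ ⟨x, rfl⟩
    obtain ⟨h1, h2⟩ := abs_le.1 (hC x)
    exact ⟨⌊ψ x / ε⌋, ⟨Int.floor_mono (by gcongr), Int.floor_mono (by gcongr)⟩, rfl⟩
  set g : SimpleFunc X ℝ := ⟨fl, fun y => hflm (measurableSet_singleton y), hrange⟩ with hg
  have happ : ∀ x, |ψ x - g x| ≤ ε := by
    intro x
    have h1 := Int.floor_le (ψ x / ε)
    have h2 := Int.lt_floor_add_one (ψ x / ε)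
    rw [le_div_iff₀ hε] at h1
    rw [div_lt_iff₀ hε] at h2
    show |ψ x - ε * (⌊ψ x / ε⌋ : ℤ)| ≤ ε
    rw [abs_le]
    constructor <;> nlinarith
  have herr : ∀ ρ : Measure X, ρ univ ≤ M → |(∫ x, ψ x ∂ρ) - ∫ x, g x ∂ρ| ≤ ε * MR := by
    intro ρ hρ
    have := hfin ρ hρ
    have hi : Integrable ψ ρ :=
      Integrable.of_bound hψ.aestronglyMeasurable C (Eventually.of_forall hC)
    rw [← integral_sub hi g.integrable_of_isFiniteMeasure]
    refine (norm_integral_le_of_norm_le_const (f := fun x => ψ x - g x) (C := ε)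
      (Eventually.of_forall fun x => by simpa [Real.norm_eq_abs] using happ x)).trans ?_
    exact mul_le_mul_of_nonneg_left (ENNReal.toReal_mono hM hρ) hε.le
  have hgl : Tendsto (fun n => ∫ x, g x ∂μn n) U (𝓝 (∫ x, g x ∂μ)) := by
    simp only [SimpleFunc.integral_eq_sum g g.integrable_of_isFiniteMeasure]
    refine tendsto_finsetSum _ fun y _ => Tendsto.smul_const ?_ y
    exact (ENNReal.tendsto_toReal (measure_ne_top _ _)).comp
      (hlim _ (g.measurableSet_fiber y))
  filter_upwards [Metric.tendsto_nhds.1 hgl (δ / 3) (by positivity)] with n hn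
  rw [Real.dist_eq] at hn ⊢
  have e1 := abs_le.1 (herr (μn n) (hbd n))
  have e2 := abs_le.1 (herr μ hμ)
  have e3 := abs_lt.1 hn
  rw [abs_lt]
  constructor <;> linarith [e1.1, e1.2, e2.1, e2.2, e3.1, e3.2]

private noncomputable def ge_wt (x : EE d) : ℝ := (1 + ‖x‖) ^ (-((d : ℝ) + 1))

private lemma ge_wt_pos (x : EE d) : 0 < ge_wt x := Real.rpow_pos_of_pos (by positivity) _

private lemma ge_wt_le (x : EE d) : ge_wt x ≤ 1 :=
  Real.rpow_le_one_of_one_le_of_nonpos (by linarith [norm_nonneg x])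
    (by linarith [(Nat.cast_nonneg d : (0 : ℝ) ≤ d)])

private lemma ge_wt_cont : Continuous (ge_wt : EE d → ℝ) := by
  unfold ge_wt
  exact (continuous_const.add continuous_norm).rpow_const fun x =>
    Or.inl (ne_of_gt (by positivity : (0 : ℝ) < 1 + ‖x‖))

private lemma ge_wt_int : Integrable (ge_wt : EE d → ℝ) :=
  integrable_one_add_norm (by simp)

private lemma ge_coord {G : EE d → ℝ} (hG : LocallyIntegrable G) {A : ℝ≥0∞}
    (hA : A ≠ ⊤) (h1 : ∀ h : EE d, ∫⁻ x, ‖G (x + h) - G x‖ₑ ≤ A * ‖h‖ₑ)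
    (h2 : ∀ η : ℝ≥0∞, 0 < η → ∃ L : ℝ, ∀ h : EE d,
      ∫⁻ x, (‖G (x + h) - G x‖ₑ - ENNReal.ofReal (L * ‖h‖)) ≤ η * ‖h‖ₑ)
    (i : Fin d) :
    ∃ u : EE d → ℝ, Measurable u ∧ (∫⁻ x, ‖u x‖ₑ ≤ A) ∧
      ∀ φ : EE d → ℝ, ContDiff ℝ ((⊤ : ℕ∞) : WithTop ℕ∞) φ → HasCompactSupport φ →
        ∫ x, G x * fderiv ℝ φ x (EuclideanSpace.single i 1) = -∫ x, u x * φ x := by
  classical
  set e : EE d := EuclideanSpace.single i 1 with he
  have hne : ‖e‖ = 1 := by simp [he]
  set t : ℕ → ℝ := fun n => 1 / ((n : ℝ) + 1) with ht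
  have ht0 : ∀ n, 0 < t n := fun n => by rw [ht]; positivity
  have ht1 : ∀ n, t n ≤ 1 := fun n => by
    simp only [ht]
    exact (div_le_one (by positivity)).2 (by linarith [(Nat.cast_nonneg n : (0 : ℝ) ≤ n)])
  set h : ℕ → EE d := fun n => t n • e with hh
  have hnh : ∀ n, ‖h n‖ = t n := fun n => by
    simp [hh, norm_smul, hne, abs_of_pos (ht0 n)]
  set q : ℕ → EE d → ℝ := fun n x => (G (x + h n) - G x) / t n with hq
  have hGm : AEMeasurable G := hG.aestronglyMeasurable.aemeasurable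
  have hqm : ∀ n, AEMeasurable (q n) := fun n =>
    ((hGm.comp_quasiMeasurePreserving
      (measurePreserving_add_right volume (h n)).quasiMeasurePreserving).sub hGm).div_const _
  have hen : ∀ n x, ‖q n x‖ₑ = ‖G (x + h n) - G x‖ₑ * ENNReal.ofReal (t n)⁻¹ := by
    intro n x
    simp only [hq, div_eq_mul_inv, enorm_mul, Real.enorm_of_nonneg (inv_nonneg.2 (ht0 n).le)]
  have hcancel : ∀ n, ‖h n‖ₑ * ENNReal.ofReal (t n)⁻¹ = 1 := fun n => by
    rw [← ofReal_norm, hnh, ← ENNReal.ofReal_mul (ht0 n).le, mul_inv_cancel₀ (ht0 n).ne',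
      ENNReal.ofReal_one]
  have hqA : ∀ n, ∫⁻ x, ‖q n x‖ₑ ≤ A := by
    intro n
    simp_rw [hen n]
    rw [lintegral_mul_const' _ _ ENNReal.ofReal_ne_top]
    calc (∫⁻ x, ‖G (x + h n) - G x‖ₑ) * ENNReal.ofReal (t n)⁻¹
        ≤ A * ‖h n‖ₑ * ENNReal.ofReal (t n)⁻¹ := by gcongr; exact h1 _
      _ = A := by rw [mul_assoc, hcancel, mul_one]
  have hqi : ∀ n, Integrable (q n) := fun n =>
    ⟨(hqm n).aestronglyMeasurable, lt_of_le_of_lt (hqA n) hA.lt_top⟩
  have hqη : ∀ η : ℝ≥0∞, 0 < η → ∃ L : ℝ, ∀ n,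
      ∫⁻ x, (‖q n x‖ₑ - ENNReal.ofReal L) ≤ η := by
    intro η hη
    obtain ⟨L, hL⟩ := h2 η hη
    refine ⟨L, fun n => ?_⟩
    have hpt : ∀ x, ‖q n x‖ₑ - ENNReal.ofReal L
        = (‖G (x + h n) - G x‖ₑ - ENNReal.ofReal (L * ‖h n‖)) * ENNReal.ofReal (t n)⁻¹ := by
      intro x
      rw [ENNReal.sub_mul (fun _ _ => ENNReal.ofReal_ne_top), hen,
        ← ENNReal.ofReal_mul' (inv_nonneg.2 (ht0 n).le), hnh, mul_assoc,
        mul_inv_cancel₀ (ht0 n).ne', mul_one]
    simp_rw [hpt]
    rw [lintegral_mul_const' _ _ ENNReal.ofReal_ne_top]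
    calc _ ≤ η * ‖h n‖ₑ * ENNReal.ofReal (t n)⁻¹ := by gcongr; exact hL _
      _ = η := by rw [mul_assoc, hcancel, mul_one]
  set ν : Measure (EE d) := volume.withDensity fun x => ENNReal.ofReal (ge_wt x) with hν
  have : IsFiniteMeasure ν := by
    refine isFiniteMeasure_withDensity (ne_of_lt ?_)
    calc ∫⁻ x, ENNReal.ofReal (ge_wt x) = ∫⁻ x, ‖ge_wt x‖ₑ :=
          lintegral_congr fun x => (Real.enorm_of_nonneg (ge_wt_pos x).le).symm
      _ < ⊤ := ge_wt_int.hasFiniteIntegral
  obtain ⟨U, hU⟩ : ∃ U : Ultrafilter ℕ, (U : Filter ℕ) ≤ atTop :=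
    ⟨Ultrafilter.of atTop, Ultrafilter.of_le _⟩
  -- the two signs
  set P : ℝ → ℕ → Measure (EE d) := fun s n =>
    volume.withDensity fun x => ENNReal.ofReal (ge_wt x * (s * q n x)) with hP
  have hPle : ∀ s : ℝ, |s| = 1 → ∀ n x,
      ENNReal.ofReal (ge_wt x * (s * q n x)) ≤ ‖q n x‖ₑ := by
    intro s hs n x
    rw [← ofReal_norm, Real.norm_eq_abs]
    refine ENNReal.ofReal_le_ofReal ((le_abs_self _).trans ?_)
    rw [abs_mul, abs_mul, hs, one_mul, abs_of_pos (ge_wt_pos x)]
    exact mul_le_of_le_one_left (abs_nonneg _) (ge_wt_le x)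
  have hPu : ∀ s : ℝ, |s| = 1 → ∀ n, P s n univ ≤ A := by
    intro s hs n
    simp only [hP, withDensity_apply _ MeasurableSet.univ, Measure.restrict_univ]
    exact (lintegral_mono (hPle s hs n)).trans (hqA n)
  have hPac : ∀ s : ℝ, |s| = 1 → ∀ η : ℝ≥0∞, 0 < η → ∃ L : ℝ≥0∞, L ≠ ⊤ ∧
      ∀ n S, MeasurableSet S → P s n S ≤ η + L * ν S := by
    intro s hs η hη
    obtain ⟨L, hL⟩ := hqη η hη
    refine ⟨ENNReal.ofReal L, ENNReal.ofReal_ne_top, fun n S hS => ?_⟩
    simp only [hP, hν, withDensity_apply _ hS]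
    rw [← lintegral_const_mul' _ _ ENNReal.ofReal_ne_top]
    calc ∫⁻ x in S, ENNReal.ofReal (ge_wt x * (s * q n x))
        ≤ ∫⁻ x in S, ((‖q n x‖ₑ - ENNReal.ofReal L)
            + ENNReal.ofReal L * ENNReal.ofReal (ge_wt x)) := by
          refine lintegral_mono fun x => ?_
          have hw : ENNReal.ofReal (ge_wt x * (s * q n x))
              ≤ ENNReal.ofReal (ge_wt x) * ‖q n x‖ₑ := by
            rw [ENNReal.ofReal_mul (ge_wt_pos x).le, ← ofReal_norm, Real.norm_eq_abs]
            gcongr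
            refine (le_abs_self _).trans ?_
            rw [abs_mul, hs, one_mul]
          have hw1 : ENNReal.ofReal (ge_wt x) ≤ 1 := ENNReal.ofReal_le_one.2 (ge_wt_le x)
          refine hw.trans ?_
          calc ENNReal.ofReal (ge_wt x) * ‖q n x‖ₑ
              ≤ ENNReal.ofReal (ge_wt x) * ((‖q n x‖ₑ - ENNReal.ofReal L) + ENNReal.ofReal L) := by
                gcongr; exact le_tsub_add
            _ ≤ _ := by
                rw [mul_add, mul_comm (ENNReal.ofReal (ge_wt x)) (ENNReal.ofReal L)]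
                gcongr
                exact mul_le_of_le_one_left' hw1
      _ = (∫⁻ x in S, (‖q n x‖ₑ - ENNReal.ofReal L))
            + ∫⁻ x in S, ENNReal.ofReal L * ENNReal.ofReal (ge_wt x) := by
          rw [lintegral_add_left' (((hqm n).enorm.sub_const _).restrict)]
      _ ≤ _ := by
          gcongr
          exact (setLIntegral_le_lintegral _ _).trans (hL n)
  obtain ⟨μp, hp1, hp2, hp3⟩ := ge_limitMeasure U (P 1) ν (hPu 1 (by simp)) (hPac 1 (by simp))
  obtain ⟨μm, hm1, hm2, hm3⟩ :=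
    ge_limitMeasure U (P (-1)) ν (hPu (-1) (by simp)) (hPac (-1) (by simp))
  have : IsFiniteMeasure μp := ⟨lt_of_le_of_lt hp2 hA.lt_top⟩
  have : IsFiniteMeasure μm := ⟨lt_of_le_of_lt hm2 hA.lt_top⟩
  have hνvol : ν ≪ volume := withDensity_absolutelyContinuous _ _
  have hpv : μp ≪ volume := hp1.trans hνvol
  have hmv : μm ≪ volume := hm1.trans hνvol
  -- pairing with a bounded measurable function
  have hpair : ∀ (μ : Measure (EE d)) (s : ℝ), |s| = 1 →
      (∀ S, MeasurableSet S → Tendsto (fun n => P s n S) U (𝓝 (μ S))) → μ univ ≤ A →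
      ∀ (ψ : EE d → ℝ), Measurable ψ → ∀ C, (∀ x, |ψ x| ≤ C) →
        Tendsto (fun n => ∫ x, max (s * q n x) 0 * (ge_wt x * ψ x)) U (𝓝 (∫ x, ψ x ∂μ)) := by
    intro μ s hs hlim hμ ψ hψ C hC
    refine (ge_tendsto_integral U (P s) μ hA (hPu s hs) hμ hlim hψ hC).congr fun n => ?_
    have hfm : AEMeasurable (fun x => ENNReal.ofReal (ge_wt x * (s * q n x))) :=
      (ge_wt_cont.measurable.aemeasurable.mul ((hqm n).const_mul s)).ennreal_ofReal
    simp only [hP]
    refine (integral_withDensity_eq_integral_toReal_smul₀ hfm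
      (Eventually.of_forall fun x => ENNReal.ofReal_lt_top) ψ).trans ?_
    refine integral_congr_ae (Eventually.of_forall fun x => ?_)
    have hmax : max (ge_wt x * (s * q n x)) 0 = ge_wt x * max (s * q n x) 0 := by
      rw [mul_max_of_nonneg _ _ (ge_wt_pos x).le, mul_zero]
    simp only [ENNReal.toReal_ofReal', hmax, smul_eq_mul]
    ring
  have hpi : ∀ n (g : EE d → ℝ) (C : ℝ), Measurable g → (∀ x, |g x| ≤ C) → ∀ s : ℝ, |s| = 1 →
      Integrable fun x => max (s * q n x) 0 * g x := by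
    intro n g C hg hC s hs
    refine ((hqi n).norm.mul_const C).mono'
      ((((hqm n).const_mul s).max aemeasurable_const).mul
        hg.aemeasurable).aestronglyMeasurable (Eventually.of_forall fun x => ?_)
    rw [Real.norm_eq_abs, abs_mul, Real.norm_eq_abs]
    refine mul_le_mul ?_ (hC x) (abs_nonneg _) (abs_nonneg _)
    rw [abs_of_nonneg (le_max_right _ _)]
    refine max_le ((le_abs_self _).trans ?_) (abs_nonneg _)
    rw [abs_mul, hs, one_mul]
  set dp : EE d → ℝ := fun x => (μp.rnDeriv volume x).toReal / ge_wt x with hdp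
  set dm : EE d → ℝ := fun x => (μm.rnDeriv volume x).toReal / ge_wt x with hdm
  have hdpm : Measurable dp :=
    (μp.measurable_rnDeriv volume).ennreal_toReal.div ge_wt_cont.measurable
  have hdmm : Measurable dm :=
    (μm.measurable_rnDeriv volume).ennreal_toReal.div ge_wt_cont.measurable
  have hdp0 : ∀ x, 0 ≤ dp x := fun x => div_nonneg ENNReal.toReal_nonneg (ge_wt_pos x).le
  have hdm0 : ∀ x, 0 ≤ dm x := fun x => div_nonneg ENNReal.toReal_nonneg (ge_wt_pos x).le
  -- the mass bound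
  set Φ : ℕ → EE d → ℝ := fun N x => min (ge_wt x)⁻¹ N with hΦ
  have hΦ0 : ∀ N x, 0 ≤ Φ N x := fun N x =>
    le_min (inv_nonneg.2 (ge_wt_pos x).le) (Nat.cast_nonneg N)
  have hΦm : ∀ N, Measurable (Φ N) := fun N =>
    (ge_wt_cont.measurable.inv).min measurable_const
  have hΦb : ∀ N x, |Φ N x| ≤ N := fun N x => by
    rw [abs_of_nonneg (hΦ0 N x)]; exact min_le_right _ _
  have hmass : ∀ N, (∫ x, Φ N x ∂μp) + ∫ x, Φ N x ∂μm ≤ A.toReal := by
    intro N
    have hs := ((hpair μp 1 (by simp) hp3 hp2 _ (hΦm N) N (hΦb N)).add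
      (hpair μm (-1) (by simp) hm3 hm2 _ (hΦm N) N (hΦb N)))
    refine le_of_tendsto' hs fun n => ?_
    have hb : ∀ x, |ge_wt x * Φ N x| ≤ 1 := fun x => by
      rw [abs_of_nonneg (mul_nonneg (ge_wt_pos x).le (hΦ0 N x))]
      calc ge_wt x * Φ N x ≤ ge_wt x * (ge_wt x)⁻¹ :=
            mul_le_mul_of_nonneg_left (min_le_left _ _) (ge_wt_pos x).le
        _ = 1 := mul_inv_cancel₀ (ge_wt_pos x).ne'
    have hgm : Measurable fun x : EE d => ge_wt x * Φ N x :=
      ge_wt_cont.measurable.mul (hΦm N)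
    rw [← integral_add (hpi n _ 1 hgm hb 1 (by simp)) (hpi n _ 1 hgm hb (-1) (by simp))]
    refine (integral_mono_of_nonneg (g := fun x => ‖q n x‖) ?_ (hqi n).norm ?_).trans ?_
    · exact Eventually.of_forall fun x => by
        have := mul_nonneg (ge_wt_pos x).le (hΦ0 N x)
        positivity
    · refine Eventually.of_forall fun x => ?_
      have hg1 := (abs_le.1 (hb x)).2
      simp only [one_mul, neg_mul, Real.norm_eq_abs]
      rw [← add_mul, max_zero_add_max_neg_zero_eq_abs_self]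
      exact mul_le_of_le_one_right (abs_nonneg _) hg1
    · rw [integral_norm_eq_lintegral_enorm (hqm n).aestronglyMeasurable]
      exact ENNReal.toReal_mono hA (hqA n)
  have hbound : ∫⁻ x, ENNReal.ofReal (dp x + dm x) ≤ A := by
    have hd : ∀ (μ : Measure (EE d)) [IsFiniteMeasure μ], μ ≪ volume → ∀ N,
        ENNReal.ofReal (∫ x, Φ N x ∂μ)
          = ∫⁻ x, μ.rnDeriv volume x * ENNReal.ofReal (Φ N x) := by
      intro μ _ hμ N
      rw [lintegral_rnDeriv_mul hμ (hΦm N).ennreal_ofReal.aemeasurable]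
      exact ofReal_integral_eq_lintegral_ofReal
        (Integrable.of_bound (hΦm N).aestronglyMeasurable N (Eventually.of_forall (hΦb N)))
        (Eventually.of_forall (hΦ0 N))
    set F : ℕ → EE d → ℝ≥0∞ := fun N x =>
      (μp.rnDeriv volume x + μm.rnDeriv volume x) * ENNReal.ofReal (Φ N x) with hF
    have hFA : ∀ N, ∫⁻ x, F N x ≤ A := by
      intro N
      simp only [hF, add_mul]
      rw [lintegral_add_left (f := fun x => μp.rnDeriv volume x * ENNReal.ofReal (Φ N x))
          ((μp.measurable_rnDeriv volume).mul (hΦm N).ennreal_ofReal),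
        ← hd μp hpv, ← hd μm hmv,
        ← ENNReal.ofReal_add (integral_nonneg (hΦ0 N)) (integral_nonneg (hΦ0 N))]
      exact (ENNReal.ofReal_le_ofReal (hmass N)).trans ENNReal.ofReal_toReal_le
    have hmono : Monotone F := fun a b hab x => by
      simp only [hF]
      gcongr
      exact min_le_min_left _ (Nat.cast_le.2 hab)
    have hsup : ∀ x, ENNReal.ofReal (dp x + dm x) ≤ ⨆ N, F N x := by
      intro x
      obtain ⟨N, hN⟩ := exists_nat_ge (ge_wt x)⁻¹
      refine le_iSup_of_le N ?_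
      have hw : 0 ≤ (ge_wt x)⁻¹ := inv_nonneg.2 (ge_wt_pos x).le
      simp only [hF, hdp, hdm, hΦ, min_eq_left hN, div_eq_mul_inv, ← add_mul]
      rw [ENNReal.ofReal_mul' hw, ENNReal.ofReal_add ENNReal.toReal_nonneg ENNReal.toReal_nonneg]
      gcongr <;> exact ENNReal.ofReal_toReal_le
    calc ∫⁻ x, ENNReal.ofReal (dp x + dm x) ≤ ∫⁻ x, ⨆ N, F N x := lintegral_mono hsup
      _ = ⨆ N, ∫⁻ x, F N x := lintegral_iSup (fun N => (((μp.measurable_rnDeriv volume).add
          (μm.measurable_rnDeriv volume)).mul (hΦm N).ennreal_ofReal)) hmono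
      _ ≤ A := iSup_le hFA
  have hdi : ∀ g : EE d → ℝ, Measurable g → (∀ x, 0 ≤ g x) → (∀ x, g x ≤ dp x + dm x) →
      Integrable g := by
    intro g hg hg0 hgle
    refine ⟨hg.aestronglyMeasurable, lt_of_le_of_lt ?_ hA.lt_top⟩
    refine le_trans (lintegral_mono fun x => ?_) hbound
    rw [Real.enorm_of_nonneg (hg0 x)]
    exact ENNReal.ofReal_le_ofReal (hgle x)
  refine ⟨fun x => dp x - dm x, hdpm.sub hdmm, ?_, fun φ hφ hsupp => ?_⟩
  · refine le_trans (lintegral_mono fun x => ?_) hbound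
    rw [← ofReal_norm, Real.norm_eq_abs]
    refine ENNReal.ofReal_le_ofReal (abs_le.2 ?_)
    constructor <;> linarith [hdp0 x, hdm0 x]
  have hφc : Continuous φ := hφ.continuous
  obtain ⟨K, hK⟩ := ContDiff.lipschitzWith_of_hasCompactSupport hsupp hφ (by simp)
  obtain ⟨Cφ, hCφ⟩ := hφc.bounded_above_of_compact_support hsupp
  -- limit through the densities
  set ψ : EE d → ℝ := fun x => φ x / ge_wt x with hψ
  have hψc : Continuous ψ := hφc.div ge_wt_cont fun x => (ge_wt_pos x).ne'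
  obtain ⟨Cψ, hCψ⟩ := hψc.bounded_above_of_compact_support
    (f := ψ) (hsupp.mono fun x hx => fun h0 => hx (by simp [hψ, h0]))
  have hψb : ∀ x, |ψ x| ≤ Cψ := fun x => by simpa [Real.norm_eq_abs] using hCψ x
  have hlim1 : Tendsto (fun n => ∫ x, q n x * φ x) U
      (𝓝 (∫ x, (dp x - dm x) * φ x)) := by
    have hs := (hpair μp 1 (by simp) hp3 hp2 ψ hψc.measurable Cψ hψb).sub
      (hpair μm (-1) (by simp) hm3 hm2 ψ hψc.measurable Cψ hψb)
    have hφb : ∀ x, |φ x| ≤ Cφ := fun x => by simpa [Real.norm_eq_abs] using hCφ x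
    have hval : ∀ x, ge_wt x * ψ x = φ x := fun x => by
      simp only [hψ]; field_simp [(ge_wt_pos x).ne']
    simp only [hval] at hs
    have hintd : ∀ g : EE d → ℝ, Integrable g → Integrable fun x => g x * φ x := fun g hg =>
      hg.mul_bdd hφc.aestronglyMeasurable (Eventually.of_forall hCφ)
    have htgt : (∫ x, ψ x ∂μp) - ∫ x, ψ x ∂μm = ∫ x, (dp x - dm x) * φ x := by
      rw [← integral_rnDeriv_smul hpv, ← integral_rnDeriv_smul hmv]
      have hdpi : Integrable dp := hdi dp hdpm hdp0 fun x => by linarith [hdm0 x]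
      have hdmi : Integrable dm := hdi dm hdmm hdm0 fun x => by linarith [hdp0 x]
      simp_rw [sub_mul]
      rw [integral_sub (hintd dp hdpi) (hintd dm hdmi)]
      congr 1 <;> refine integral_congr_ae (Eventually.of_forall fun x => ?_)
      · simp only [hdp, hψ, smul_eq_mul]; ring
      · simp only [hdm, hψ, smul_eq_mul]; ring
    rw [htgt] at hs
    refine hs.congr fun n => ?_
    rw [← integral_sub (hpi n φ Cφ hφc.measurable hφb 1 (by simp))
      (hpi n φ Cφ hφc.measurable hφb (-1) (by simp))]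
    refine integral_congr_ae (Eventually.of_forall fun x => ?_)
    simp only [one_mul, neg_mul, ← sub_mul, max_zero_sub_eq_self]
  -- limit by moving the difference onto the test function
  obtain ⟨R, hR⟩ := hsupp.isCompact.isBounded.subset_closedBall 0
  set D := fderiv ℝ φ with hD
  have hlim2 : Tendsto (fun n => ∫ x, q n x * φ x) atTop (𝓝 (-∫ x, G x * D x e)) := by
    have hGI : ∀ g : EE d → ℝ, Continuous g → HasCompactSupport g →
        Integrable fun x => G x * g x := fun g hg hgs => by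
      simpa [mul_comm, smul_eq_mul] using hG.integrable_smul_left_of_hasCompactSupport hg hgs
    have hshift : ∀ n, ∫ x, q n x * φ x
        = ∫ x, G x * ((φ (x - h n) - φ x) / t n) := by
      intro n
      have hs2 : HasCompactSupport fun x => φ (x - h n) := by
        simpa [Function.comp_def, sub_eq_add_neg] using
          hsupp.comp_homeomorph (Homeomorph.addRight (-h n))
      have hc2 : Continuous fun x => φ (x - h n) := hφc.comp (continuous_id.sub continuous_const)
      have i1 := hGI φ hφc hsupp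
      have i2 := hGI _ hc2 hs2
      have i3 : Integrable fun x => G (x + h n) * φ x := by
        simpa using i2.comp_add_right (h n)
      have e1 : (∫ x, G (x + h n) * φ x) = ∫ x, G x * φ (x - h n) := by
        simpa using integral_add_right_eq_self (μ := volume) (fun x => G x * φ (x - h n)) (h n)
      calc ∫ x, q n x * φ x = ∫ x, (G (x + h n) * φ x - G x * φ x) / t n :=
            integral_congr_ae (Eventually.of_forall fun x => by simp only [hq]; ring)
        _ = ((∫ x, G x * φ (x - h n)) - ∫ x, G x * φ x) / t n := by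
            rw [integral_div, integral_sub i3 i1, e1]
        _ = ∫ x, (G x * φ (x - h n) - G x * φ x) / t n := by
            rw [integral_div, integral_sub i2 i1]
        _ = _ := integral_congr_ae (Eventually.of_forall fun x => by ring)
    simp only [hshift]
    rw [← integral_neg]
    set B := closedBall (0 : EE d) (R + 1) with hB
    refine tendsto_integral_of_dominated_convergence
      (fun x => B.indicator (fun y => ‖G y‖ * K) x) (fun n => ?_) ?_ (fun n => ?_) ?_
    · exact (hGm.mul (((hφc.comp (continuous_id.sub continuous_const)).sub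
        hφc).measurable.div_const _).aemeasurable).aestronglyMeasurable
    · exact IntegrableOn.integrable_indicator
        (((hG.integrableOn_isCompact (isCompact_closedBall _ _)).norm).mul_const _)
        measurableSet_closedBall
    · refine Eventually.of_forall fun x => ?_
      by_cases hx : x ∈ B
      · rw [indicator_of_mem hx, norm_mul]
        refine mul_le_mul_of_nonneg_left ?_ (norm_nonneg _)
        rw [norm_div, Real.norm_of_nonneg (ht0 n).le, div_le_iff₀ (ht0 n)]
        have := hK.norm_sub_le (x - h n) x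
        rwa [sub_sub_cancel_left, norm_neg, hnh] at this
      · have hzero : ∀ y, R < ‖y‖ → φ y = 0 := fun y hy => image_eq_zero_of_notMem_tsupport
          fun hm => absurd (mem_closedBall_zero_iff.1 (hR hm)) (not_le.2 hy)
        simp only [hB, mem_closedBall_zero_iff, not_le] at hx
        have hxn : R < ‖x - h n‖ := by
          have := norm_sub_norm_le x (h n)
          rw [hnh] at this
          linarith [ht1 n]
        rw [hzero x (by linarith), hzero _ hxn, sub_self, zero_div, mul_zero, norm_zero]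
        exact indicator_nonneg (fun y _ => by positivity) x
    · refine Eventually.of_forall fun x => ?_
      rw [← mul_neg]
      refine Tendsto.const_mul _ ?_
      have hd : HasLineDerivAt ℝ φ (D x e) x e :=
        ((hφ.differentiable (by simp)) x).hasFDerivAt.hasLineDerivAt e
      have hd' : HasLineDerivAt ℝ φ (-(D x e)) x (-e) := by
        have := hd.smul (-1 : ℝ)
        simpa using this
      have hz : Tendsto t atTop (𝓝[≠] 0) := tendsto_nhdsWithin_iff.2
        ⟨tendsto_one_div_add_atTop_nhds_zero_nat, Eventually.of_forall fun n => (ht0 n).ne'⟩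
      refine (hd'.tendsto_slope_zero.comp hz).congr fun n => ?_
      simp only [Function.comp, hh, smul_eq_mul, smul_neg, ← sub_eq_add_neg]
      ring
  have := tendsto_nhds_unique hlim1 (hlim2.mono_left hU)
  linarith [this]

theorem exists_weakGrad_of_shift {G : EE d → ℝ} (hG : LocallyIntegrable G) {A : ℝ≥0∞}
    (hA : A ≠ ⊤) (h1 : ∀ h : EE d, ∫⁻ x, ‖G (x + h) - G x‖ₑ ≤ A * ‖h‖ₑ)
    (h2 : ∀ η : ℝ≥0∞, 0 < η → ∃ L : ℝ, ∀ h : EE d,
      ∫⁻ x, (‖G (x + h) - G x‖ₑ - ENNReal.ofReal (L * ‖h‖)) ≤ η * ‖h‖ₑ) :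
    ∃ w : EE d → EE d, Integrable w ∧ HasWeakGrad G w ∧ ∫⁻ x, ‖w x‖ₑ ≤ (d : ℝ≥0∞) * A := by
  choose u hum hub huφ using ge_coord hG hA h1 h2
  set w : EE d → EE d := fun x => ∑ i, u i x • EuclideanSpace.single i (1 : ℝ) with hw
  have hwi : ∀ x i, w x i = u i x := by
    intro x i
    simp [hw, Pi.single_apply]
  have hwb : ∫⁻ x, ‖w x‖ₑ ≤ (d : ℝ≥0∞) * A := by
    calc ∫⁻ x, ‖w x‖ₑ ≤ ∫⁻ x, ∑ i, ‖u i x‖ₑ := by
          refine lintegral_mono fun x => ?_
          refine (enorm_sum_le _ _).trans (Finset.sum_le_sum fun i _ => ?_)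
          rw [← ofReal_norm, ← ofReal_norm, norm_smul, PiLp.norm_single]
          simp
      _ = ∑ i, ∫⁻ x, ‖u i x‖ₑ := lintegral_finsetSum _ fun i _ => (hum i).enorm
      _ ≤ ∑ _i : Fin d, A := Finset.sum_le_sum fun i _ => hub i
      _ = _ := by simp
  refine ⟨w, ⟨?_, lt_of_le_of_lt hwb (ENNReal.mul_lt_top (by simp) hA.lt_top)⟩, ?_, hwb⟩
  · exact (Finset.measurable_sum _ fun i _ =>
      (hum i).smul_const _).aestronglyMeasurable
  · intro φ hφ hs i
    simp only [hwi]
    exact huφ i φ hφ hs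

theorem locallyIntegrable_of_shift {G : EE d → ℝ} (hG : Measurable G) {A : ℝ≥0∞}
    (hA : A ≠ ⊤) (h1 : ∀ h : EE d, ∫⁻ x, ‖G (x + h) - G x‖ₑ ≤ A * ‖h‖ₑ) :
    LocallyIntegrable G := by
  rw [locallyIntegrable_iff]
  intro k hk
  obtain ⟨R, hR⟩ := hk.isBounded.subset_ball (0 : EE d)
  set R' := max R 0 + 1 with hR'
  set B := ball (0 : EE d) R' with hB
  have : IsFiniteMeasure (volume.restrict B) :=
    ⟨by rw [Measure.restrict_apply_univ]; exact measure_ball_lt_top⟩
  have hm : Measurable (Function.uncurry fun (h x : EE d) => ‖G (x + h) - G x‖ₑ) :=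
    ((hG.comp (measurable_snd.add measurable_fst)).sub (hG.comp measurable_snd)).enorm
  have hsw : ∫⁻ x, ∫⁻ h in B, ‖G (x + h) - G x‖ₑ ≠ ⊤ := by
    rw [← lintegral_lintegral_swap hm.aemeasurable]
    refine ne_of_lt (lt_of_le_of_lt (setLIntegral_mono' measurableSet_ball fun h hh =>
      (h1 h).trans (?_ : A * ‖h‖ₑ ≤ A * ENNReal.ofReal R')) ?_)
    · rw [← ofReal_norm]
      gcongr
      exact (mem_ball_zero_iff.1 hh).le
    · rw [setLIntegral_const]
      exact ENNReal.mul_lt_top (ENNReal.mul_lt_top hA.lt_top ENNReal.ofReal_lt_top)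
        measure_ball_lt_top
  have hae := ae_lt_top hm.lintegral_prod_left' hsw
  obtain ⟨x0, hx0, hfin⟩ : ∃ x0 ∈ ball (0 : EE d) 1,
      ∫⁻ h in B, ‖G (x0 + h) - G x0‖ₑ < ⊤ := by
    by_contra hc
    simp only [not_exists, not_and] at hc
    have h0 : volume (ball (0 : EE d) 1) = 0 :=
      measure_mono_null (fun x hx => hc x hx) hae
    exact (measure_ball_pos volume (0 : EE d) one_pos).ne' h0
  have hi : Integrable (fun h => G (x0 + h) - G x0) (volume.restrict B) :=
    ⟨((hG.comp (measurable_const_add x0)).sub measurable_const).aestronglyMeasurable, hfin⟩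
  have hi2 : IntegrableOn (fun h => G (x0 + h)) B := by
    refine (hi.add (integrable_const (G x0))).congr (Eventually.of_forall fun h => ?_)
    simp
  have hi3 : IntegrableOn G ((fun h => x0 + h) '' B) :=
    ((measurePreserving_add_left volume x0).integrableOn_image
      (measurableEmbedding_addLeft x0)).2 hi2
  refine hi3.mono_set fun y hy => ⟨y - x0, ?_, add_sub_cancel x0 y⟩
  rw [hB, mem_ball_zero_iff]
  have h1' := mem_ball_zero_iff.1 (hR hy)
  have h2' := mem_ball_zero_iff.1 hx0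
  calc ‖y - x0‖ ≤ ‖y‖ + ‖x0‖ := norm_sub_le _ _
    _ < R' := by rw [hR']; linarith [le_max_left R 0]

end Vale.Agent.P137
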