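import Vale.Agent.P137.Defs

/-!
The smoothing ladder.

Proof notes.  `ballAvg` commutes with translations, preserves integrals and continuity, and
satisfies the triangle inequality; hence `IsPot` passes up the ladder and `dd` is nonnegative with
integral `phi l - phi j`.  The window bound: for nonnegative `g` and by induction on `k`,
the integral of `chain g l k` over `ball p r` is at least the integral of `g` over
`ball p (r - sum of the radii)`; the radii below `rho j` sum to less than `rho j / 3`; and
`chain` is linear, so with `e` the direction of `lad v j p` the deficit `gdef` gives `dd`.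
Tail: `phi 0 - phi j ≤ ∫ ‖v - lad v j‖ ≤ omega v (2 rho j)` as the radii sum to at most
`2 rho j`.  `sum_phi`: telescope in each residue class, or by induction.
-/

namespace Vale.Agent.P137

open MeasureTheory Metric Filter Topology Set
open scoped ENNReal RealInnerProductSpace

variable {d : ℕ}

theorem rho_pos {ε : ℝ} (hε : 0 < ε) (l : ℕ) : 0 < rho ε l :=
  mul_pos hε (pow_pos (by norm_num) l)

private theorem rho_succ (ε : ℝ) (l : ℕ) : rho ε (l + 1) = 4 * rho ε l := by
  simp only [rho, pow_succ]
  ring

private theorem rho_mono {ε : ℝ} (hε : 0 < ε) {l j : ℕ} (h : l ≤ j) : rho ε l ≤ rho ε j :=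
  mul_le_mul_of_nonneg_left (pow_le_pow_right₀ (by norm_num) h) hε.le

private theorem volReal_ball_pos {ρ : ℝ} (hρ : 0 < ρ) :
    0 < volume.real (ball (0 : EE d) ρ) :=
  ENNReal.toReal_pos (measure_ball_pos _ _ hρ).ne' measure_ball_lt_top.ne

section Avg

variable {F : Type*} [NormedAddCommGroup F] [NormedSpace ℝ F]

omit [NormedSpace ℝ F] in
private theorem intOn_ball {H : EE d → F} (hH : Continuous H) (p : EE d) (r : ℝ) :
    IntegrableOn H (ball p r) :=
  (hH.continuousOn.integrableOn_compact (isCompact_closedBall p r)).mono_set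
    ball_subset_closedBall

private theorem continuous_ballAvg (ρ : ℝ) {g : EE d → F} (hg : Continuous g) :
    Continuous (ballAvg ρ g) := by
  refine Continuous.const_smul ?_ _
  rw [continuous_iff_continuousAt]
  intro x₀
  obtain ⟨C, hC⟩ := (isCompact_closedBall x₀ (1 + ρ)).exists_bound_of_continuousOn hg.continuousOn
  have : Fact (volume (ball (0 : EE d) ρ) < ⊤) := ⟨measure_ball_lt_top⟩
  refine continuousAt_of_dominated (bound := fun _ => C)
    (.of_forall fun x => (hg.comp (continuous_const.add continuous_id)).aestronglyMeasurable)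
    ?_ (integrable_const C) (.of_forall fun u => (hg.comp (continuous_id.add continuous_const)).continuousAt)
  filter_upwards [ball_mem_nhds x₀ one_pos] with x hx
  filter_upwards [ae_restrict_mem measurableSet_ball] with u hu
  refine hC _ ?_
  rw [mem_ball_zero_iff] at hu
  rw [mem_ball, dist_eq_norm] at hx
  rw [mem_closedBall, dist_eq_norm]
  calc ‖x + u - x₀‖ = ‖(x - x₀) + u‖ := by congr 1; abel
    _ ≤ ‖x - x₀‖ + ‖u‖ := norm_add_le _ _
    _ ≤ 1 + ρ := by linarith

omit [NormedSpace ℝ F] in
private theorem integrable_shift_prod (ρ : ℝ) {g : EE d → F} (hg : Continuous g)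
    (hi : Integrable g) :
    Integrable (fun z : EE d × EE d => g (z.1 + z.2))
      (volume.prod (volume.restrict (ball (0 : EE d) ρ))) := by
  have : Fact (volume (ball (0 : EE d) ρ) < ⊤) := ⟨measure_ball_lt_top⟩
  have hm : Continuous fun z : EE d × EE d => g (z.1 + z.2) := by fun_prop
  rw [integrable_prod_iff' hm.aestronglyMeasurable]
  refine ⟨.of_forall fun y => hi.comp_add_right y, ?_⟩
  simp only [integral_add_right_eq_self (fun x => ‖g x‖)]
  exact integrable_const _

private theorem integrable_ballAvg (ρ : ℝ) {g : EE d → F} (hg : Continuous g)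
    (hi : Integrable g) : Integrable (ballAvg ρ g) :=
  (integrable_shift_prod ρ hg hi).integral_prod_left.smul (volume.real (ball (0 : EE d) ρ))⁻¹

private theorem integral_ballAvg {ρ : ℝ} (hρ : 0 < ρ) [CompleteSpace F] {g : EE d → F}
    (hg : Continuous g) (hi : Integrable g) : ∫ x, ballAvg ρ g x = ∫ x, g x := by
  simp only [ballAvg]
  rw [integral_smul, integral_integral_swap (integrable_shift_prod ρ hg hi)]
  simp only [integral_add_right_eq_self g]
  rw [setIntegral_const, inv_smul_smul₀ (volReal_ball_pos hρ).ne']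

private theorem continuous_lad (ε : ℝ) {g : EE d → F} (hg : Continuous g) :
    ∀ l, Continuous (lad ε g l)
  | 0 => hg
  | l + 1 => continuous_ballAvg _ (continuous_lad ε hg l)

private theorem integrable_lad (ε : ℝ) {g : EE d → F} (hg : Continuous g) (hi : Integrable g) :
    ∀ l, Integrable (lad ε g l)
  | 0 => hi
  | l + 1 => integrable_ballAvg _ (continuous_lad ε hg l) (integrable_lad ε hg hi l)

end Avg

private theorem continuous_chain (ε : ℝ) {g : EE d → ℝ} (hg : Continuous g) (l : ℕ) :
    ∀ k, Continuous (chain ε g l k)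
  | 0 => hg
  | k + 1 => continuous_ballAvg _ (continuous_chain ε hg l k)

private theorem integrable_chain (ε : ℝ) {g : EE d → ℝ} (hg : Continuous g) (hi : Integrable g)
    (l : ℕ) : ∀ k, Integrable (chain ε g l k)
  | 0 => hi
  | k + 1 => integrable_ballAvg _ (continuous_chain ε hg l k) (integrable_chain ε hg hi l k)

private theorem integral_chain {ε : ℝ} (hε : 0 < ε) {g : EE d → ℝ} (hg : Continuous g)
    (hi : Integrable g) (l : ℕ) : ∀ k, ∫ x, chain ε g l k x = ∫ x, g x
  | 0 => rfl
  | k + 1 => (integral_ballAvg (rho_pos hε _) (continuous_chain ε hg l k)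
      (integrable_chain ε hg hi l k)).trans (integral_chain hε hg hi l k)

private theorem chain_nonneg {ε : ℝ} {g : EE d → ℝ} (hg : ∀ x, 0 ≤ g x) (l : ℕ) :
    ∀ k x, 0 ≤ chain ε g l k x
  | 0, x => hg x
  | _ + 1, _ => mul_nonneg (inv_nonneg.2 measureReal_nonneg)
      (setIntegral_nonneg measurableSet_ball fun _ _ => chain_nonneg hg l _ _)

theorem isPot_lad {ε : ℝ} (hε : 0 < ε) {g : EE d → ℝ} {v : EE d → EE d} (hp : IsPot g v) (l : ℕ) :
    IsPot (lad ε g l) (lad ε v l) := by
  have _ := hε
  induction l with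
  | zero => exact hp
  | succ l ih =>
    refine ⟨continuous_lad ε hp.cont _, continuous_lad ε hp.contv _,
      integrable_lad ε hp.cont hp.int _, integrable_lad ε hp.contv hp.intv _, fun y w => ?_⟩
    set ρ := rho ε (l + 1)
    set G := lad ε g l
    set V := lad ε v l
    have hG : Continuous G := continuous_lad ε hp.cont l
    have hV : Continuous V := continuous_lad ε hp.contv l
    set c := (volume.real (ball (0 : EE d) ρ))⁻¹
    have hswap : Integrable (Function.uncurry fun (s : ℝ) (u : EE d) => ⟪V (y + u + s • w), w⟫)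
        ((volume.restrict (Set.uIoc (0 : ℝ) 1)).prod (volume.restrict (ball (0 : EE d) ρ))) := by
      rw [Measure.prod_restrict]
      have hc : Continuous (Function.uncurry fun (s : ℝ) (u : EE d) =>
          ⟪V (y + u + s • w), w⟫) := by
        unfold Function.uncurry
        fun_prop
      exact ((hc.continuousOn.integrableOn_compact
        ((isCompact_uIcc (a := (0 : ℝ)) (b := 1)).prod (isCompact_closedBall 0 ρ))).mono_set
        (prod_mono uIoc_subset_uIcc ball_subset_closedBall))
    show c • (∫ u in ball 0 ρ, G (y + w + u)) - c • (∫ u in ball 0 ρ, G (y + u)) =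
      ∫ s in (0 : ℝ)..1, ⟪c • ∫ u in ball 0 ρ, V (y + s • w + u), w⟫
    have hGu : ∀ a : EE d, Continuous fun u => G (a + u) := fun a => by fun_prop
    rw [← smul_sub, ← integral_sub (intOn_ball (hGu (y + w)) 0 ρ) (intOn_ball (hGu y) 0 ρ)]
    have h1 : ∀ u, G (y + w + u) - G (y + u) = ∫ s in (0 : ℝ)..1, ⟪V (y + u + s • w), w⟫ :=
      fun u => by rw [add_right_comm y w u]; exact ih.seg (y + u) w
    have h2 : ∀ s : ℝ, ⟪c • ∫ u in ball 0 ρ, V (y + s • w + u), w⟫ =
        c * ∫ u in ball 0 ρ, ⟪V (y + u + s • w), w⟫ := fun s => by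
      rw [real_inner_smul_left, real_inner_comm]
      congr 1
      have hVu : Continuous fun u => V (y + s • w + u) := by fun_prop
      rw [← integral_inner (intOn_ball hVu 0 ρ)]
      refine integral_congr_ae (.of_forall fun u => ?_)
      simp only [real_inner_comm w, add_right_comm y (s • w) u]
    simp only [h1, h2]
    rw [intervalIntegral.integral_const_mul, intervalIntegral_integral_swap hswap, smul_eq_mul]

theorem gdef_nonneg (ε : ℝ) (v : EE d → EE d) {e : EE d} (he : ‖e‖ = 1) (l : ℕ) (y : EE d) :
    0 ≤ gdef ε v e l y := by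
  have h := real_inner_le_norm (lad ε v l y) e
  rw [he, mul_one] at h
  exact sub_nonneg.2 h

theorem gdef_continuous_integrable {ε : ℝ} (hε : 0 < ε) {v : EE d → EE d} (hc : Continuous v)
    (hi : Integrable v) (e : EE d) (l : ℕ) :
    Continuous (gdef ε v e l) ∧ Integrable (gdef ε v e l) := by
  have _ := hε
  have h := continuous_lad ε hc l
  exact ⟨h.norm.sub (h.inner continuous_const),
    (integrable_lad ε hc hi l).norm.sub ((integrable_lad ε hc hi l).inner_const e)⟩

private theorem norm_lad_le {ε : ℝ} {v : EE d → EE d} (hc : Continuous v) (l : ℕ) :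
    ∀ k x, ‖lad ε v (l + k) x‖ ≤ chain ε (fun y => ‖lad ε v l y‖) l k x
  | 0, x => le_rfl
  | k + 1, x => by
    show ‖(volume.real (ball (0 : EE d) (rho ε (l + k + 1))))⁻¹ •
      ∫ u in ball 0 (rho ε (l + k + 1)), lad ε v (l + k) (x + u)‖ ≤ _
    rw [norm_smul, Real.norm_of_nonneg (inv_nonneg.2 measureReal_nonneg)]
    refine mul_le_mul_of_nonneg_left ((norm_integral_le_integral_norm _).trans ?_)
      (inv_nonneg.2 measureReal_nonneg)
    exact setIntegral_mono_on
      (intOn_ball (((continuous_lad ε hc _).comp (continuous_const.add continuous_id)).norm) _ _)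
      (intOn_ball ((continuous_chain ε (continuous_lad ε hc l).norm l k).comp
        (continuous_const.add continuous_id)) _ _)
      measurableSet_ball fun u _ => norm_lad_le hc l k _

theorem dd_spec {ε : ℝ} (hε : 0 < ε) {v : EE d → EE d} (hc : Continuous v)
    (hi : Integrable v) {l j : ℕ} (hlj : l ≤ j) :
    Continuous (dd ε v l j) ∧ Integrable (dd ε v l j) ∧ (∀ x, 0 ≤ dd ε v l j x) ∧
      ∫ x, dd ε v l j x = phi ε v l - phi ε v j := by
  obtain ⟨k, rfl⟩ := Nat.exists_eq_add_of_le hlj
  have hk : l + k - l = k := Nat.add_sub_cancel_left l k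
  have hdd : dd ε v l (l + k) =
      fun x => chain ε (fun y => ‖lad ε v l y‖) l k x - ‖lad ε v (l + k) x‖ := by
    funext x
    rw [dd, hk]
  have hN := (continuous_lad ε hc l).norm
  have hNi := (integrable_lad ε hc hi l).norm
  have hM := (continuous_lad ε hc (l + k)).norm
  have hMi := (integrable_lad ε hc hi (l + k)).norm
  rw [hdd]
  refine ⟨(continuous_chain ε hN l k).sub hM, (integrable_chain ε hN hNi l k).sub hMi,
    fun x => sub_nonneg.2 (norm_lad_le hc l k x), ?_⟩
  rw [integral_sub (integrable_chain ε hN hNi l k) hMi, integral_chain hε hN hNi]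
  rfl

theorem phi_anti {ε : ℝ} (hε : 0 < ε) {v : EE d → EE d} (hc : Continuous v)
    (hi : Integrable v) {l j : ℕ} (hlj : l ≤ j) : phi ε v j ≤ phi ε v l := by
  obtain ⟨-, -, h0, h1⟩ := dd_spec hε hc hi hlj
  exact sub_nonneg.1 (h1 ▸ integral_nonneg h0)

private theorem omega_mono (v : EE d → EE d) {s t : ℝ} (h : s ≤ t) : omega v s ≤ omega v t :=
  iSup₂_le fun u hu =>
    le_iSup₂ (f := fun u (_ : ‖u‖ ≤ t) => ∫⁻ x, ‖v (x + u) - v x‖ₑ) u (hu.trans h)

private theorem lintegral_lad_sub_le {ε : ℝ} (hε : 0 < ε) {v : EE d → EE d} (hc : Continuous v) :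
    ∀ (j : ℕ) (u : EE d),
      ∫⁻ x, ‖lad ε v j (x + u) - v x‖ₑ ≤ omega v (‖u‖ + 2 * rho ε j)
  | 0, u => by
    refine le_iSup₂ (f := fun u' (_ : ‖u'‖ ≤ ‖u‖ + 2 * rho ε 0) =>
      ∫⁻ x, ‖v (x + u') - v x‖ₑ) u ?_
    linarith [rho_pos hε 0]
  | j + 1, u => by
    set ρ := rho ε (j + 1) with hρdef
    have hρ : 0 < ρ := rho_pos hε _
    set V := lad ε v j with hV
    have hVc : Continuous V := continuous_lad ε hc j
    set B := ball (0 : EE d) ρ
    have hfin : volume B ≠ ⊤ := measure_ball_lt_top.ne
    have hpos : volume B ≠ 0 := (measure_ball_pos _ _ hρ).ne'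
    have hpt : ∀ x, ‖lad ε v (j + 1) (x + u) - v x‖ₑ ≤
        (volume B)⁻¹ * ∫⁻ z in B, ‖V (x + u + z) - v x‖ₑ := by
      intro x
      have he : lad ε v (j + 1) (x + u) - v x =
          (volume.real B)⁻¹ • ∫ z in B, (V (x + u + z) - v x) := by
        have hVu : Continuous fun z => V (x + u + z) := by fun_prop
        rw [integral_sub (intOn_ball hVu _ _) (integrableOn_const hfin), setIntegral_const,
          smul_sub,
          inv_smul_smul₀ (volReal_ball_pos hρ).ne']
        rfl
      rw [he, enorm_smul]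
      refine mul_le_mul' (le_of_eq ?_) (enorm_integral_le_lintegral_enorm _)
      rw [Real.enorm_eq_ofReal (inv_nonneg.2 measureReal_nonneg),
        ENNReal.ofReal_inv_of_pos (volReal_ball_pos hρ), measureReal_def,
        ENNReal.ofReal_toReal hfin]
    refine (lintegral_mono hpt).trans ?_
    rw [lintegral_const_mul' _ _ (ENNReal.inv_ne_top.2 hpos)]
    rw [lintegral_lintegral_swap]
    · calc (volume B)⁻¹ * ∫⁻ z in B, ∫⁻ x, ‖V (x + u + z) - v x‖ₑ
          ≤ (volume B)⁻¹ * ∫⁻ _z in B, omega v (‖u‖ + 2 * ρ) := by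
            refine mul_le_mul' le_rfl (setLIntegral_mono measurable_const fun z hz => ?_)
            simp only [add_assoc _ u z]
            refine (lintegral_lad_sub_le hε hc j (u + z)).trans (omega_mono v ?_)
            rw [mem_ball_zero_iff] at hz
            have h4 : ρ = 4 * rho ε j := rho_succ ε j
            linarith [norm_add_le u z, rho_pos hε j]
        _ = _ := by
          rw [setLIntegral_const, ← mul_assoc, mul_comm (volume B)⁻¹, mul_assoc,
            ENNReal.inv_mul_cancel hpos hfin, mul_one]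
    · exact (Continuous.measurable (by unfold Function.uncurry; fun_prop :
        Continuous (Function.uncurry fun x z => ‖V (x + u + z) - v x‖ₑ))).aemeasurable

theorem phi_tail {ε : ℝ} (hε : 0 < ε) {v : EE d → EE d} (hc : Continuous v)
    (hi : Integrable v) (j : ℕ) :
    ENNReal.ofReal (phi ε v 0 - phi ε v j) ≤ omega v (2 * rho ε j) := by
  have h := lintegral_lad_sub_le hε hc j 0
  simp only [add_zero, norm_zero, zero_add] at h
  refine le_trans ?_ h
  have hdiff : Integrable (fun x => lad ε v j x - v x) := (integrable_lad ε hc hi j).sub hi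
  rw [← ofReal_integral_norm_eq_lintegral_enorm hdiff]
  refine ENNReal.ofReal_le_ofReal ?_
  simp only [phi, lad]
  rw [← integral_sub hi.norm (integrable_lad ε hc hi j).norm]
  refine integral_mono (hi.norm.sub (integrable_lad ε hc hi j).norm) hdiff.norm fun x => ?_
  rw [norm_sub_rev (lad ε v j x)]
  exact norm_sub_norm_le _ _

theorem exists_dir (hd : 1 ≤ d) (u : EE d) : ∃ e : EE d, ‖e‖ = 1 ∧ u = ‖u‖ • e := by
  by_cases hu : u = 0
  · exact ⟨EuclideanSpace.single ⟨0, hd⟩ 1, by simp, by simp [hu]⟩
  · refine ⟨‖u‖⁻¹ • u, norm_smul_inv_norm hu, ?_⟩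
    rw [smul_inv_smul₀ (norm_ne_zero_iff.2 hu)]

private theorem chain_gdef {ε : ℝ} {v : EE d → EE d} (hc : Continuous v) (e : EE d) (l : ℕ) :
    ∀ k x, chain ε (gdef ε v e l) l k x =
      chain ε (fun y => ‖lad ε v l y‖) l k x - ⟪lad ε v (l + k) x, e⟫
  | 0, x => rfl
  | k + 1, x => by
    show ballAvg _ (chain ε (gdef ε v e l) l k) x = ballAvg _ _ x - ⟪ballAvg _ (lad ε v (l + k)) x, e⟫
    simp only [ballAvg, chain_gdef hc e l k]
    have hC : Continuous fun u : EE d => chain ε (fun y => ‖lad ε v l y‖) l k (x + u) :=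
      (continuous_chain ε (continuous_lad ε hc l).norm l k).comp
        (continuous_const.add continuous_id)
    have hL : Continuous fun u : EE d => lad ε v (l + k) (x + u) :=
      (continuous_lad ε hc _).comp (continuous_const.add continuous_id)
    rw [integral_sub (intOn_ball hC _ _) (intOn_ball (hL.inner continuous_const) _ _), smul_sub,
      real_inner_smul_left, real_inner_comm e, ← integral_inner (intOn_ball hL _ _) e]
    simp only [real_inner_comm e, smul_eq_mul]
    rfl

private theorem ball_step {H : EE d → ℝ} (hH : Continuous H) (hH0 : ∀ x, 0 ≤ H x) {ρ : ℝ}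
    (hρ : 0 < ρ) (p : EE d) (r : ℝ) :
    ∫ x in ball p (r - ρ), H x ≤ ∫ x in ball p r, ballAvg ρ H x := by
  simp only [ballAvg, smul_eq_mul]
  rw [integral_const_mul]
  have hswap : Integrable (Function.uncurry fun x u : EE d => H (x + u))
      ((volume.restrict (ball p r)).prod (volume.restrict (ball (0 : EE d) ρ))) := by
    rw [Measure.prod_restrict]
    exact (((hH.comp (continuous_fst.add continuous_snd)).continuousOn.integrableOn_compact
      ((isCompact_closedBall p r).prod (isCompact_closedBall 0 ρ))).mono_set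
      (prod_mono ball_subset_closedBall ball_subset_closedBall))
  rw [integral_integral_swap hswap, inv_mul_eq_div, le_div_iff₀ (volReal_ball_pos hρ),
    mul_comm, ← smul_eq_mul, ← setIntegral_const]
  refine setIntegral_mono_on (integrableOn_const measure_ball_lt_top.ne)
    hswap.integral_prod_right measurableSet_ball fun u hu => ?_
  have he : ∫ x in ball p r, H (x + u) = ∫ x in ball (p + u) r, H x := by
    rw [← (measurePreserving_add_right volume u).setIntegral_preimage_emb
      (measurableEmbedding_addRight u) H]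
    congr 2
    ext x
    simp [dist_eq_norm]
  rw [he]
  refine setIntegral_mono_set (intOn_ball hH _ _) (.of_forall hH0) (.of_forall fun x hx => ?_)
  change x ∈ ball p (r - ρ) at hx
  show x ∈ ball (p + u) r
  rw [mem_ball] at hx ⊢
  rw [mem_ball_zero_iff] at hu
  calc dist x (p + u) ≤ dist x p + dist p (p + u) := dist_triangle _ _ _
    _ < r := by rw [dist_self_add_right]; linarith

private theorem chain_window {ε : ℝ} (hε : 0 < ε) {G : EE d → ℝ} (hG : Continuous G)
    (hG0 : ∀ x, 0 ≤ G x) (l : ℕ) (p : EE d) : ∀ (k : ℕ) (r : ℝ),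
    ∫ x in ball p (r - (rho ε (l + k + 1) - rho ε (l + 1)) / 3), G x ≤
      ∫ x in ball p r, chain ε G l k x
  | 0, r => by simp [chain]
  | k + 1, r => by
    have h1 := chain_window hε hG hG0 l p k (r - rho ε (l + k + 1))
    have h2 := ball_step (continuous_chain ε hG l k) (chain_nonneg hG0 l k)
      (rho_pos hε (l + k + 1)) p r
    have h3 : r - rho ε (l + k + 1) - (rho ε (l + k + 1) - rho ε (l + 1)) / 3 =
        r - (rho ε (l + (k + 1) + 1) - rho ε (l + 1)) / 3 := by
      rw [← add_assoc l k 1, rho_succ ε (l + k + 1)]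
      ring
    rw [h3] at h1
    exact h1.trans h2

theorem window_bound {ε : ℝ} (hε : 0 < ε) {v : EE d → EE d} (hc : Continuous v)
    (hi : Integrable v) {l j : ℕ} (hlj : l < j) {p e : EE d} (he : ‖e‖ = 1)
    (hdir : lad ε v j p = ‖lad ε v j p‖ • e) :
    ∫ y in ball p (2 * rho ε j / 3), gdef ε v e l y ≤
      volume.real (ball (0 : EE d) (rho ε j)) * dd ε v l j p := by
  obtain ⟨k, rfl⟩ := Nat.exists_eq_add_of_lt hlj
  have hG := (gdef_continuous_integrable hε hc hi e l).1
  have hdd : dd ε v l (l + k + 1) p = chain ε (gdef ε v e l) l (k + 1) p := by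
    have hk : l + k + 1 - l = k + 1 := by omega
    have hin : ⟪lad ε v (l + k + 1) p, e⟫ = ‖lad ε v (l + k + 1) p‖ := by
      conv_lhs => rw [hdir]
      rw [real_inner_smul_left, real_inner_self_eq_norm_sq, he, one_pow, mul_one]
    rw [chain_gdef hc e l (k + 1) p, dd, hk, ← add_assoc, hin]
  rw [hdd]
  set R := rho ε (l + k + 1)
  show _ ≤ volume.real (ball (0 : EE d) R) *
    ((volume.real (ball (0 : EE d) R))⁻¹ • ∫ u in ball 0 R, chain ε (gdef ε v e l) l k (p + u))
  rw [smul_eq_mul, mul_inv_cancel_left₀ (volReal_ball_pos (rho_pos hε _)).ne']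
  have hshift : ∫ u in ball (0 : EE d) R, chain ε (gdef ε v e l) l k (p + u) =
      ∫ y in ball p R, chain ε (gdef ε v e l) l k y := by
    rw [← (measurePreserving_add_left volume p).setIntegral_preimage_emb
      (measurableEmbedding_addLeft p) (chain ε (gdef ε v e l) l k) (ball p R)]
    congr 2
    ext x
    simp [dist_eq_norm]
  rw [hshift]
  refine le_trans ?_ (chain_window hε hG (gdef_nonneg ε v he l) l p k R)
  refine setIntegral_mono_set (intOn_ball hG _ _) (.of_forall (gdef_nonneg ε v he l))
    (.of_forall fun x hx => ?_)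
  change x ∈ ball p (2 * R / 3) at hx
  show x ∈ ball p _
  exact ball_subset_ball (by linarith [rho_pos hε (l + 1)]) hx

private theorem sum_shift_sub (f : ℕ → ℝ) (q : ℕ) : ∀ N : ℕ,
    ∑ a ∈ Finset.range N, (f a - f (a + q)) =
      ∑ i ∈ Finset.range q, (f i - f (N + i))
  | 0 => by simp
  | N + 1 => by
    have h := Finset.sum_range_sub' (fun i => f (N + i)) q
    simp only [add_zero] at h
    rw [Finset.sum_range_succ, sum_shift_sub f q N, ← h, ← Finset.sum_add_distrib]
    refine Finset.sum_congr rfl fun i _ => ?_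
    rw [add_right_comm N 1 i, ← add_assoc]
    ring

theorem sum_phi {ε : ℝ} (hε : 0 < ε) {v : EE d → EE d} (hc : Continuous v)
    (hi : Integrable v) (k m J0 : ℕ) :
    ∑ J ∈ Finset.Ico k J0, (phi ε v (J - k) - phi ε v (J + m)) ≤
      ((k : ℝ) + m) * (phi ε v 0 - phi ε v (J0 + m)) := by
  rcases le_or_gt k J0 with hk | hk
  · obtain ⟨N, rfl⟩ := Nat.exists_eq_add_of_le hk
    rw [Finset.sum_Ico_eq_sum_range, Nat.add_sub_cancel_left]
    have he : ∀ a : ℕ, phi ε v (k + a - k) - phi ε v (k + a + m) =
        phi ε v a - phi ε v (a + (k + m)) := fun a => by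
      rw [Nat.add_sub_cancel_left, show k + a + m = a + (k + m) by omega]
    simp only [he]
    rw [sum_shift_sub]
    refine (Finset.sum_le_card_nsmul _ _ (phi ε v 0 - phi ε v (k + N + m)) fun i hi' => ?_).trans
      (le_of_eq (by simp))
    rw [Finset.mem_range] at hi'
    have h1 := phi_anti hε hc hi (Nat.zero_le i)
    have h2 := phi_anti hε hc hi (show N + i ≤ k + N + m by omega)
    linarith
  · rw [Finset.Ico_eq_empty_of_le hk.le, Finset.sum_empty]
    exact mul_nonneg (by positivity) (sub_nonneg.2 (phi_anti hε hc hi (Nat.zero_le _)))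

end Vale.Agent.P137
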