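import Vale.Agent.P137.Master
import Vale.Agent.P137.MaxBasic
import Vale.Agent.P137.Approx
import Vale.Agent.P137.GradExist

/-!
The endpoint bound for the uncentred ball maximal function.
-/

namespace Vale.Agent.P137

open MeasureTheory Metric Filter Topology Set
open scoped ENNReal RealInnerProductSpace

variable {d : ℕ}

theorem mu_neg (f : EE d → ℝ) (x : EE d) : Mu (fun y => -f y) x = Mu f x := by
  simp only [Mu, abs_neg]

/-- A subsequence along which the maximal functions converge almost everywhere. -/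
theorem mu_subseq {f : EE d → ℝ} (hf : Integrable f) {g : ℕ → EE d → ℝ}
    (hg : ∀ k, Integrable (g k)) (hg0 : ∀ k x, 0 ≤ g k x)
    (hlim : Tendsto (fun k => ∫⁻ x, ‖|f x| - g k x‖ₑ) atTop (𝓝 0)) :
    ∃ σ : ℕ → ℕ, StrictMono σ ∧
      ∀ᵐ x, Tendsto (fun k => Mu (g (σ k)) x) atTop (𝓝 (Mu f x)) := by
  obtain ⟨C, hC, hweak⟩ := mu_weak d
  set r : ℝ≥0∞ := ENNReal.ofReal (1 / 2) with hr
  have hr1 : r < 1 := by rw [hr, ENNReal.ofReal_lt_one]; norm_num
  have hr0 : 0 < r := by rw [hr, ENNReal.ofReal_pos]; norm_num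
  have hev : ∀ k : ℕ, ∀ᶠ n in atTop, ∫⁻ x, ‖|f x| - g n x‖ₑ < r ^ (2 * k) := fun k =>
    hlim.eventually (eventually_lt_nhds (pos_iff_ne_zero.2 (pow_ne_zero _ hr0.ne')))
  obtain ⟨σ, hσ, hσP⟩ := extraction_forall_of_eventually hev
  refine ⟨σ, hσ, ?_⟩
  set E : ℕ → EE d → ℝ≥0∞ := fun k x => Mu (fun y => |f y| - |g (σ k) y|) x with hE
  have hbad : ∀ k, volume {x | r ^ k < E k x} ≤ C * r ^ k := by
    intro k
    have hrk : r ^ k = ENNReal.ofReal ((1 / 2) ^ k) := by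
      rw [hr, ENNReal.ofReal_pow (by norm_num : (0 : ℝ) ≤ 1 / 2)]
    have hi : Integrable (fun y => |f y| - |g (σ k) y|) := hf.abs.sub (hg (σ k)).abs
    have h2 := hweak _ hi ((1 / 2) ^ k) (by positivity)
    rw [← hrk] at h2
    refine h2.trans ?_
    have h3 : ∫⁻ x, ‖|f x| - |g (σ k) x|‖ₑ ≤ r ^ k * r ^ k := by
      rw [← pow_add, ← two_mul]
      refine le_trans (le_of_eq ?_) (hσP k).le
      refine lintegral_congr fun x => ?_
      rw [abs_of_nonneg (hg0 _ x)]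
    calc C * (∫⁻ x, ‖|f x| - |g (σ k) x|‖ₑ) / r ^ k ≤ C * (r ^ k * r ^ k) / r ^ k := by gcongr
      _ = C * r ^ k := by
          rw [← mul_assoc, ENNReal.mul_div_cancel_right (pow_ne_zero _ hr0.ne')
            (ENNReal.pow_ne_top ENNReal.ofReal_ne_top)]
  have hsum : ∑' k, volume {x | r ^ k < E k x} ≠ ⊤ := by
    refine ne_top_of_le_ne_top ?_ (ENNReal.tsum_le_tsum hbad)
    rw [ENNReal.tsum_mul_left, ENNReal.tsum_geometric]
    exact ENNReal.mul_ne_top hC (ENNReal.inv_ne_top.2 (tsub_pos_of_lt hr1).ne')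
  filter_upwards [ae_eventually_notMem hsum, mu_ae_lt_top hf] with x hx hfin
  have hp : Tendsto (fun k : ℕ => r ^ k) atTop (𝓝 0) :=
    ENNReal.tendsto_pow_atTop_nhds_zero_of_lt_one hr1
  refine tendsto_of_tendsto_of_tendsto_of_le_of_le' (g := fun k => Mu f x - r ^ k)
    (h := fun k => Mu f x + r ^ k) ?_ ?_ ?_ ?_
  · simpa using ENNReal.Tendsto.sub tendsto_const_nhds hp (Or.inl hfin.ne)
  · simpa using tendsto_const_nhds.add hp
  · filter_upwards [hx] with k hk
    simp only [not_lt] at hk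
    rw [tsub_le_iff_right]
    exact (mu_sublinear hf (hg (σ k)) x).trans (add_le_add le_rfl hk)
  · filter_upwards [hx] with k hk
    simp only [not_lt] at hk
    refine (mu_sublinear (hg (σ k)) hf x).trans (add_le_add le_rfl ?_)
    have e : (fun y => |g (σ k) y| - |f y|) = fun y => -(|f y| - |g (σ k) y|) :=
      funext fun y => by ring
    rw [e, mu_neg]
    exact hk

theorem enorm_toReal_sub {a b : ℝ≥0∞} (ha : a ≠ ⊤) (hb : b ≠ ⊤) :
    ‖a.toReal - b.toReal‖ₑ = (a - b) + (b - a) := by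
  rcases le_total b a with h | h
  · rw [tsub_eq_zero_of_le h, add_zero, Real.enorm_eq_ofReal
      (sub_nonneg.2 (ENNReal.toReal_mono ha h)), ← ENNReal.toReal_sub_of_le h ha,
      ENNReal.ofReal_toReal (ne_top_of_le_ne_top ha tsub_le_self)]
  · rw [tsub_eq_zero_of_le h, zero_add, ← enorm_neg, neg_sub, Real.enorm_eq_ofReal
      (sub_nonneg.2 (ENNReal.toReal_mono hb h)), ← ENNReal.toReal_sub_of_le h hb,
      ENNReal.ofReal_toReal (ne_top_of_le_ne_top hb tsub_le_self)]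

theorem shift_bounds (hd : 2 ≤ d) : ∃ (C : ℝ≥0∞) (C' : ℝ), C ≠ ⊤ ∧ 0 < C' ∧
    ∀ (f : EE d → ℝ) (v : EE d → EE d), Integrable f → Integrable v → HasWeakGrad f v →
      ∃ w : EE d → EE d, Integrable w ∧ (∫⁻ x, ‖w x‖ₑ ≤ ∫⁻ x, ‖v x‖ₑ) ∧
        (∀ h : EE d, ∫⁻ x, (Mu f x - Mu f (x + h)) ≤ C * ‖h‖ₑ * ∫⁻ x, ‖w x‖ₑ) ∧
        (∀ δ : ℝ, 0 < δ → ∀ h : EE d,
          ∫⁻ x, (Mu f x - max (MuBig δ f x) (Mu f (x + h))) ≤ C * ‖h‖ₑ * omega w (C' * δ)) := by
  obtain ⟨C1, hC1, hfull⟩ := master_full (d := d) hd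
  obtain ⟨C2, C', hC2, hC', htail⟩ := master_tail (d := d) hd
  refine ⟨C1 + C2, C', ENNReal.add_ne_top.2 ⟨hC1, hC2⟩, hC', fun f v hf hv hfv => ?_⟩
  obtain ⟨g, u, w, hpot, hg0, hw, hwv, hgl, hul⟩ := exists_pot_seq hf hv hfv
  obtain ⟨σ, hσ, hconv⟩ := mu_subseq hf (fun k => (hpot k).int) hg0 hgl
  refine ⟨w, hw, hwv, fun h => ?_, fun δ hδ h => ?_⟩
  · have hqm := (measurePreserving_add_right volume h).quasiMeasurePreserving
    have hae : ∀ᵐ x, Tendsto (fun k => Mu (g (σ k)) x - Mu (g (σ k)) (x + h)) atTop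
        (𝓝 (Mu f x - Mu f (x + h))) := by
      filter_upwards [hconv, hqm.ae hconv, mu_ae_lt_top hf] with x h1 h2 h3
      exact ENNReal.Tendsto.sub h1 h2 (Or.inl h3.ne)
    calc ∫⁻ x, (Mu f x - Mu f (x + h))
        = ∫⁻ x, liminf (fun k => Mu (g (σ k)) x - Mu (g (σ k)) (x + h)) atTop :=
          lintegral_congr_ae (hae.mono fun x hx => hx.liminf_eq.symm)
      _ ≤ liminf (fun k => ∫⁻ x, (Mu (g (σ k)) x - Mu (g (σ k)) (x + h))) atTop :=
          lintegral_liminf_le fun k =>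
            (measurable_mu _).sub ((measurable_mu _).comp (measurable_add_const h))
      _ ≤ liminf (fun k => (C1 + C2) * ‖h‖ₑ *
            ((∫⁻ x, ‖w x‖ₑ) + ∫⁻ x, ‖u (σ k) x - w x‖ₑ)) atTop := by
          refine liminf_le_liminf (Eventually.of_forall fun k => ?_)
          rw [layer_mu (hpot _).int (hg0 _)]
          refine (hfull _ _ (hpot _) (hg0 _) h).trans ?_
          refine mul_le_mul' (mul_le_mul' le_self_add le_rfl) ?_
          rw [← lintegral_add_left' hw.aestronglyMeasurable.enorm]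
          exact lintegral_mono fun x =>
            le_trans (le_of_eq (by rw [add_sub_cancel])) (enorm_add_le (w x) (u (σ k) x - w x))
      _ = _ := by
          have h1 : Tendsto (fun k => (∫⁻ x, ‖w x‖ₑ) + ∫⁻ x, ‖u (σ k) x - w x‖ₑ) atTop
              (𝓝 (∫⁻ x, ‖w x‖ₑ)) := by
            simpa using tendsto_const_nhds.add (hul.comp hσ.tendsto_atTop)
          exact (ENNReal.Tendsto.const_mul h1
            (Or.inr (ENNReal.mul_ne_top (ENNReal.add_ne_top.2 ⟨hC1, hC2⟩) enorm_ne_top))).liminf_eq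
  · have hqm := (measurePreserving_add_right volume h).quasiMeasurePreserving
    have hbig : ∀ x, Tendsto (fun k => MuBig δ (g (σ k)) x) atTop (𝓝 (MuBig δ f x)) := fun x => by
      refine muBig_tendsto hδ hf (fun k => (hpot _).int) ?_ x
      refine (hgl.comp hσ.tendsto_atTop).congr fun k => lintegral_congr fun y => ?_
      rw [abs_of_nonneg (hg0 _ y)]
    have hae : ∀ᵐ x, Tendsto (fun k => Mu (g (σ k)) x -
        max (MuBig δ (g (σ k)) x) (Mu (g (σ k)) (x + h))) atTop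
        (𝓝 (Mu f x - max (MuBig δ f x) (Mu f (x + h)))) := by
      filter_upwards [hconv, hqm.ae hconv, mu_ae_lt_top hf] with x h1 h2 h3
      exact ENNReal.Tendsto.sub h1 ((hbig x).max h2) (Or.inl h3.ne)
    calc ∫⁻ x, (Mu f x - max (MuBig δ f x) (Mu f (x + h)))
        = ∫⁻ x, liminf (fun k => Mu (g (σ k)) x -
            max (MuBig δ (g (σ k)) x) (Mu (g (σ k)) (x + h))) atTop :=
          lintegral_congr_ae (hae.mono fun x hx => hx.liminf_eq.symm)
      _ ≤ liminf (fun k => ∫⁻ x, (Mu (g (σ k)) x -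
            max (MuBig δ (g (σ k)) x) (Mu (g (σ k)) (x + h)))) atTop :=
          lintegral_liminf_le fun k => (measurable_mu _).sub
            ((measurable_muBig _ _).max ((measurable_mu _).comp (measurable_add_const h)))
      _ ≤ liminf (fun k => (C1 + C2) * ‖h‖ₑ *
            (omega w (C' * δ) + 2 * ∫⁻ x, ‖u (σ k) x - w x‖ₑ)) atTop := by
          refine liminf_le_liminf (Eventually.of_forall fun k => ?_)
          rw [layer_muBig (hpot _).int (hg0 _)]
          exact (htail _ _ (hpot _) (hg0 _) δ hδ h).trans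
            (mul_le_mul' (mul_le_mul' le_add_self le_rfl) (omega_le_add (hpot _).intv hw _))
      _ = _ := by
          have h1 : Tendsto (fun k => omega w (C' * δ) + 2 * ∫⁻ x, ‖u (σ k) x - w x‖ₑ) atTop
              (𝓝 (omega w (C' * δ))) := by
            simpa using tendsto_const_nhds.add (ENNReal.Tendsto.const_mul
              (hul.comp hσ.tendsto_atTop) (Or.inr ENNReal.ofNat_ne_top) :
                Tendsto (fun k => 2 * ∫⁻ x, ‖u (σ k) x - w x‖ₑ) atTop (𝓝 (2 * 0)))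
          exact (ENNReal.Tendsto.const_mul h1
            (Or.inr (ENNReal.mul_ne_top (ENNReal.add_ne_top.2 ⟨hC1, hC2⟩) enorm_ne_top))).liminf_eq

theorem mu_w11 (hd : 2 ≤ d) : ∃ C : ℝ, ∀ (f : EE d → ℝ) (v : EE d → EE d),
    Integrable f → Integrable v → HasWeakGrad f v →
      (∀ᵐ x, Mu f x < ⊤) ∧ ∃ w : EE d → EE d,
        LocallyIntegrable (fun x => (Mu f x).toReal) ∧ Integrable w ∧
        HasWeakGrad (fun x => (Mu f x).toReal) w ∧ ∫ x, ‖w x‖ ≤ C * ∫ x, ‖v x‖ := by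
  obtain ⟨C, C', hC, hC', hsb⟩ := shift_bounds (d := d) hd
  refine ⟨((d : ℝ≥0∞) * (2 * C)).toReal, fun f v hf hv hfv => ⟨mu_ae_lt_top hf, ?_⟩⟩
  obtain ⟨w, hw, hwv, hfull, htail⟩ := hsb f v hf hv hfv
  set G : EE d → ℝ := fun x => (Mu f x).toReal with hG
  have hGm : Measurable G := (measurable_mu f).ennreal_toReal
  set A : ℝ≥0∞ := 2 * C * ∫⁻ x, ‖v x‖ₑ with hA
  have hA' : A ≠ ⊤ := ENNReal.mul_ne_top (ENNReal.mul_ne_top ENNReal.ofNat_ne_top hC) hv.2.ne
  have hdiff : ∀ h : EE d, ∀ᵐ x, ‖G (x + h) - G x‖ₑ =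
      (Mu f (x + h) - Mu f x) + (Mu f x - Mu f (x + h)) := by
    intro h
    filter_upwards [mu_ae_lt_top hf,
      (measurePreserving_add_right volume h).quasiMeasurePreserving.ae (mu_ae_lt_top hf)]
      with x h1 h2
    exact enorm_toReal_sub h2.ne h1.ne
  have hback : ∀ (F : EE d → EE d → ℝ≥0∞) (h : EE d),
      ∫⁻ x, F (x + h) (x + h + -h) = ∫⁻ x, F x (x + -h) := fun F h =>
    lintegral_add_right_eq_self (fun y => F y (y + -h)) h
  have h1 : ∀ h : EE d, ∫⁻ x, ‖G (x + h) - G x‖ₑ ≤ A * ‖h‖ₑ := by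
    intro h
    have hm : AEMeasurable (fun x => Mu f (x + h) - Mu f x) :=
      (((measurable_mu f).comp (measurable_add_const h)).sub (measurable_mu f)).aemeasurable
    rw [lintegral_congr_ae (hdiff h), lintegral_add_left' hm]
    have e1 : ∫⁻ x, (Mu f (x + h) - Mu f x) = ∫⁻ x, (Mu f x - Mu f (x + -h)) := by
      rw [← hback (fun a b => Mu f a - Mu f b) h]
      simp
    rw [e1]
    refine (add_le_add (hfull (-h)) (hfull h)).trans ?_
    rw [enorm_neg, hA]
    calc C * ‖h‖ₑ * (∫⁻ x, ‖w x‖ₑ) + C * ‖h‖ₑ * ∫⁻ x, ‖w x‖ₑ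
        = 2 * C * (∫⁻ x, ‖w x‖ₑ) * ‖h‖ₑ := by ring
      _ ≤ _ := by gcongr
  have h2 : ∀ η : ℝ≥0∞, 0 < η → ∃ L : ℝ, ∀ h : EE d,
      ∫⁻ x, (‖G (x + h) - G x‖ₑ - ENNReal.ofReal (L * ‖h‖)) ≤ η * ‖h‖ₑ := by
    intro η hη
    have hmul : Tendsto (fun s : ℝ => C * omega w (C' * s)) (𝓝[>] 0) (𝓝 0) := by
      have h1 : Tendsto (fun s : ℝ => C' * s) (𝓝[>] 0) (𝓝[>] 0) := by
        rw [tendsto_nhdsWithin_iff]
        refine ⟨?_, eventually_nhdsWithin_of_forall fun s hs => mul_pos hC' hs⟩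
        have h0 : Tendsto (fun s : ℝ => C' * s) (𝓝 0) (𝓝 (C' * 0)) :=
          (continuous_const.mul continuous_id).tendsto 0
        rw [mul_zero] at h0
        exact h0.mono_left nhdsWithin_le_nhds
      simpa using ENNReal.Tendsto.const_mul ((omega_tendsto hw).comp h1) (Or.inr hC)
    obtain ⟨δ, hδe, hδ⟩ := ((hmul.eventually (eventually_lt_nhds (ENNReal.half_pos hη.ne'))).and
      (self_mem_nhdsWithin : ∀ᶠ s : ℝ in 𝓝[>] 0, s ∈ Ioi (0 : ℝ))).exists
    obtain ⟨L, hL0, hL⟩ := muBig_lip (hδ : (0 : ℝ) < δ) hf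
    refine ⟨L, fun h => ?_⟩
    set T : EE d → EE d → ℝ≥0∞ := fun k x => Mu f x - max (MuBig δ f x) (Mu f (x + k)) with hT
    have hTm : ∀ k, Measurable (T k) := fun k => (measurable_mu f).sub
      ((measurable_muBig _ _).max ((measurable_mu f).comp (measurable_add_const k)))
    have one : ∀ x k : EE d,
        Mu f x - Mu f (x + k) - ENNReal.ofReal (L * ‖k‖) ≤ T k x := by
      intro x k
      rw [tsub_tsub]
      refine tsub_le_tsub_left ?_ _
      exact max_le ((hL x k).trans (add_le_add (muBig_le_mu _ _ _) le_rfl)) le_self_add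
    have hpt : ∀ᵐ x, ‖G (x + h) - G x‖ₑ - ENNReal.ofReal (L * ‖h‖) ≤
        T h x + T (-h) (x + h) := by
      filter_upwards [hdiff h] with x hx
      rw [hx]
      rcases le_total (Mu f x) (Mu f (x + h)) with hle | hle
      · rw [tsub_eq_zero_of_le hle, add_zero]
        refine le_add_left ?_
        have := one (x + h) (-h)
        rwa [add_neg_cancel_right, norm_neg] at this
      · rw [tsub_eq_zero_of_le hle, zero_add]
        exact le_add_right (one x h)
    refine (lintegral_mono_ae hpt).trans ?_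
    rw [lintegral_add_left (hTm h), lintegral_add_right_eq_self (T (-h)) h]
    refine (add_le_add (htail δ hδ h) (htail δ hδ (-h))).trans ?_
    rw [enorm_neg]
    calc C * ‖h‖ₑ * omega w (C' * δ) + C * ‖h‖ₑ * omega w (C' * δ)
        = 2 * (C * omega w (C' * δ)) * ‖h‖ₑ := by ring
      _ ≤ 2 * (η / 2) * ‖h‖ₑ := by gcongr
      _ = η * ‖h‖ₑ := by rw [ENNReal.mul_div_cancel two_ne_zero ENNReal.ofNat_ne_top]
  have hloc := locallyIntegrable_of_shift hGm hA' h1
  obtain ⟨w', hw', hgrad, hbd⟩ := exists_weakGrad_of_shift hloc hA' h1 h2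
  refine ⟨w', hloc, hw', hgrad, ?_⟩
  rw [integral_norm_eq_lintegral_enorm hw'.1, integral_norm_eq_lintegral_enorm hv.1,
    ← ENNReal.toReal_mul]
  refine ENNReal.toReal_mono (ENNReal.mul_ne_top (ENNReal.mul_ne_top (ENNReal.natCast_ne_top d)
    (ENNReal.mul_ne_top ENNReal.ofNat_ne_top hC)) hv.2.ne) (hbd.trans (le_of_eq ?_))
  rw [hA]; ring

end Vale.Agent.P137
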