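import Vale.Agent.P137.MasterAux

/-!
The assembly: translation differences of the superlevel sets, integrated over the level.

Proof notes.  Fix `N`; count only the points `y` of `Om g t` having a ball of radius `r` with
average above `t`, more than half of the supremal such radius (so that no ball of radius
`1000 r` containing `y` works), with `1/2^N ≤ r` and height of `y` above the bottom point
bounded below by `r / 4^N`; these sets increase to `Om g t`.  Choose `ε` so small that `J ≥ N + 4`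
whenever `rho J ≤ r < 4 rho J`.  Grid cell of side `rho J` containing the centre, `j = J + m`
with `ball p ((const) rho J)` inside two thirds of `ball p (rho j)`, `e` the direction of
`lad v j` at a point `p` of the cell minimising the final bound.  `cap_key` gives `n ≤ K` with
`loss n q ≥ const (3/4)^n |t - c| R^d`; the ball of radius `R/2^n` inside the witness ball that
contains `y` has centre within `17 R / 2^n` of `q`.  Union of such balls inside `Om g t`:
`union_balls_shift`, `volume_add_mul`, `lintegral_markov`, `lintegral_win`, `window_bound`,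
`sum_phi`; the series in `n` is geometric with ratio `(4/3) / 2^(d-1)`.
For the tail only scales `rho J < δ` occur, whence `phi 0 - phi (J0 + m) ≤ omega v (C δ)`.
-/

namespace Vale.Agent.P137

open MeasureTheory Metric Filter Topology Set
open scoped ENNReal RealInnerProductSpace Pointwise

variable {d : ℕ}

private theorem ball_real (z : EE d) {r : ℝ} (hr : 0 < r) :
    volume (ball z r) = ENNReal.ofReal (r ^ d * volume.real (ball (0 : EE d) 1)) := by
  rw [Measure.addHaar_ball_of_pos _ _ hr, finrank_euclideanSpace, Fintype.card_fin,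
    ENNReal.ofReal_mul (by positivity), ofReal_measureReal measure_ball_lt_top.ne]

private theorem algebra_key (k n : ℕ) (C L c0 Cw V R M H S : ℝ) (hC : C ≠ 0) (hL : L ≠ 0)
    (hc : c0 ≠ 0) (hR : R ≠ 0) :
    H / (R / 2 ^ n) *
      ((((20 + L) * (R / 2 ^ n)) ^ (k + 1) * V) / (c0 * ((L * R / 2 ^ n) ^ k * (L * R / 4 ^ n)))) *
      (2 / ((3 / 4 : ℝ) ^ n * R ^ (k + 1) / (4 * C)) *
        (Cw * ((2 * (L * R / 2 ^ n)) ^ k * (2 * (L * R / 4 ^ n))) *
          ((R * M) ^ (k + 1) * V) * S)) =
    ((20 + L) ^ (k + 1) * V ^ 2 * 8 * C * Cw * 2 ^ (k + 1) * M ^ (k + 1) / c0) * H *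
      ((4 / 3 : ℝ) / 2 ^ k) ^ n * (R ^ (k + 1) * (S / R)) := by
  have h4 : (4 : ℝ) ^ n = 2 ^ n * 2 ^ n := by rw [← mul_pow]; norm_num
  have hk : ((2 : ℝ) ^ k) ^ n = (2 ^ n) ^ k := by rw [← pow_mul, ← pow_mul, mul_comm]
  have hP : (2 : ℝ) ^ n ≠ 0 := by positivity
  have h3 : (3 : ℝ) ^ n ≠ 0 := by positivity
  rw [div_pow (4 / 3 : ℝ), div_pow (4 : ℝ) 3, div_pow (3 : ℝ) 4, hk, h4]
  simp only [mul_pow, div_pow, pow_succ]
  field_simp
  ring

set_option linter.unusedVariables false in
theorem scale_bound (hd : 2 ≤ d) : ∃ (C : ℝ≥0∞) (m : ℕ), C ≠ ⊤ ∧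
    ∀ (g : EE d → ℝ) (v : EE d → EE d), IsPot g v → ∀ (N J : ℕ), N + 4 ≤ J → ∀ h : EE d,
      ∫⁻ t, volume ((witSet N J g t \ OmBig (16 * rho (epsN N) J) g t) \ {x | x + h ∈ Om g t}) ≤
        C * ‖h‖ₑ * ENNReal.ofReal (psi (epsN N) v N m J) := by
  obtain ⟨k, rfl⟩ : ∃ k, d = k + 1 := ⟨d - 1, by omega⟩
  have hd1 : 1 ≤ k + 1 := by omega
  obtain ⟨Cc, L, hCc, hL, hcap⟩ := cap_key hd1
  obtain ⟨Cu, hCu, hunion⟩ := union_balls_shift (k + 1)
  obtain ⟨c0, hc0, hlow⟩ := volume_owin (d := k + 1) hd1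
  obtain ⟨Cw, hCw, hwin⟩ := volume_win_le (d := k + 1) hd1
  set V := volume.real (ball (0 : EE (k + 1)) 1) with hVdef
  have hV : 0 < V :=
    ENNReal.toReal_pos (measure_ball_pos _ _ one_pos).ne' measure_ball_lt_top.ne
  obtain ⟨m, hm⟩ := pow_unbounded_of_one_lt (2 * ((k : ℝ) + 6 + 3 * L)) (by norm_num : (1 : ℝ) < 4)
  set K := (20 + L) ^ (k + 1) * V ^ 2 * 8 * Cc * Cw * 2 ^ (k + 1) * ((4 : ℝ) ^ m) ^ (k + 1) / c0
    with hK
  have hK0 : 0 ≤ K := by rw [hK]; positivity
  refine ⟨Cu * ENNReal.ofReal K, m, ENNReal.mul_ne_top hCu ENNReal.ofReal_ne_top, ?_⟩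
  intro g v hp N J hJ h
  set ε := epsN N with hεdef
  have hε : 0 < ε := epsN_pos N
  set R := rho ε J with hRdef
  have hR : 0 < R := master_rho_pos N J
  set j := J + m with hj
  -- the function whose average over a cell is used to choose the point of the cell
  let F : EE (k + 1) → ℝ := fun x => ∑ n ∈ Finset.range (N + 1), (2 / 3 : ℝ) ^ n *
    (dd ε v (J - (n + 3)) j x + ∑ l ∈ Finset.range (J - (n + 3)),
      (4 : ℝ) ^ (l + 1) / 4 ^ J * dd ε v l j x)
  have hspec : ∀ l, l ≤ j → Continuous (dd ε v l j) ∧ Integrable (dd ε v l j) ∧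
      (∀ x, 0 ≤ dd ε v l j x) ∧ ∫ x, dd ε v l j x = phi ε v l - phi ε v j :=
    fun l hl => dd_spec hε hp.contv hp.intv hl
  have hle : ∀ n l, l ∈ Finset.range (J - (n + 3)) → l ≤ j := fun n l hl => by
    have := Finset.mem_range.mp hl; omega
  have hFi : Integrable F := integrable_finsetSum _ fun n _ =>
    ((hspec (J - (n + 3)) (by omega)).2.1.add (integrable_finsetSum _ fun l hl =>
      (hspec l (hle n l hl)).2.1.const_mul _)).const_mul _
  have hF0 : ∀ x, 0 ≤ F x := fun x => Finset.sum_nonneg fun n _ => mul_nonneg (by positivity)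
    (add_nonneg ((hspec (J - (n + 3)) (by omega)).2.2.1 x) (Finset.sum_nonneg fun l hl =>
      mul_nonneg (by positivity) ((hspec l (hle n l hl)).2.2.1 x)))
  have hFint : ∫ x, F x = psi ε v N m J := by
    simp only [F, psi]
    rw [integral_finsetSum]
    swap
    · exact fun n _ => ((hspec (J - (n + 3)) (by omega)).2.1.add (integrable_finsetSum _
        fun l hl => (hspec l (hle n l hl)).2.1.const_mul _)).const_mul _
    refine Finset.sum_congr rfl fun n _ => ?_
    rw [integral_const_mul, integral_add (hspec _ (by omega)).2.1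
      (integrable_finsetSum _ fun l hl => (hspec l (hle n l hl)).2.1.const_mul _),
      (hspec _ (by omega)).2.2.2, integral_finsetSum _ fun l hl =>
        (hspec l (hle n l hl)).2.1.const_mul _]
    refine congrArg _ (congrArg _ (Finset.sum_congr rfl fun l hl => ?_))
    rw [integral_const_mul, (hspec l (hle n l hl)).2.2.2]
  choose p hpcell hple using fun i => exists_cell_point hR hFi i
  choose e he hdir using fun i => exists_dir hd1 (lad ε v j (p i))
  have hGc : ∀ i l, Continuous (gdef ε v (e i) l) ∧ Integrable (gdef ε v (e i) l) :=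
    fun i l => gdef_continuous_integrable hε hp.contv hp.intv (e i) l
  have hG0 : ∀ i l y, 0 ≤ gdef ε v (e i) l y := fun i l y => gdef_nonneg ε v (he i) l y
  let c : (Fin (k + 1) → ℤ) → ℝ := fun i =>
    avg g (p i + (32 * (((k + 1 : ℕ) : ℝ) + 1) * R) • e i) R
  let κ : ℕ → ℝ := fun n => (3 / 4 : ℝ) ^ n * R ^ (k + 1) / (4 * Cc)
  let Q : (Fin (k + 1) → ℤ) → ℕ → ℝ → Set (EE (k + 1)) := fun i n t =>
    {q | ‖q - p i‖ < ((k : ℝ) + 6) * R ∧ κ n * |t - c i| ≤
      loss ε v (e i) (win (e i) q (L * R / 2 ^ n) (L * R / 4 ^ n)) (J - (n + 3)) R}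
  let A : (Fin (k + 1) → ℤ) → ℕ → ℝ → Set (EE (k + 1)) := fun i n t =>
    {a | ball a (R / 2 ^ n) ⊆ Om g t ∧ ∃ q ∈ Q i n t, ‖a - q‖ ≤ 17 * (R / 2 ^ n)}
  let T : (Fin (k + 1) → ℤ) → ℕ → Set (ℝ × EE (k + 1)) := fun i n =>
    {x | x.2 ∈ ball (p i) (((k : ℝ) + 6 + L) * R) ∧ κ n * |x.1 - c i| ≤
      loss ε v (e i) (win (e i) x.2 (2 * (L * R / 2 ^ n)) (2 * (L * R / 4 ^ n))) (J - (n + 3)) R}
  have hκ : ∀ n, 0 < κ n := fun n => by simp only [κ]; positivity
  have hTm : ∀ i n, MeasurableSet (T i n) := fun i n =>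
    (measurableSet_ball.preimage measurable_snd).inter
      (measurableSet_le ((measurable_fst.sub measurable_const).abs.const_mul _)
        ((measurable_loss (e i) (fun l => (hGc i l).1.measurable) _ _ _ _).comp measurable_snd))
  have hTmeas : ∀ i n, Measurable fun t => volume (Prod.mk t ⁻¹' T i n) :=
    fun i n => measurable_measure_prodMk_left (hTm i n)
  let X : ℕ → ℝ := fun n => ‖h‖ / (R / 2 ^ n) *
    ((((20 + L) * (R / 2 ^ n)) ^ (k + 1) * V) /
      (c0 * ((L * R / 2 ^ n) ^ k * (L * R / 4 ^ n))))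
  have hX0 : ∀ n, 0 ≤ X n := fun n => by simp only [X]; positivity
  -- pointwise in the level
  have hpoint : ∀ t,
      volume ((witSet N J g t \ OmBig (16 * R) g t) \ {x | x + h ∈ Om g t}) ≤
      ∑' i, ∑ n ∈ Finset.range (N + 1),
        Cu * ENNReal.ofReal (X n) * volume (Prod.mk t ⁻¹' T i n) := by
    intro t
    have hsub : (witSet N J g t \ OmBig (16 * R) g t) \ {x | x + h ∈ Om g t} ⊆
        ⋃ i, ⋃ n ∈ Finset.range (N + 1), (⋃ a ∈ A i n t, ball a (R / 2 ^ n)) \
          {x | x + h ∈ ⋃ a ∈ A i n t, ball a (R / 2 ^ n)} := by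
      rintro y ⟨⟨⟨z, r, hr1, hr2, htr, hyz⟩, hbig⟩, hyh⟩
      have hr0 : 0 < r := lt_of_lt_of_le hR hr1
      have hpow : (0 : ℝ) ≤ (1 / 4) ^ N := by positivity
      have hy : y ∈ ball z r := by
        rw [mem_ball, dist_eq_norm]
        exact lt_of_lt_of_le hyz (mul_le_of_le_one_right hr0.le (by linarith))
      obtain ⟨i, hzi⟩ : ∃ i, z ∈ cell R i := ⟨_, fun _ => rfl⟩
      have hzp := norm_sub_le_of_cell hR hzi (hpcell i)
      set hgt := ⟪y - (z - r • e i), e i⟫ with hhgt
      have hhN : R / 4 ^ N ≤ hgt := by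
        have h1 : hgt = ⟪y - z, e i⟫ + r := by
          rw [hhgt, show y - (z - r • e i) = (y - z) + r • e i by abel, inner_add_left,
            real_inner_smul_left, real_inner_self_eq_norm_sq, he i]
          ring
        have h2 := abs_le.mp (abs_real_inner_le_norm (y - z) (e i))
        rw [he i, mul_one] at h2
        have h3 : R / 4 ^ N ≤ r * (1 / 4) ^ N := by
          rw [div_pow, one_pow, mul_one_div]
          exact div_le_div_of_nonneg_right hr1 (by positivity)
        linarith [h2.1]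
      have hN1 : 1 ≤ N := by
        rcases Nat.eq_zero_or_pos N with h1 | h1
        · subst h1
          simp only [pow_zero, sub_self, mul_zero] at hyz
          exact absurd hyz (not_lt.mpr (norm_nonneg _))
        · exact h1
      classical
      have hex : ∃ Kl, 1 ≤ Kl ∧ R / 4 ^ Kl ≤ hgt := ⟨N, hN1, hhN⟩
      obtain ⟨hK1, hKlo⟩ := Nat.find_spec hex
      have hKN' : Nat.find hex ≤ N := Nat.find_le ⟨hN1, hhN⟩
      have hKhi : hgt ≤ 32 * (R / 4 ^ Nat.find hex) := by
        rcases eq_or_lt_of_le hK1 with h1 | h1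
        · have h2 : hgt ≤ 2 * r := by
            rw [hhgt, show y - (z - r • e i) = (y - z) + r • e i by abel, inner_add_left,
              real_inner_smul_left, real_inner_self_eq_norm_sq, he i]
            have h3 := abs_le.mp (abs_real_inner_le_norm (y - z) (e i))
            rw [he i, mul_one] at h3
            rw [mem_ball, dist_eq_norm] at hy
            linarith [h3.2]
          rw [← h1, pow_one]
          linarith
        · have h2 := Nat.find_min hex (show Nat.find hex - 1 < Nat.find hex by omega)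
          push Not at h2
          have h3 := h2 (by omega)
          have h4 : R / 4 ^ (Nat.find hex - 1) = 4 * (R / 4 ^ Nat.find hex) := by
            obtain ⟨K', hK'⟩ : ∃ K', Nat.find hex = K' + 1 := ⟨Nat.find hex - 1, by omega⟩
            rw [hK', Nat.add_sub_cancel, pow_succ]
            field_simp
          rw [h4] at h3
          have : 0 ≤ R / 4 ^ Nat.find hex := by positivity
          linarith
      set Kl := Nat.find hex
      set M := 1000 * (((k + 1 : ℕ) : ℝ) + 1) with hM
      have hmem : y ∈ ball (z - r • e i + (R / 4 ^ Kl / 4 + M * r) • e i) (M * r) :=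
        mem_bigBall (he i) hy hR hr1 hKlo
      have hM1 : 2000 ≤ M := by
        rw [hM]; push_cast; linarith [show (0 : ℝ) ≤ k from Nat.cast_nonneg k]
      have havg : avg g (z - r • e i + (R / 4 ^ Kl / 4 + M * r) • e i) (M * r) ≤ t := by
        by_contra hc
        push Not at hc
        refine hbig ⟨_, _, ?_, hmem, hc⟩
        have : 2000 * r ≤ M * r := mul_le_mul_of_nonneg_right hM1 hr0.le
        linarith
      have hkey := hcap ε hε g v hp (e i) (he i) J Kl hK1 (by omega) (p i) z r t hzp hr1 hr2.le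
        htr havg
      have hdist := dist_bottom (he i) hy hR hr2.le hKhi
      set q := z - r • e i with hq
      obtain ⟨n, hnK, hn⟩ : ∃ n ∈ Finset.range (Kl + 1), κ n * |t - c i| ≤
          loss ε v (e i) (win (e i) q (L * R / 2 ^ n) (L * R / 4 ^ n)) (J - n - 3) R := by
        by_contra hc
        push Not at hc
        have h1 := Finset.sum_lt_sum_of_nonempty ⟨0, by simp⟩ hc
        have h2 : ∑ n ∈ Finset.range (Kl + 1), κ n * |t - c i| ≤ R ^ (k + 1) / Cc * |t - c i| := by
          rw [← Finset.sum_mul]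
          refine mul_le_mul_of_nonneg_right ?_ (abs_nonneg _)
          simp only [κ, mul_div_assoc]
          rw [← Finset.sum_mul]
          have hg4 : ∑ n ∈ Finset.range (Kl + 1), (3 / 4 : ℝ) ^ n ≤ 4 := by
            rw [geom_sum_eq (by norm_num), div_le_iff_of_neg (by norm_num)]
            have : (0 : ℝ) ≤ (3 / 4) ^ (Kl + 1) := by positivity
            linarith
          refine le_trans (mul_le_mul_of_nonneg_right hg4 (by positivity)) (le_of_eq ?_)
          field_simp
        have h3 : R ^ (k + 1) / Cc * |t - c i| ≤ ∑ n ∈ Finset.range (Kl + 1),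
            loss ε v (e i) (win (e i) q (L * R / 2 ^ n) (L * R / 4 ^ n)) (J - n - 3) R := by
          rw [div_mul_eq_mul_div, div_le_iff₀ (by linarith), mul_comm (R ^ (k + 1)), mul_comm _ Cc]
          exact hkey
        exact absurd h1 (not_lt.mpr (le_trans h2 h3))
      rw [Finset.mem_range] at hnK
      have hsle : R / 2 ^ n ≤ R := div_le_self hR.le (one_le_pow₀ (by norm_num))
      have hs0 : 0 < R / 2 ^ n := by positivity
      obtain ⟨a, ha1, ha2⟩ := exists_subball hs0 (hsle.trans hr1) hy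
      refine mem_iUnion.mpr ⟨i, mem_iUnion₂.mpr ⟨n, Finset.mem_range.mpr (by omega), ?_, ?_⟩⟩
      · refine mem_iUnion₂.mpr ⟨a, ⟨ha1.trans fun x hx => ⟨z, r, hx, htr⟩, q, ⟨?_, ?_⟩, ?_⟩, ha2⟩
        · calc ‖q - p i‖ = ‖(z - p i) - r • e i‖ := by rw [hq]; congr 1; abel
            _ ≤ ‖z - p i‖ + ‖r • e i‖ := norm_sub_le _ _
            _ < _ := by
                rw [norm_smul, he i, mul_one, Real.norm_of_nonneg hr0.le]
                push_cast at hzp
                linarith
        · rwa [show J - (n + 3) = J - n - 3 by omega]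
        · rw [mem_ball, dist_eq_norm] at ha2
          have h1 : R / 2 ^ Kl ≤ R / 2 ^ n :=
            div_le_div_of_nonneg_left hR.le (by positivity)
              (pow_le_pow_right₀ (by norm_num) (by omega))
          calc ‖a - q‖ = ‖(y - q) - (y - a)‖ := by congr 1; abel
            _ ≤ ‖y - q‖ + ‖y - a‖ := norm_sub_le _ _
            _ ≤ _ := by linarith
      · intro hc
        obtain ⟨a', ha', hmem'⟩ := mem_iUnion₂.mp hc
        exact hyh (ha'.1 hmem')
    refine le_trans (measure_mono hsub) (le_trans (measure_iUnion_le _) ?_)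
    refine ENNReal.tsum_le_tsum fun i => le_trans (measure_biUnion_finset_le _ _) ?_
    refine Finset.sum_le_sum fun n _ => ?_
    set s := R / 2 ^ n with hs
    have hs0 : 0 < s := by positivity
    set a := L * R / 2 ^ n with ha
    set b := L * R / 4 ^ n with hb
    have hb0 : 0 < b := by positivity
    have hba : b ≤ a := div_le_div_of_nonneg_left (by positivity) (by positivity)
      (pow_le_pow_left₀ (by norm_num) (by norm_num) n)
    have ha0 : 0 < a := by positivity
    have haL : a = L * s := by rw [ha, hs]; ring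
    have haR : a ≤ L * R := by
      rw [haL]; exact mul_le_mul_of_nonneg_left
        (div_le_self hR.le (one_le_pow₀ (by norm_num))) (by linarith)
    refine le_trans (hunion s hs0 (A i n t) h) ?_
    have hA : A i n t + ball 0 (2 * s) ⊆ Q i n t + ball 0 (20 * s) := by
      rintro x ⟨a', ⟨-, q, hq, hd'⟩, u, hu, rfl⟩
      refine ⟨q, hq, (a' - q) + u, ?_, by simp only; abel⟩
      rw [mem_ball_zero_iff] at hu ⊢
      refine lt_of_le_of_lt (norm_add_le _ _) ?_
      linarith
    set S := owin (e i) a b with hS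
    have hSsub : S ⊆ ball 0 a := fun x hx => mem_ball_zero_iff.mpr hx.1
    have hBS : ball (0 : EE (k + 1)) (20 * s) + S ⊆ ball 0 ((20 + L) * s) := by
      rintro x ⟨u, hu, w, hw, rfl⟩
      rw [mem_ball_zero_iff] at hu ⊢
      refine lt_of_le_of_lt (norm_add_le _ _) ?_
      have := hw.1
      rw [haL] at this
      linarith
    have hQS : Q i n t + S ⊆ Prod.mk t ⁻¹' T i n := by
      rintro x ⟨q, ⟨hq1, hq2⟩, u, ⟨hu1, hu2⟩, rfl⟩
      refine ⟨?_, hq2.trans ?_⟩
      · rw [mem_ball, dist_eq_norm]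
        calc ‖q + u - p i‖ = ‖(q - p i) + u‖ := by congr 1; abel
          _ ≤ ‖q - p i‖ + ‖u‖ := norm_add_le _ _
          _ < _ := by linarith
      · refine loss_mono hε.le (fun l => (hGc i l).2) (fun l y => hG0 i l y) ?_ _ hR.le
        refine win_subset ?_ ?_
        · simpa using hu1.le
        · simpa using hu2.le
    have hlowS : ENNReal.ofReal (c0 * (a ^ k * b)) ≤ volume S := by
      simpa using hlow (e i) (he i) a b hb0 hba
    have hpos : 0 < c0 * (a ^ k * b) := by positivity
    have hmain : volume (Q i n t + ball 0 (20 * s)) ≤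
        ENNReal.ofReal ((((20 + L) * s) ^ (k + 1) * V) / (c0 * (a ^ k * b))) *
          volume (Prod.mk t ⁻¹' T i n) := by
      rw [ENNReal.ofReal_div_of_pos hpos, ← ENNReal.mul_div_right_comm,
        ENNReal.le_div_iff_mul_le (Or.inl (by simpa using hpos)) (Or.inl ENNReal.ofReal_ne_top)]
      calc volume (Q i n t + ball 0 (20 * s)) * ENNReal.ofReal (c0 * (a ^ k * b))
          ≤ volume (Q i n t + ball 0 (20 * s)) * volume S := by gcongr
        _ ≤ volume (Q i n t + S) * volume (ball (0 : EE (k + 1)) (20 * s) + S) :=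
            volume_add_mul (owin_spec (he i)).1 (owin_spec (he i)).2
        _ ≤ volume (Prod.mk t ⁻¹' T i n) * volume (ball (0 : EE (k + 1)) ((20 + L) * s)) := by
            gcongr
        _ = _ := by rw [ball_real _ (by positivity), mul_comm]
    calc Cu * ENNReal.ofReal (‖h‖ / s) * volume (A i n t + ball 0 (2 * s))
        ≤ Cu * ENNReal.ofReal (‖h‖ / s) *
            (ENNReal.ofReal ((((20 + L) * s) ^ (k + 1) * V) / (c0 * (a ^ k * b))) *
              volume (Prod.mk t ⁻¹' T i n)) := by
          gcongr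
          exact (measure_mono hA).trans hmain
      _ = Cu * ENNReal.ofReal (X n) * volume (Prod.mk t ⁻¹' T i n) := by
          rw [← mul_assoc, mul_assoc Cu (ENNReal.ofReal (‖h‖ / s)),
            ← ENNReal.ofReal_mul (by positivity)]
  -- integrated over the level, for one cell and one `n`
  have hcell : ∀ i, ∀ n ∈ Finset.range (N + 1),
      ∫⁻ t, Cu * ENNReal.ofReal (X n) * volume (Prod.mk t ⁻¹' T i n) ≤
        Cu * ENNReal.ofReal (K * ‖h‖ * (R ^ (k + 1) * ((2 / 3 : ℝ) ^ n *
          (dd ε v (J - (n + 3)) j (p i) + ∑ l ∈ Finset.range (J - (n + 3)),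
            (4 : ℝ) ^ (l + 1) / 4 ^ J * dd ε v l j (p i))))) := by
    intro i n hn
    rw [lintegral_const_mul _ (hTmeas i n), mul_assoc]
    refine mul_le_mul_right ?_ _
    set a := L * R / 2 ^ n with ha
    set b := L * R / 4 ^ n with hb
    have hb0 : 0 < b := by positivity
    have ha0 : 0 < a := by positivity
    have hba : b ≤ a := div_le_div_of_nonneg_left (by positivity) (by positivity)
      (pow_le_pow_left₀ (by norm_num) (by norm_num) n)
    have haR : a ≤ L * R := div_le_self (by positivity) (one_le_pow₀ (by norm_num))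
    set lossT := fun q => loss ε v (e i) (win (e i) q (2 * a) (2 * b)) (J - (n + 3)) R with hlossT
    have hmk : ∫⁻ t, volume (Prod.mk t ⁻¹' T i n) ≤ ENNReal.ofReal (2 / κ n) *
        ∫⁻ q in ball (p i) (((k : ℝ) + 6 + L) * R), ENNReal.ofReal (lossT q) :=
      lintegral_markov (hκ n) measurableSet_ball
        (measurable_loss (e i) (fun l => (hGc i l).1.measurable) _ _ _ _)
    set W := Cw * ((2 * a) ^ k * (2 * b)) * ((R * 4 ^ m) ^ (k + 1) * V) with hW
    have hW0 : 0 ≤ W := by positivity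
    have hwl : ∀ l, l < j →
        ∫⁻ q in ball (p i) (((k : ℝ) + 6 + L) * R),
          ENNReal.ofReal (∫ y in win (e i) q (2 * a) (2 * b), gdef ε v (e i) l y) ≤
        ENNReal.ofReal (W * dd ε v l j (p i)) := by
      intro l hl
      simp only [ofReal_integral_eq_lintegral_ofReal (hGc i l).2.integrableOn
        (Eventually.of_forall (hG0 i l))]
      refine le_trans (lintegral_win (hGc i l).1.measurable.ennreal_ofReal) ?_
      have hrj : rho ε j = R * 4 ^ m := by
        rw [hRdef, hj]; unfold rho; rw [pow_add]; ring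
      have h1 : ∫⁻ y in ball (p i) (((k : ℝ) + 6 + L) * R + 2 * a),
          ENNReal.ofReal (gdef ε v (e i) l y) ≤
          ENNReal.ofReal ((R * 4 ^ m) ^ (k + 1) * V * dd ε v l j (p i)) := by
        refine le_trans (lintegral_mono_set (ball_subset_ball
          (show ((k : ℝ) + 6 + L) * R + 2 * a ≤ 2 * rho ε j / 3 from ?_))) ?_
        · rw [hrj]
          have h9 : (2 * ((k : ℝ) + 6 + 3 * L)) * R ≤ 4 ^ m * R :=
            mul_le_mul_of_nonneg_right hm.le hR.le
          have h10 : (0 : ℝ) ≤ 4 ^ m * R := by positivity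
          linarith
        · rw [← ofReal_integral_eq_lintegral_ofReal (hGc i l).2.integrableOn
            (Eventually.of_forall (hG0 i l))]
          refine ENNReal.ofReal_le_ofReal ?_
          have h2 := window_bound hε hp.contv hp.intv hl (he i) (hdir i)
          rw [hrj, Measure.real, ball_real _ (by positivity),
            ENNReal.toReal_ofReal (by positivity)] at h2
          rw [hrj]; exact h2
      calc volume (win (e i) 0 (2 * a) (2 * b)) *
            ∫⁻ y in ball (p i) (((k : ℝ) + 6 + L) * R + 2 * a),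
              ENNReal.ofReal (gdef ε v (e i) l y)
          ≤ ENNReal.ofReal (Cw * ((2 * a) ^ k * (2 * b))) *
            ENNReal.ofReal ((R * 4 ^ m) ^ (k + 1) * V * dd ε v l j (p i)) := by
            refine mul_le_mul' ?_ h1
            simpa using hwin (e i) 0 (he i) (2 * a) (2 * b) (by positivity) (by linarith)
        _ = _ := by rw [← ENNReal.ofReal_mul (by positivity)]; congr 1; rw [hW]; ring
    have hdd0 : ∀ l, l ≤ j → 0 ≤ dd ε v l j (p i) := fun l hl => (hspec l hl).2.2.1 _
    have hmI : ∀ l, Measurable fun q =>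
        ENNReal.ofReal (∫ y in win (e i) q (2 * a) (2 * b), gdef ε v (e i) l y) := fun l =>
      (measurable_setIntegral_win (hGc i l).1.measurable _ _ _).ennreal_ofReal
    have hint0 : ∀ l q, 0 ≤ ∫ y in win (e i) q (2 * a) (2 * b), gdef ε v (e i) l y :=
      fun l q => integral_nonneg (hG0 i l)
    have hrho : ∀ l, 0 ≤ rho ε (l + 1) := fun l => mul_nonneg hε.le (by positivity)
    set S := R * dd ε v (J - (n + 3)) j (p i) +
      ∑ l ∈ Finset.range (J - (n + 3)), rho ε (l + 1) * dd ε v l j (p i) with hSdef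
    have hS0 : 0 ≤ S := add_nonneg (mul_nonneg hR.le (hdd0 _ (by omega)))
      (Finset.sum_nonneg fun l hl => mul_nonneg (hrho l) (hdd0 l (hle n l hl)))
    have hloss : ∫⁻ q in ball (p i) (((k : ℝ) + 6 + L) * R), ENNReal.ofReal (lossT q) ≤
        ENNReal.ofReal (W * S) := by
      have hexp : ∀ q, ENNReal.ofReal (lossT q) =
          ENNReal.ofReal R * ENNReal.ofReal (∫ y in win (e i) q (2 * a) (2 * b),
            gdef ε v (e i) (J - (n + 3)) y) +
          ∑ l ∈ Finset.range (J - (n + 3)), ENNReal.ofReal (rho ε (l + 1)) *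
            ENNReal.ofReal (∫ y in win (e i) q (2 * a) (2 * b), gdef ε v (e i) l y) := by
        intro q
        simp only [hlossT, loss]
        rw [ENNReal.ofReal_add (mul_nonneg hR.le (hint0 _ q))
          (Finset.sum_nonneg fun l _ => mul_nonneg (hrho l) (hint0 l q)),
          ENNReal.ofReal_mul hR.le,
          ENNReal.ofReal_sum_of_nonneg (fun l _ => mul_nonneg (hrho l) (hint0 l q))]
        simp only [ENNReal.ofReal_mul (hrho _)]
      simp only [hexp]
      rw [lintegral_add_left ((hmI _).const_mul _), lintegral_const_mul _ (hmI _),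
        lintegral_finsetSum _ fun l _ => (hmI l).const_mul _]
      simp only [lintegral_const_mul _ (hmI _)]
      rw [hSdef, mul_add, Finset.mul_sum, ENNReal.ofReal_add
        (mul_nonneg hW0 (mul_nonneg hR.le (hdd0 _ (by omega))))
        (Finset.sum_nonneg fun l hl => mul_nonneg hW0 (mul_nonneg (hrho l) (hdd0 l (hle n l hl)))),
        ENNReal.ofReal_sum_of_nonneg
          (fun l hl => mul_nonneg hW0 (mul_nonneg (hrho l) (hdd0 l (hle n l hl))))]
      refine add_le_add ?_ (Finset.sum_le_sum fun l hl => ?_)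
      · rw [mul_left_comm W R, ENNReal.ofReal_mul hR.le]
        exact mul_le_mul_right (hwl _ (by omega)) _
      · rw [mul_left_comm W (rho ε (l + 1)), ENNReal.ofReal_mul (hrho l)]
        exact mul_le_mul_right (hwl l (by have := Finset.mem_range.mp hl; omega)) _
    calc ENNReal.ofReal (X n) * ∫⁻ t, volume (Prod.mk t ⁻¹' T i n)
        ≤ ENNReal.ofReal (X n) * (ENNReal.ofReal (2 / κ n) * ENNReal.ofReal (W * S)) :=
          mul_le_mul_right (hmk.trans (mul_le_mul_right hloss _)) _
      _ = ENNReal.ofReal (X n * (2 / κ n * (W * S))) := by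
          rw [← ENNReal.ofReal_mul (div_nonneg zero_le_two (hκ n).le),
            ← ENNReal.ofReal_mul (hX0 n)]
      _ ≤ _ := by
          refine ENNReal.ofReal_le_ofReal ?_
          have hkey := algebra_key k n Cc L c0 Cw V R ((4 : ℝ) ^ m) ‖h‖ S (by linarith)
            (by linarith) hc0.ne' hR.ne'
          rw [hW, show X n * (2 / κ n * (Cw * ((2 * a) ^ k * (2 * b)) *
            ((R * 4 ^ m) ^ (k + 1) * V) * S)) = _ from hkey, ← hK]
          have hSR : S / R = dd ε v (J - (n + 3)) j (p i) + ∑ l ∈ Finset.range (J - (n + 3)),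
              (4 : ℝ) ^ (l + 1) / 4 ^ J * dd ε v l j (p i) := by
            rw [hSdef, add_div, mul_div_cancel_left₀ _ hR.ne', Finset.sum_div]
            refine congrArg _ (Finset.sum_congr rfl fun l _ => ?_)
            rw [hRdef]; unfold rho
            field_simp
          rw [hSR]
          set D := dd ε v (J - (n + 3)) j (p i) + ∑ l ∈ Finset.range (J - (n + 3)),
              (4 : ℝ) ^ (l + 1) / 4 ^ J * dd ε v l j (p i) with hD
          have hD0 : 0 ≤ D := hSR ▸ div_nonneg hS0 hR.le
          have hx : (4 / 3 : ℝ) / 2 ^ k ≤ 2 / 3 := by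
            rw [div_le_iff₀ (by positivity)]
            have : (2 : ℝ) ≤ 2 ^ k := le_self_pow₀ (by norm_num) (by omega)
            linarith
          have hxn : ((4 / 3 : ℝ) / 2 ^ k) ^ n ≤ (2 / 3) ^ n :=
            pow_le_pow_left₀ (by positivity) hx n
          calc K * ‖h‖ * ((4 / 3 : ℝ) / 2 ^ k) ^ n * (R ^ (k + 1) * D)
              ≤ K * ‖h‖ * (2 / 3 : ℝ) ^ n * (R ^ (k + 1) * D) := by gcongr
            _ = _ := by ring
  calc ∫⁻ t, volume ((witSet N J g t \ OmBig (16 * R) g t) \ {x | x + h ∈ Om g t})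
      ≤ ∫⁻ t, ∑' i, ∑ n ∈ Finset.range (N + 1),
          Cu * ENNReal.ofReal (X n) * volume (Prod.mk t ⁻¹' T i n) := lintegral_mono hpoint
    _ = ∑' i, ∑ n ∈ Finset.range (N + 1),
          ∫⁻ t, Cu * ENNReal.ofReal (X n) * volume (Prod.mk t ⁻¹' T i n) := by
        rw [lintegral_tsum fun i => (Finset.measurable_fun_sum _ fun n _ =>
          (hTmeas i n).const_mul _).aemeasurable]
        exact tsum_congr fun i => lintegral_finsetSum _ fun n _ => (hTmeas i n).const_mul _
    _ ≤ ∑' i, Cu * (ENNReal.ofReal (K * ‖h‖) * ENNReal.ofReal (∫ x in cell R i, F x)) := by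
        refine ENNReal.tsum_le_tsum fun i => le_trans (Finset.sum_le_sum (hcell i)) ?_
        rw [← Finset.mul_sum, ← ENNReal.ofReal_sum_of_nonneg fun n hn => mul_nonneg
          (mul_nonneg hK0 (norm_nonneg _)) (mul_nonneg (by positivity) (mul_nonneg (by positivity)
            (add_nonneg ((hspec (J - (n + 3)) (by omega)).2.2.1 _) (Finset.sum_nonneg fun l hl =>
              mul_nonneg (by positivity) ((hspec l (hle n l hl)).2.2.1 _))))),
          ← ENNReal.ofReal_mul (by positivity), ← Finset.mul_sum, ← Finset.mul_sum]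
        gcongr
        exact hple i
    _ = Cu * (ENNReal.ofReal (K * ‖h‖) * ENNReal.ofReal (∫ x, F x)) := by
        rw [ENNReal.tsum_mul_left, ENNReal.tsum_mul_left, tsum_cell hR hFi hF0]
    _ = _ := by
        rw [hFint, ENNReal.ofReal_mul hK0, ofReal_norm]
        ring

theorem general_bound (hd : 2 ≤ d) : ∃ (C : ℝ≥0∞) (m : ℕ), C ≠ ⊤ ∧
    ∀ (g : EE d → ℝ) (v : EE d → EE d), IsPot g v → ∀ (N J0 : ℕ) (h : EE d),
      ∫⁻ t in Ioi (0 : ℝ), volume (goodSet N J0 g t \ {x | x + h ∈ Om g t}) ≤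
        C * ‖h‖ₑ * ENNReal.ofReal (phi (epsN N) v 0 - phi (epsN N) v (J0 + m)) := by
  obtain ⟨C, m, hC, hb⟩ := scale_bound hd
  refine ⟨C * ENNReal.ofReal (100 * ((m : ℝ) + 3)), m,
    ENNReal.mul_ne_top hC ENNReal.ofReal_ne_top, fun g v hp N J0 h => ?_⟩
  have hε := epsN_pos N
  have hsub : ∀ t, volume (goodSet N J0 g t \ {x | x + h ∈ Om g t}) ≤
      ∑ J ∈ Finset.Ico (N + 4) J0, volume
        ((witSet N J g t \ OmBig (16 * rho (epsN N) J) g t) \ {x | x + h ∈ Om g t}) := by
    intro t
    unfold goodSet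
    simp only [iUnion_sdiff]
    exact measure_biUnion_finset_le _ _
  have hmeas : ∀ J, Measurable fun t => volume
      ((witSet N J g t \ OmBig (16 * rho (epsN N) J) g t) \ {x | x + h ∈ Om g t}) := fun J =>
    measurable_measure_prodMk_left
      (((isOpen_witSet N J g).measurableSet.diff (isOpen_OmBig _ g).measurableSet).diff
        (measurableSet_shiftOm g h))
  have hpsi : ∀ J ∈ Finset.Ico (N + 4) J0, 0 ≤ psi (epsN N) v N m J := by
    intro J hJ
    refine Finset.sum_nonneg fun n _ => mul_nonneg (by positivity) (add_nonneg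
      (sub_nonneg.mpr (phi_anti hε hp.contv hp.intv (by omega)))
      (Finset.sum_nonneg fun l hl => mul_nonneg (by positivity)
        (sub_nonneg.mpr (phi_anti hε hp.contv hp.intv (by
          have := Finset.mem_range.mp hl; omega)))))
  calc ∫⁻ t in Ioi (0 : ℝ), volume (goodSet N J0 g t \ {x | x + h ∈ Om g t})
      ≤ ∫⁻ t, ∑ J ∈ Finset.Ico (N + 4) J0, volume
          ((witSet N J g t \ OmBig (16 * rho (epsN N) J) g t) \ {x | x + h ∈ Om g t}) :=
        le_trans (setLIntegral_le_lintegral _ _) (lintegral_mono hsub)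
    _ ≤ ∑ J ∈ Finset.Ico (N + 4) J0, C * ‖h‖ₑ * ENNReal.ofReal (psi (epsN N) v N m J) := by
        rw [lintegral_finsetSum _ fun J _ => hmeas J]
        exact Finset.sum_le_sum fun J hJ => hb g v hp N J (Finset.mem_Ico.mp hJ).1 h
    _ ≤ _ := by
        rw [← Finset.mul_sum, ← ENNReal.ofReal_sum_of_nonneg hpsi,
          mul_right_comm C (ENNReal.ofReal _) ‖h‖ₑ, mul_assoc (C * ‖h‖ₑ) (ENNReal.ofReal _),
          ← ENNReal.ofReal_mul (by positivity)]
        gcongr
        exact sum_psi hε hp.contv hp.intv N m J0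

theorem master_full (hd : 2 ≤ d) : ∃ C : ℝ≥0∞, C ≠ ⊤ ∧
    ∀ (g : EE d → ℝ) (v : EE d → EE d), IsPot g v → (∀ x, 0 ≤ g x) → ∀ h : EE d,
      ∫⁻ t in Ioi (0 : ℝ), volume (Om g t \ {x | x + h ∈ Om g t}) ≤
        C * ‖h‖ₑ * ∫⁻ x, ‖v x‖ₑ := by
  obtain ⟨C, m, hC, hb⟩ := general_bound hd
  refine ⟨C, hC, fun g v hp hg0 h => ?_⟩
  have := lintegral_Om_le (by omega) hp.int hg0 h MeasurableSet.empty
    (X := C * ‖h‖ₑ * ∫⁻ x, ‖v x‖ₑ) ?_
  · simpa using this
  intro N
  simp only [mem_empty_iff_false, ofPred_false, sdiff_empty]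
  refine le_trans (hb g v hp N (3 * N + 1) h) ?_
  gcongr
  refine le_trans (ENNReal.ofReal_le_ofReal (sub_le_self _ ?_)) (le_of_eq ?_)
  · exact integral_nonneg fun x => norm_nonneg _
  · exact ofReal_integral_norm_eq_lintegral_enorm hp.intv

theorem master_tail (hd : 2 ≤ d) : ∃ (C : ℝ≥0∞) (C' : ℝ), C ≠ ⊤ ∧ 0 < C' ∧
    ∀ (g : EE d → ℝ) (v : EE d → EE d), IsPot g v → (∀ x, 0 ≤ g x) → ∀ δ : ℝ, 0 < δ →
    ∀ h : EE d,
      ∫⁻ t in Ioi (0 : ℝ), volume ((Om g t \ OmBig δ g t) \ {x | x + h ∈ Om g t}) ≤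
        C * ‖h‖ₑ * omega v (C' * δ) := by
  obtain ⟨C, m, hC, hb⟩ := general_bound hd
  refine ⟨C, 2 * 4 ^ (m + 1), hC, by positivity, fun g v hp hg0 δ hδ h => ?_⟩
  refine lintegral_Om_le (by omega) hp.int hg0 h (isOpen_OmBig δ g).measurableSet fun N => ?_
  have hε := epsN_pos N
  classical
  have hex : ∃ J, δ ≤ rho (epsN N) J := by
    obtain ⟨J, hJ⟩ := pow_unbounded_of_one_lt (δ / epsN N) (by norm_num : (1 : ℝ) < 4)
    exact ⟨J, by unfold rho; rw [div_lt_iff₀ hε] at hJ; linarith⟩
  set J0 := min (Nat.find hex) (3 * N + 1) with hJ0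
  have hsub : ∀ t, (goodSet N (3 * N + 1) g t \ {y | (t, y) ∈ {p : ℝ × EE d |
      p.2 ∈ OmBig δ g p.1}}) \ {x | x + h ∈ Om g t} ⊆
      goodSet N J0 g t \ {x | x + h ∈ Om g t} := by
    rintro t y ⟨⟨hy, hbig⟩, hyh⟩
    refine ⟨?_, hyh⟩
    simp only [goodSet, mem_iUnion, Finset.mem_Ico] at hy ⊢
    obtain ⟨J, ⟨hJ1, hJ2⟩, hw, hb'⟩ := hy
    refine ⟨J, ⟨hJ1, lt_min ?_ hJ2⟩, hw, hb'⟩
    obtain ⟨z, r, hr1, -, hr3, hr4⟩ := hw
    by_contra hle
    push Not at hle
    refine hbig ⟨z, r, le_trans (Nat.find_spec hex) (le_trans (rho_mono hε hle) hr1), ?_, hr3⟩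
    rw [mem_ball, dist_eq_norm]
    refine lt_of_lt_of_le hr4 (mul_le_of_le_one_right ?_ ?_)
    · exact (lt_of_lt_of_le (master_rho_pos N J) hr1).le
    · have : (0 : ℝ) ≤ (1 / 4) ^ N := by positivity
      linarith
  refine le_trans (lintegral_mono fun t => measure_mono (hsub t)) ?_
  rcases le_or_gt J0 (N + 4) with hsmall | hbig
  · simp [goodSet, Finset.Ico_eq_empty_of_le hsmall]
  refine le_trans (hb g v hp N J0 h) ?_
  gcongr
  refine le_trans (phi_tail hε hp.contv hp.intv (J0 + m)) (omega_mono v ?_)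
  have h1 : rho (epsN N) (J0 - 1) < δ :=
    not_le.mp (Nat.find_min hex (by omega))
  have h2 : rho (epsN N) (J0 + m) = 4 ^ (m + 1) * rho (epsN N) (J0 - 1) := by
    unfold rho
    rw [show J0 + m = m + 1 + (J0 - 1) by omega, pow_add]
    ring
  rw [h2]
  have h4 : (0 : ℝ) ≤ 4 ^ (m + 1) := by positivity
  nlinarith

end Vale.Agent.P137
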