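import Vale.Agent.P137.Cap
import Vale.Agent.P137.Cover

/-!
Auxiliary lemmas for the assembly: exhaustion of the superlevel set by witness sets, grid cells,
measurability, and the summation of the telescoping bounds.
-/

namespace Vale.Agent.P137

open MeasureTheory Metric Filter Topology Set
open scoped ENNReal RealInnerProductSpace Pointwise

noncomputable section

variable {d : ℕ}

/-- The resolution used at the stage `N`. -/
def epsN (N : ℕ) : ℝ := (1 / 16) ^ N

theorem epsN_pos (N : ℕ) : 0 < epsN N := by unfold epsN; positivity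

theorem master_rho_pos (N J : ℕ) : 0 < rho (epsN N) J := by
  unfold rho epsN; positivity

theorem rho_succ_two (N J : ℕ) : rho (epsN (N + 1)) (J + 2) = rho (epsN N) J := by
  unfold rho epsN; rw [pow_succ, pow_succ, pow_succ]; ring

theorem rho_mono {ε : ℝ} (hε : 0 < ε) {a b : ℕ} (h : a ≤ b) : rho ε a ≤ rho ε b :=
  mul_le_mul_of_nonneg_left (pow_le_pow_right₀ (by norm_num) h) hε.le

/-- Points with a witness ball at the scale `J` and some room inside it. -/
def witSet (N J : ℕ) (g : EE d → ℝ) (t : ℝ) : Set (EE d) :=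
  {y | ∃ z r, rho (epsN N) J ≤ r ∧ r < 4 * rho (epsN N) J ∧ t < avg g z r ∧
    ‖y - z‖ < r * (1 - (1 / 4) ^ N)}

/-- The part of the superlevel set seen at the stage `N` below the scale `J0`. -/
def goodSet (N J0 : ℕ) (g : EE d → ℝ) (t : ℝ) : Set (EE d) :=
  ⋃ J ∈ Finset.Ico (N + 4) J0, witSet N J g t \ OmBig (16 * rho (epsN N) J) g t

theorem witSet_subset_Om (N J : ℕ) (g : EE d → ℝ) (t : ℝ) : witSet N J g t ⊆ Om g t := by
  rintro y ⟨z, r, hr, -, ht, hy⟩
  refine ⟨z, r, ?_, ht⟩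
  rw [mem_ball, dist_eq_norm]
  have hr0 : 0 < r := lt_of_lt_of_le (master_rho_pos N J) hr
  refine lt_of_lt_of_le hy (mul_le_of_le_one_right hr0.le ?_)
  have : (0 : ℝ) ≤ (1 / 4) ^ N := by positivity
  linarith

theorem goodSet_mono (g : EE d → ℝ) (t : ℝ) :
    Monotone fun N => goodSet N (3 * N + 1) g t := by
  refine monotone_nat_of_le_succ fun N => ?_
  intro y hy
  simp only [goodSet, mem_iUnion, Finset.mem_Ico] at hy ⊢
  obtain ⟨J, ⟨hJ1, hJ2⟩, hw, hb⟩ := hy
  refine ⟨J + 2, ⟨by omega, by omega⟩, ?_, by rw [rho_succ_two]; exact hb⟩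
  obtain ⟨z, r, h1, h2, h3, h4⟩ := hw
  refine ⟨z, r, by rw [rho_succ_two]; exact h1, by rw [rho_succ_two]; exact h2, h3, ?_⟩
  refine lt_of_lt_of_le h4 (mul_le_mul_of_nonneg_left ?_ ?_)
  · have : (1 / 4 : ℝ) ^ (N + 1) ≤ (1 / 4) ^ N :=
      pow_le_pow_of_le_one (by norm_num) (by norm_num) (Nat.le_succ N)
    linarith
  · exact (lt_of_lt_of_le (master_rho_pos N J) h1).le

theorem iUnion_goodSet (hd : 1 ≤ d) {g : EE d → ℝ} (hgi : Integrable g) (hg0 : ∀ x, 0 ≤ g x)
    {t : ℝ} (ht : 0 < t) : ⋃ N, goodSet N (3 * N + 1) g t = Om g t := by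
  refine Subset.antisymm ?_ ?_
  · intro y hy
    simp only [goodSet, mem_iUnion] at hy
    obtain ⟨N, J, -, hw, -⟩ := hy
    exact witSet_subset_Om _ _ _ _ hw
  intro y hy
  obtain ⟨z1, r1, hy1, ht1⟩ := hy
  set S : Set ℝ := {r | ∃ z, y ∈ ball z r ∧ t < avg g z r} with hS
  have hS1 : r1 ∈ S := ⟨z1, hy1, ht1⟩
  have hpos : ∀ r ∈ S, 0 < r := fun r ⟨z, hz, _⟩ => dist_nonneg.trans_lt (mem_ball.mp hz)
  set V := volume.real (ball (0 : EE d) 1) with hV
  have hV0 : 0 < V :=
    ENNReal.toReal_pos (measure_ball_pos _ _ one_pos).ne' measure_ball_lt_top.ne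
  have hbdd : BddAbove S := by
    refine ⟨max 1 ((∫ x, g x) / (t * V)), fun r hr => ?_⟩
    have hr0 := hpos r hr
    obtain ⟨z, -, ht'⟩ := hr
    rcases le_or_gt r 1 with h | h
    · exact h.trans (le_max_left _ _)
    refine le_trans ?_ (le_max_right _ _)
    rw [le_div_iff₀ (mul_pos ht hV0)]
    have hvol : volume.real (ball z r) = r ^ d * V := by
      rw [Measure.real, Measure.addHaar_ball_of_pos _ _ hr0, finrank_euclideanSpace,
        Fintype.card_fin, ENNReal.toReal_mul, ENNReal.toReal_ofReal (by positivity)]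
      rfl
    unfold avg at ht'
    rw [hvol, ← div_eq_inv_mul, lt_div_iff₀ (by positivity)] at ht'
    have h2 : r ≤ r ^ d := le_self_pow₀ h.le (by omega)
    have h3 : ∫ x in ball z r, g x ≤ ∫ x, g x :=
      setIntegral_le_integral hgi (Eventually.of_forall hg0)
    calc r * (t * V) ≤ r ^ d * (t * V) := mul_le_mul_of_nonneg_right h2 (by positivity)
      _ = t * (r ^ d * V) := by ring
      _ ≤ ∫ x, g x := by linarith
  set s := sSup S
  have hs0 : 0 < s := lt_of_lt_of_le (hpos _ hS1) (le_csSup hbdd hS1)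
  obtain ⟨r, hrS, hrs⟩ := exists_lt_of_lt_csSup ⟨r1, hS1⟩ (show s / 2 < s by linarith)
  have hr0 := hpos r hrS
  obtain ⟨z, hyz, htr⟩ := hrS
  rw [mem_ball, dist_eq_norm] at hyz
  obtain ⟨j, hj1, hj2⟩ := exists_mem_Ico_zpow hr0 (show (1 : ℝ) < 4 by norm_num)
  obtain ⟨N0, hN0⟩ := exists_pow_lt_of_lt_one (show 0 < (r - ‖y - z‖) / r from
    div_pos (by linarith) hr0) (show (1 / 4 : ℝ) < 1 by norm_num)
  set N := N0 + j.natAbs + 4 with hN
  obtain ⟨J, hJ⟩ : ∃ J : ℕ, (J : ℤ) = j + 2 * N := ⟨(j + 2 * N).toNat, by omega⟩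
  have hrho : rho (epsN N) J = (4 : ℝ) ^ j := by
    unfold rho epsN
    rw [← zpow_natCast (4 : ℝ) J, hJ, zpow_add₀ (by norm_num), zpow_mul,
      show ((4 : ℝ) ^ (2 : ℤ)) = 16 by norm_num, zpow_natCast, div_pow, one_pow]
    field_simp
  simp only [mem_iUnion, goodSet, Finset.mem_Ico]
  refine ⟨N, J, ⟨by omega, by omega⟩, ⟨z, r, hrho ▸ hj1, ?_, htr, ?_⟩, ?_⟩
  · rw [hrho]
    calc r < (4 : ℝ) ^ (j + 1) := hj2
      _ = 4 * (4 : ℝ) ^ j := by rw [zpow_add₀ (by norm_num), zpow_one]; ring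
  · have h1 : (1 / 4 : ℝ) ^ N ≤ (1 / 4) ^ N0 :=
      pow_le_pow_of_le_one (by norm_num) (by norm_num) (by omega)
    rw [lt_div_iff₀ hr0] at hN0
    nlinarith
  · rintro ⟨z', r', hr', hy', ht''⟩
    have h1 := le_csSup hbdd (show r' ∈ S from ⟨z', hy', ht''⟩)
    rw [hrho] at hr'
    rw [zpow_add₀ (by norm_num), zpow_one] at hj2
    linarith

theorem isOpen_Om (g : EE d → ℝ) : IsOpen {p : ℝ × EE d | p.2 ∈ Om g p.1} := by
  have : {p : ℝ × EE d | p.2 ∈ Om g p.1} =
      ⋃ (z : EE d) (r : ℝ), Iio (avg g z r) ×ˢ ball z r := by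
    ext ⟨t, y⟩
    simp only [Om, mem_ofPred_eq, mem_iUnion, mem_prod, mem_Iio]
    exact exists_congr fun z => exists_congr fun r => and_comm
  rw [this]
  exact isOpen_iUnion fun z => isOpen_iUnion fun r => isOpen_Iio.prod isOpen_ball

theorem isOpen_OmBig (δ : ℝ) (g : EE d → ℝ) : IsOpen {p : ℝ × EE d | p.2 ∈ OmBig δ g p.1} := by
  have : {p : ℝ × EE d | p.2 ∈ OmBig δ g p.1} =
      ⋃ (z : EE d) (r : ℝ) (_ : δ ≤ r), Iio (avg g z r) ×ˢ ball z r := by
    ext ⟨t, y⟩
    simp only [OmBig, mem_ofPred_eq, mem_iUnion, mem_prod, mem_Iio, exists_prop]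
    exact exists_congr fun z => exists_congr fun r => by tauto
  rw [this]
  exact isOpen_iUnion fun z => isOpen_iUnion fun r => isOpen_iUnion fun _ =>
    isOpen_Iio.prod isOpen_ball

theorem isOpen_witSet (N J : ℕ) (g : EE d → ℝ) :
    IsOpen {p : ℝ × EE d | p.2 ∈ witSet N J g p.1} := by
  have : {p : ℝ × EE d | p.2 ∈ witSet N J g p.1} =
      ⋃ (z : EE d) (r : ℝ) (_ : rho (epsN N) J ≤ r ∧ r < 4 * rho (epsN N) J),
        Iio (avg g z r) ×ˢ ball z (r * (1 - (1 / 4) ^ N)) := by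
    ext ⟨t, y⟩
    simp only [witSet, mem_ofPred_eq, mem_iUnion, mem_prod, mem_Iio, exists_prop, mem_ball,
      dist_eq_norm]
    exact exists_congr fun z => exists_congr fun r => by tauto
  rw [this]
  exact isOpen_iUnion fun z => isOpen_iUnion fun r => isOpen_iUnion fun _ =>
    isOpen_Iio.prod isOpen_ball

theorem measurableSet_goodSet (N J0 : ℕ) (g : EE d → ℝ) :
    MeasurableSet {p : ℝ × EE d | p.2 ∈ goodSet N J0 g p.1} := by
  have : {p : ℝ × EE d | p.2 ∈ goodSet N J0 g p.1} = ⋃ J ∈ Finset.Ico (N + 4) J0,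
      {p : ℝ × EE d | p.2 ∈ witSet N J g p.1} \
        {p : ℝ × EE d | p.2 ∈ OmBig (16 * rho (epsN N) J) g p.1} := by
    ext p
    simp only [goodSet, mem_ofPred_eq, mem_iUnion, Set.mem_sdiff]
  rw [this]
  exact Finset.measurableSet_biUnion _ fun J _ =>
    (isOpen_witSet N J g).measurableSet.diff (isOpen_OmBig _ g).measurableSet

theorem measurableSet_shiftOm (g : EE d → ℝ) (h : EE d) :
    MeasurableSet {p : ℝ × EE d | p.2 + h ∈ Om g p.1} :=
  ((isOpen_Om g).preimage (continuous_fst.prodMk (continuous_snd.add continuous_const)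
    : Continuous fun p : ℝ × EE d => (p.1, p.2 + h))).measurableSet

/-- Passing to the limit in the stage. -/
theorem lintegral_Om_le (hd : 1 ≤ d) {g : EE d → ℝ} (hgi : Integrable g) (hg0 : ∀ x, 0 ≤ g x)
    (h : EE d) {B : Set (ℝ × EE d)} (hB : MeasurableSet B) {X : ℝ≥0∞}
    (hX : ∀ N, ∫⁻ t in Ioi (0 : ℝ),
      volume ((goodSet N (3 * N + 1) g t \ {y | (t, y) ∈ B}) \ {x | x + h ∈ Om g t}) ≤ X) :
    ∫⁻ t in Ioi (0 : ℝ),
      volume ((Om g t \ {y | (t, y) ∈ B}) \ {x | x + h ∈ Om g t}) ≤ X := by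
  set F : ℕ → ℝ → ℝ≥0∞ := fun N t =>
    volume ((goodSet N (3 * N + 1) g t \ {y | (t, y) ∈ B}) \ {x | x + h ∈ Om g t}) with hF
  have hFm : ∀ N, Measurable (F N) := fun N =>
    measurable_measure_prodMk_left
      (((measurableSet_goodSet N (3 * N + 1) g).diff hB).diff (measurableSet_shiftOm g h))
  have hmono : Monotone F := fun a b hab t =>
    measure_mono (sdiff_subset_sdiff_left (sdiff_subset_sdiff_left (goodSet_mono g t hab)))
  have heq : ∫⁻ t in Ioi (0 : ℝ),
      volume ((Om g t \ {y | (t, y) ∈ B}) \ {x | x + h ∈ Om g t}) =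
      ∫⁻ t in Ioi (0 : ℝ), ⨆ N, F N t := by
    refine setLIntegral_congr_fun measurableSet_Ioi fun t ht => ?_
    simp only [hF]
    rw [← iUnion_goodSet hd hgi hg0 ht, iUnion_sdiff, iUnion_sdiff]
    exact Monotone.measure_iUnion fun a b hab =>
      sdiff_subset_sdiff_left (sdiff_subset_sdiff_left (goodSet_mono g t hab))
  rw [heq, lintegral_iSup hFm hmono]
  exact iSup_le hX

/-- A grid cell. -/
def cell (ρ : ℝ) (i : Fin d → ℤ) : Set (EE d) := {x | ∀ k, ⌊x k / ρ⌋ = i k}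

theorem cell_eq {ρ : ℝ} (hρ : 0 < ρ) (i : Fin d → ℤ) :
    cell ρ i = (WithLp.ofLp : EE d → Fin d → ℝ) ⁻¹'
      Set.pi univ fun k => Ico ((i k : ℝ) * ρ) (((i k : ℝ) + 1) * ρ) := by
  ext x
  simp only [cell, mem_ofPred_eq, mem_preimage, Set.mem_pi, mem_univ, true_implies, mem_Ico]
  refine forall_congr' fun k => ?_
  rw [Int.floor_eq_iff, le_div_iff₀ hρ, div_lt_iff₀ hρ]

theorem measurableSet_cell {ρ : ℝ} (hρ : 0 < ρ) (i : Fin d → ℤ) :
    MeasurableSet (cell ρ i) := by
  rw [cell_eq hρ]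
  exact (PiLp.volume_preserving_ofLp (Fin d)).measurable
    (MeasurableSet.univ_pi fun k => measurableSet_Ico)

theorem volume_cell {ρ : ℝ} (hρ : 0 < ρ) (i : Fin d → ℤ) :
    volume (cell ρ i) = ENNReal.ofReal (ρ ^ d) := by
  rw [cell_eq hρ, (PiLp.volume_preserving_ofLp (Fin d)).measure_preimage
    (MeasurableSet.univ_pi fun k => measurableSet_Ico).nullMeasurableSet, Real.volume_pi_Ico]
  simp only [show ∀ k, ((i k : ℝ) + 1) * ρ - (i k : ℝ) * ρ = ρ from fun k => by ring]
  rw [Finset.prod_const, Finset.card_univ, Fintype.card_fin, ENNReal.ofReal_pow hρ.le]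

theorem norm_sub_le_of_cell {ρ : ℝ} (hρ : 0 < ρ) {i : Fin d → ℤ} {x y : EE d}
    (hx : x ∈ cell ρ i) (hy : y ∈ cell ρ i) : ‖x - y‖ ≤ d * ρ := by
  rcases Nat.eq_zero_or_pos d with h | h
  · subst h
    rw [Subsingleton.elim x y]
    simp
  have hk : ∀ k, |x k - y k| ≤ ρ := by
    intro k
    have hx' := Int.floor_eq_iff.mp (hx k)
    have hy' := Int.floor_eq_iff.mp (hy k)
    rw [le_div_iff₀ hρ, div_lt_iff₀ hρ] at hx' hy'
    rw [abs_le]
    constructor <;> linarith
  have hd1 : (1 : ℝ) ≤ d := by exact_mod_cast h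
  have hnn : (0 : ℝ) ≤ d * ρ := by positivity
  refine (sq_le_sq₀ (norm_nonneg _) hnn).mp ?_
  rw [EuclideanSpace.norm_sq_eq]
  calc ∑ k, ‖(x - y) k‖ ^ 2 ≤ ∑ _k : Fin d, ρ ^ 2 := Finset.sum_le_sum fun k _ => by
        refine pow_le_pow_left₀ (norm_nonneg _) ?_ 2
        simpa using hk k
    _ = d * ρ ^ 2 := by simp
    _ ≤ (d * ρ) ^ 2 := by nlinarith

theorem iUnion_cell (ρ : ℝ) : ⋃ i : Fin d → ℤ, cell ρ i = (univ : Set (EE d)) :=
  eq_univ_of_forall fun x => mem_iUnion.mpr ⟨fun k => ⌊x k / ρ⌋, fun _ => rfl⟩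

theorem exists_cell_point {ρ : ℝ} (hρ : 0 < ρ) {F : EE d → ℝ} (hF : Integrable F)
    (i : Fin d → ℤ) : ∃ p ∈ cell ρ i, ρ ^ d * F p ≤ ∫ x in cell ρ i, F x := by
  have hv := volume_cell hρ i
  have h0 : volume (cell ρ i) ≠ 0 := by
    rw [hv, ne_eq, ENNReal.ofReal_eq_zero, not_le]; positivity
  obtain ⟨p, hp, hle⟩ := exists_le_setAverage h0 (by rw [hv]; exact ENNReal.ofReal_ne_top)
    hF.integrableOn
  refine ⟨p, hp, ?_⟩
  rw [setAverage_eq, Measure.real, hv, ENNReal.toReal_ofReal (by positivity), smul_eq_mul,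
    ← div_eq_inv_mul, le_div_iff₀ (by positivity)] at hle
  linarith

theorem tsum_cell {ρ : ℝ} (hρ : 0 < ρ) {F : EE d → ℝ} (hF : Integrable F) (hF0 : ∀ x, 0 ≤ F x) :
    ∑' i : Fin d → ℤ, ENNReal.ofReal (∫ x in cell ρ i, F x) = ENNReal.ofReal (∫ x, F x) := by
  simp only [ofReal_integral_eq_lintegral_ofReal hF.integrableOn (Eventually.of_forall hF0)]
  rw [ofReal_integral_eq_lintegral_ofReal hF (Eventually.of_forall hF0),
    ← lintegral_iUnion (fun i => measurableSet_cell hρ i) ?_, iUnion_cell, setLIntegral_univ]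
  intro i j hij
  refine disjoint_left.mpr fun x hx hy => hij (funext fun k => ?_)
  exact (hx k).symm.trans (hy k)

/-- A ball inside a given ball, containing a given point, with centre near the point. -/
theorem exists_subball {z y : EE d} {r s : ℝ} (hs : 0 < s) (hsr : s ≤ r) (hy : y ∈ ball z r) :
    ∃ a, ball a s ⊆ ball z r ∧ y ∈ ball a s := by
  rw [mem_ball, dist_eq_norm] at hy
  rcases le_or_gt ‖y - z‖ (r - s) with h | h
  · exact ⟨y, ball_subset_ball' (by rw [dist_eq_norm]; linarith), mem_ball_self hs⟩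
  have hD : 0 < ‖y - z‖ := lt_of_le_of_lt (by linarith) h
  set c := (r - s) / ‖y - z‖ with hc
  have hc0 : 0 ≤ c := div_nonneg (by linarith) hD.le
  have hc1 : c * ‖y - z‖ = r - s := div_mul_cancel₀ _ hD.ne'
  refine ⟨z + c • (y - z), ball_subset_ball' ?_, ?_⟩
  · rw [dist_eq_norm, add_sub_cancel_left, norm_smul, Real.norm_of_nonneg hc0, hc1]; linarith
  · rw [mem_ball, dist_eq_norm, show y - (z + c • (y - z)) = (1 - c) • (y - z) by module,
      norm_smul, Real.norm_of_nonneg (by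
        rw [sub_nonneg, hc, div_le_one hD]; exact h.le), sub_mul, one_mul, hc1]
    linarith

theorem measurable_setIntegral_section {α β : Type*} [MeasurableSpace α] [MeasurableSpace β]
    {μ : Measure β} [SFinite μ] {S : Set (α × β)} (hS : MeasurableSet S) {G : β → ℝ}
    (hG : Measurable G) : Measurable fun q => ∫ y in Prod.mk q ⁻¹' S, G y ∂μ := by
  have hm : StronglyMeasurable (S.indicator fun p : α × β => G p.2) :=
    ((hG.comp measurable_snd).indicator hS).stronglyMeasurable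
  have h2 := (hm.integral_prod_right' (ν := μ)).measurable
  have heq : (fun q => ∫ y in Prod.mk q ⁻¹' S, G y ∂μ) =
      fun q => ∫ y, S.indicator (fun p : α × β => G p.2) (q, y) ∂μ := by
    funext q
    rw [← integral_indicator (hS.preimage measurable_prodMk_left)]
    congr 1
  rw [heq]
  exact h2

theorem measurable_setIntegral_win {G : EE d → ℝ} (hG : Measurable G) (e : EE d) (a b : ℝ) :
    Measurable fun q => ∫ y in win e q a b, G y := by
  have hset : MeasurableSet {p : EE d × EE d | p.2 ∈ win e p.1 a b} :=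
    ((isClosed_le (f := fun p : EE d × EE d => ‖p.2 - p.1‖) (by fun_prop)
      continuous_const).inter (isClosed_le (f := fun p : EE d × EE d => |⟪p.2 - p.1, e⟫|)
      (by fun_prop) continuous_const)).measurableSet
  exact measurable_setIntegral_section (μ := (volume : Measure (EE d))) hset hG

theorem measurable_loss {ε : ℝ} {v : EE d → EE d} (e : EE d)
    (hG : ∀ l, Measurable (gdef ε v e l)) (a b : ℝ) (i : ℕ) (R : ℝ) :
    Measurable fun q => loss ε v e (win e q a b) i R := by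
  have h : ∀ l, Measurable fun q => ∫ y in win e q a b, gdef ε v e l y :=
    fun l => measurable_setIntegral_win (hG l) e a b
  have h1 : Measurable fun q => R * ∫ y in win e q a b, gdef ε v e i y := (h i).const_mul R
  have h2 : Measurable fun q =>
      ∑ l ∈ Finset.range i, rho ε (l + 1) * ∫ y in win e q a b, gdef ε v e l y :=
    Finset.measurable_fun_sum (Finset.range i) fun l _ => (h l).const_mul (rho ε (l + 1))
  exact h1.add h2

theorem loss_mono {ε : ℝ} (hε : 0 ≤ ε) {v : EE d → EE d} {e : EE d}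
    (hG : ∀ l, Integrable (gdef ε v e l)) (hG0 : ∀ l y, 0 ≤ gdef ε v e l y)
    {W W' : Set (EE d)} (hW : W ⊆ W') (i : ℕ) {R : ℝ} (hR : 0 ≤ R) :
    loss ε v e W i R ≤ loss ε v e W' i R := by
  have h : ∀ l, ∫ y in W, gdef ε v e l y ≤ ∫ y in W', gdef ε v e l y := fun l =>
    setIntegral_mono_set (hG l).integrableOn (Eventually.of_forall (hG0 l))
      (Eventually.of_forall hW)
  unfold loss
  refine add_le_add (mul_le_mul_of_nonneg_left (h i) hR)
    (Finset.sum_le_sum fun l _ => mul_le_mul_of_nonneg_left (h l) ?_)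
  exact mul_nonneg hε (by positivity)

theorem win_subset {e q q' : EE d} {a b : ℝ} (h1 : ‖q' - q‖ ≤ a) (h2 : |⟪q' - q, e⟫| ≤ b) :
    win e q a b ⊆ win e q' (2 * a) (2 * b) := by
  rintro y ⟨hy1, hy2⟩
  rw [show y - q = (y - q') + (q' - q) by abel, inner_add_left] at hy2
  refine ⟨?_, ?_⟩
  · calc ‖y - q'‖ = ‖(y - q) - (q' - q)‖ := by congr 1; abel
      _ ≤ ‖y - q‖ + ‖q' - q‖ := norm_sub_le _ _
      _ ≤ 2 * a := by linarith
  · rw [abs_le] at hy2 h2 ⊢
    constructor <;> linarith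

theorem omega_mono (v : EE d → EE d) {s s' : ℝ} (h : s ≤ s') : omega v s ≤ omega v s' :=
  iSup_mono fun _ => iSup_mono' fun hu => ⟨hu.trans h, le_rfl⟩

/-- The telescoped bound at the scale `J`. -/
def psi (ε : ℝ) (v : EE d → EE d) (N m J : ℕ) : ℝ :=
  ∑ n ∈ Finset.range (N + 1), (2 / 3 : ℝ) ^ n *
    (phi ε v (J - (n + 3)) - phi ε v (J + m) +
      ∑ l ∈ Finset.range (J - (n + 3)), (4 : ℝ) ^ (l + 1) / 4 ^ J * (phi ε v l - phi ε v (J + m)))

theorem sum_psi {ε : ℝ} (hε : 0 < ε) {v : EE d → EE d} (hc : Continuous v) (hi : Integrable v)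
    (N m J0 : ℕ) :
    ∑ J ∈ Finset.Ico (N + 4) J0, psi ε v N m J ≤
      100 * ((m : ℝ) + 3) * (phi ε v 0 - phi ε v (J0 + m)) := by
  set D := phi ε v 0 - phi ε v (J0 + m) with hD
  have hD0 : 0 ≤ D := sub_nonneg.mpr (phi_anti hε hc hi (Nat.zero_le _))
  have hanti : ∀ {l j : ℕ}, l ≤ j → 0 ≤ phi ε v l - phi ε v j := fun h =>
    sub_nonneg.mpr (phi_anti hε hc hi h)
  have hgeo : ∀ (x : ℝ), 0 ≤ x → x < 1 → ∀ M, ∑ k ∈ Finset.range M, x ^ k ≤ 1 / (1 - x) := by
    intro x hx0 hx1 M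
    rw [le_div_iff₀ (by linarith), geom_sum_mul_neg]
    nlinarith [pow_nonneg hx0 M]
  have h2 : ∀ n, ∑ J ∈ Finset.Ico (N + 4) J0, ∑ l ∈ Finset.range (J - (n + 3)),
      (4 : ℝ) ^ (l + 1) / 4 ^ J * (phi ε v l - phi ε v (J + m)) ≤ 8 * ((m : ℝ) + 3) * D := by
    intro n
    calc ∑ J ∈ Finset.Ico (N + 4) J0, ∑ l ∈ Finset.range (J - (n + 3)),
          (4 : ℝ) ^ (l + 1) / 4 ^ J * (phi ε v l - phi ε v (J + m))
        ≤ ∑ J ∈ Finset.range J0, ∑ k ∈ Finset.Ico 1 (J + 1),
            4 * (1 / 4 : ℝ) ^ k * (phi ε v (J - k) - phi ε v (J + m)) := by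
          refine le_trans (Finset.sum_le_sum fun J hJ => ?_)
            (Finset.sum_le_sum_of_subset_of_nonneg (fun J hJ => Finset.mem_range.mpr
              (Finset.mem_Ico.mp hJ).2) fun J _ _ => Finset.sum_nonneg fun k _ =>
                mul_nonneg (by positivity) (hanti (by omega)))
          calc ∑ l ∈ Finset.range (J - (n + 3)),
                (4 : ℝ) ^ (l + 1) / 4 ^ J * (phi ε v l - phi ε v (J + m))
              ≤ ∑ l ∈ Finset.range J,
                (4 : ℝ) ^ (l + 1) / 4 ^ J * (phi ε v l - phi ε v (J + m)) :=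
                Finset.sum_le_sum_of_subset_of_nonneg (Finset.range_subset_range.mpr (by omega))
                  fun l hl _ => mul_nonneg (by positivity)
                    (hanti (by have := Finset.mem_range.mp hl; omega))
            _ = _ := by
                rw [Finset.sum_Ico_eq_sum_range, Nat.add_sub_cancel]
                rw [← Finset.sum_range_reflect]
                refine Finset.sum_congr rfl fun k hk => ?_
                rw [Finset.mem_range] at hk
                rw [show J - 1 - k = J - (1 + k) by omega]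
                congr 1
                rw [div_pow, one_pow]
                have : (4 : ℝ) ^ J = 4 ^ (J - (1 + k)) * 4 ^ (1 + k) := by
                  rw [← pow_add]; congr 1; omega
                rw [this, pow_succ]
                field_simp
      _ = ∑ k ∈ Finset.Ico 1 J0, ∑ J ∈ Finset.Ico k J0,
            4 * (1 / 4 : ℝ) ^ k * (phi ε v (J - k) - phi ε v (J + m)) := by
          refine Finset.sum_comm' fun J k => ?_
          simp only [Finset.mem_range, Finset.mem_Ico]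
          omega
      _ ≤ ∑ k ∈ Finset.Ico 1 J0, 4 * (1 / 4 : ℝ) ^ k * (((k : ℝ) + m) * D) := by
          refine Finset.sum_le_sum fun k _ => ?_
          rw [← Finset.mul_sum]
          exact mul_le_mul_of_nonneg_left (sum_phi hε hc hi k m J0) (by positivity)
      _ ≤ ∑ k ∈ Finset.Ico 1 J0, 4 * ((m : ℝ) + 3) * D * (1 / 2) ^ k := by
          refine Finset.sum_le_sum fun k _ => ?_
          have h1 : (k : ℝ) + m ≤ ((m : ℝ) + 3) * 2 ^ k := by
            have hk : (k : ℝ) ≤ 2 ^ k := by exact_mod_cast Nat.lt_two_pow_self.le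
            have h1 : (1 : ℝ) ≤ 2 ^ k := one_le_pow₀ (by norm_num)
            have hm : (0 : ℝ) ≤ m := Nat.cast_nonneg m
            nlinarith
          calc 4 * (1 / 4 : ℝ) ^ k * (((k : ℝ) + m) * D)
              ≤ 4 * (1 / 4 : ℝ) ^ k * (((m : ℝ) + 3) * 2 ^ k * D) :=
                mul_le_mul_of_nonneg_left (mul_le_mul_of_nonneg_right h1 hD0) (by positivity)
            _ = 4 * ((m : ℝ) + 3) * D * ((1 / 4 : ℝ) * 2) ^ k := by rw [mul_pow]; ring
            _ = _ := by norm_num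
      _ ≤ ∑ k ∈ Finset.range J0, 4 * ((m : ℝ) + 3) * D * (1 / 2) ^ k :=
          Finset.sum_le_sum_of_subset_of_nonneg
            (fun k hk => Finset.mem_range.mpr (Finset.mem_Ico.mp hk).2) fun k _ _ => by positivity
      _ ≤ 4 * ((m : ℝ) + 3) * D * 2 := by
          rw [← Finset.mul_sum]
          exact mul_le_mul_of_nonneg_left
            (le_of_le_of_eq (hgeo _ (by norm_num) (by norm_num) _) (by norm_num)) (by positivity)
      _ = _ := by ring
  have h1 : ∀ n ∈ Finset.range (N + 1), ∑ J ∈ Finset.Ico (N + 4) J0,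
      (phi ε v (J - (n + 3)) - phi ε v (J + m)) ≤ ((n : ℝ) + 1) * ((m : ℝ) + 3) * D := by
    intro n hn
    rw [Finset.mem_range] at hn
    refine le_trans (Finset.sum_le_sum_of_subset_of_nonneg
      (Finset.Ico_subset_Ico_left (by omega : n + 3 ≤ N + 4)) fun J hJ _ => hanti (by omega)) ?_
    refine le_trans (sum_phi hε hc hi (n + 3) m J0) ?_
    refine mul_le_mul_of_nonneg_right ?_ hD0
    have hm : (0 : ℝ) ≤ m := Nat.cast_nonneg m
    have hn' : (0 : ℝ) ≤ n := Nat.cast_nonneg n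
    push_cast
    nlinarith
  unfold psi
  rw [Finset.sum_comm]
  calc ∑ n ∈ Finset.range (N + 1), ∑ J ∈ Finset.Ico (N + 4) J0, (2 / 3 : ℝ) ^ n *
        (phi ε v (J - (n + 3)) - phi ε v (J + m) + ∑ l ∈ Finset.range (J - (n + 3)),
          (4 : ℝ) ^ (l + 1) / 4 ^ J * (phi ε v l - phi ε v (J + m)))
      ≤ ∑ n ∈ Finset.range (N + 1),
          (2 / 3 : ℝ) ^ n * (((n : ℝ) + 1) * ((m : ℝ) + 3) * D + 8 * ((m : ℝ) + 3) * D) := by
        refine Finset.sum_le_sum fun n hn => ?_
        rw [← Finset.mul_sum, Finset.sum_add_distrib]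
        exact mul_le_mul_of_nonneg_left (add_le_add (h1 n hn) (h2 n)) (by positivity)
    _ ≤ ∑ n ∈ Finset.range (N + 1), 12 * ((m : ℝ) + 3) * D * (5 / 6) ^ n := by
        refine Finset.sum_le_sum fun n _ => ?_
        have hb : (n : ℝ) + 1 ≤ 4 * (5 / 4) ^ n := by
          have := one_add_mul_le_pow (show (-2 : ℝ) ≤ 1 / 4 by norm_num) n
          norm_num at this ⊢
          linarith
        have hb1 : (1 : ℝ) ≤ (5 / 4) ^ n := one_le_pow₀ (by norm_num)
        calc (2 / 3 : ℝ) ^ n * (((n : ℝ) + 1) * ((m : ℝ) + 3) * D + 8 * ((m : ℝ) + 3) * D)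
            = (2 / 3 : ℝ) ^ n * ((n : ℝ) + 9) * (((m : ℝ) + 3) * D) := by ring
          _ ≤ (2 / 3 : ℝ) ^ n * (12 * (5 / 4) ^ n) * (((m : ℝ) + 3) * D) :=
              mul_le_mul_of_nonneg_right (mul_le_mul_of_nonneg_left (by linarith) (by positivity))
                (by positivity)
          _ = 12 * ((m : ℝ) + 3) * D * ((2 / 3) * (5 / 4)) ^ n := by rw [mul_pow]; ring
          _ = _ := by norm_num
    _ ≤ 12 * ((m : ℝ) + 3) * D * 6 := by
        rw [← Finset.mul_sum]
        exact mul_le_mul_of_nonneg_left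
          (le_of_le_of_eq (hgeo _ (by norm_num) (by norm_num) _) (by norm_num)) (by positivity)
    _ ≤ _ := by
        have : 0 ≤ ((m : ℝ) + 3) * D := by positivity
        linarith

end

end Vale.Agent.P137
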